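import Vale.Agent.P318.B.Fc
import Vale.Agent.P318.M.Deriv
import Vale.Agent.P318.M.Ramp
import Vale.Agent.P318.M.Bit

/-! The block theorem. -/

namespace Vale.Agent.P318.B

open Finset MeasureTheory Vale.Agent.P318.M Vale.Agent.P318.M.Block Real

namespace BlockB

theorem norm_ch_sub (x : ℝ) : ‖ch (-(1 / 2 * x)) - ch (1 / 2 * x)‖ ≤ 2 * π * |x| := by
  have e : ch (-(1 / 2 * x)) - ch (1 / 2 * x) =
      ch (1 / 2 * x) * (Complex.exp (Complex.I * (-(2 * π * x) : ℝ)) - 1) := by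
    rw [mul_sub, mul_one, ch, ch, ← Complex.exp_add]
    congr 2
    push_cast; ring
  rw [e, norm_mul, Fc.norm_ch, one_mul]
  refine norm_exp_I_mul_ofReal_sub_one_le.trans (le_of_eq ?_)
  rw [norm_neg, Real.norm_eq_abs, abs_mul, abs_of_pos (by positivity)]

theorem term_le (p e : ℂ) (x : ℝ) {u : ℝ} (hu : 0 < u) :
    (p * (starRingEnd ℂ) e * ch (-(1 / 2 * x)) - p * (starRingEnd ℂ) e * ch (1 / 2 * x)).re ≤
      u * ‖p‖ ^ 2 + π ^ 2 / u * ‖e‖ ^ 2 * x ^ 2 := by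
  refine (Complex.re_le_norm _).trans ?_
  rw [← mul_sub, norm_mul, norm_mul, Complex.norm_conj]
  refine (mul_le_mul_of_nonneg_left (norm_ch_sub x) (by positivity)).trans ?_
  rw [← sq_abs x]
  refine le_of_mul_le_mul_left ?_ hu
  rw [mul_add, show u * (π ^ 2 / u * ‖e‖ ^ 2 * |x| ^ 2) = (π * ‖e‖ * |x|) ^ 2 by field_simp]
  nlinarith [sq_nonneg (u * ‖p‖ - π * ‖e‖ * |x|)]

variable {ι κ : Type} [Fintype ι] [DecidableEq ι] [Fintype κ] {Γ : AddSubgroup (κ → ℝ)}
  {J : Finset ι} {s : ι → κ → ℤ} {β μ R sp nb : ℝ}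

omit [Fintype ι] in
theorem dir_sq (H : BHyp Γ J s β μ R sp nb) (m : κ → ℤ) :
    ∑ l ∈ J, ip m (dir s l) ^ 2 ≤ 16 * β * msq m / cd κ := by
  have hM : 0 < cd κ := one_pos.trans_le H.pos
  have h1 : ∀ l ∈ J, ip m (dir s l) ^ 2 ≤ 16 / cd κ ^ 2 * ip (s l) (fun k => (m k : ℝ)) ^ 2 := by
    intro l hl
    have h2 := H.nrm l hl
    have e : ip m (dir s l) = ip (s l) (fun k => (m k : ℝ)) / gram s l l := by
      rw [ip, ip, sum_div]
      exact sum_congr rfl fun k _ => by rw [dir]; ring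
    rw [e, div_pow]
    calc _ ≤ ip (s l) (fun k => (m k : ℝ)) ^ 2 / (cd κ / 4) ^ 2 := by gcongr
      _ = _ := by field_simp; norm_num
  refine (sum_le_sum h1).trans ?_
  rw [← mul_sum]
  refine (mul_le_mul_of_nonneg_left (H.op _) (by positivity)).trans (le_of_eq ?_)
  rw [show nsq (fun k => (m k : ℝ)) = msq m from rfl]
  field_simp

theorem msq_nonneg (m : κ → ℤ) : 0 ≤ msq m := sum_nonneg fun _ _ => sq_nonneg _

/-- the estimate for a finite set of frequencies -/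
theorem freq {a e T : (κ → ℤ) → ℝ} {M Λ ω W Lo : ℝ} (hM : 0 < M) (hΛ : 0 < Λ) (hω : 0 < ω)
    (hβ : 0 < β) (he : ∀ m, 0 ≤ e m)
    (hT : ∀ m u, 0 < u → T m ≤ u * a m + π ^ 2 / u * e m * (16 * β * msq m / M))
    (h1 : ∀ S : Finset (κ → ℤ), ∑ m ∈ S, a m ≤ W)
    (h2 : ∀ S : Finset (κ → ℤ), (∀ m ∈ S, m ≠ 0 ∧ msq m ≤ Λ ^ 2 * M) → ∑ m ∈ S, e m ≤ Lo)
    (h3 : ∀ S : Finset (κ → ℤ), ∑ m ∈ S, msq m * a m ≤ 3 * (β * M) / ω ^ 2 ∧
      ∑ m ∈ S, msq m * e m ≤ β * M / (π ^ 2 * ω ^ 2)) (S : Finset (κ → ℤ)) :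
    ∑ m ∈ S, T m ≤ W / 2 + 32 * π ^ 2 * Λ ^ 2 * β * Lo + 14 * β * √β / (ω ^ 2 * Λ) := by
  classical
  have hb : 0 < √β := sqrt_pos.2 hβ
  rw [← sum_filter_add_sum_filter_not S fun m => msq m ≤ Λ ^ 2 * M]
  refine add_le_add ?_ ?_
  · set S' := S.filter fun m => msq m ≤ Λ ^ 2 * M
    have k1 : ∀ m ∈ S', T m ≤ 1 / 2 * a m +
        32 * π ^ 2 * Λ ^ 2 * β * (if m ≠ 0 then e m else 0) := fun m hm => by
      refine (hT m _ one_half_pos).trans (add_le_add le_rfl ?_)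
      split_ifs with h0
      · have := he m
        calc _ ≤ π ^ 2 / (1 / 2) * e m * (16 * β * (Λ ^ 2 * M) / M) := by
              gcongr; exact (mem_filter.1 hm).2
          _ = _ := by field_simp; ring
      · rw [not_not.1 h0]; simp [msq]
    refine (sum_le_sum k1).trans ?_
    rw [sum_add_distrib, ← mul_sum, ← mul_sum, ← sum_filter]
    have k2 := h2 (S'.filter fun m => m ≠ 0) fun m hm =>
      ⟨(mem_filter.1 hm).2, (mem_filter.1 (mem_filter.1 hm).1).2⟩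
    exact add_le_add (by linarith [h1 S']) (mul_le_mul_of_nonneg_left k2 (by positivity))
  · set S' := S.filter fun m => ¬ msq m ≤ Λ ^ 2 * M
    have k1 : ∀ m ∈ S', T m ≤ 2 * √β / (M * Λ) * (msq m * a m) +
        8 * π ^ 2 * √β / (M * Λ) * (msq m * e m) := fun m hm => by
      have k2 : Λ ^ 2 * M < msq m := not_le.1 (mem_filter.1 hm).2
      have k3 : 0 < msq m := lt_trans (by positivity) k2
      refine (hT m (2 * √β / (M * Λ) * msq m) (by positivity)).trans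
        (add_le_add (le_of_eq (by ring)) ?_)
      have := he m
      calc _ = 8 * π ^ 2 * √β / (M * Λ) * (Λ ^ 2 * M * e m) := by
            conv_lhs => rw [← mul_self_sqrt hβ.le, sqrt_mul_self hb.le]
            field_simp; ring
        _ ≤ _ := by gcongr
    refine (sum_le_sum k1).trans ?_
    rw [sum_add_distrib, ← mul_sum, ← mul_sum]
    refine (add_le_add (mul_le_mul_of_nonneg_left (h3 S').1 (by positivity))
      (mul_le_mul_of_nonneg_left (h3 S').2 (by positivity))).trans (le_of_eq ?_)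
    field_simp; ring

end BlockB

open BlockB in
theorem blockB_proof (hF : FcStmt) (hR : RegStmt) (hCo : CombStmt) (hL : LowStmt)
    (hH : HighStmt) : BlockBStmt := by
  intro ι κ _ _ _ Γ J s β μ R sp nb ω A1 e1 Λ c2 Θ L H h0 h8 hA he hFl hΛ hc hL1 hFar hΘ t h hU hi
  have hM : 0 < cd κ := one_pos.trans_le H.pos
  have hβ : 0 < β := one_pos.trans_le H.one_le_b
  have Ra := ramp_proof.2 ω h0 h8
  obtain ⟨-, cb, -, wb, -⟩ := deriv_proof ramp_proof bit_proof ι ω h h0 h8 hU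
  obtain ⟨⟨bE, pE, -⟩, r1, r2, -⟩ := hR ι κ Γ s ω t h H.int h0 h8 hU hi
  choose _ _ bp pp bd _ bc pc bi _ bq _ bdp _ using r1
  have Co := hCo ι κ Γ J s ω A1 e1 L t h H.int
    (fun l hl => lt_of_lt_of_le (by positivity) (H.nrm l hl)) h0 h8 hL1 hFl hU hi
  have Lo := hL ι κ Γ J s ω (β * cd κ) _ _ L t h H.int H.dual H.zero (by positivity) H.op
    (by positivity) hL1 hFar h0 h8 hU hi
  have Hi := hH ι κ Γ J s ω (β * cd κ) t h H.int H.zero H.ent (by positivity)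
    (le_mul_of_one_le_left hM.le H.one_le_b) H.op h0 h8 hU hi
  have eW : tm (fun η => W1 ω J h (t + lin s η)) =
      ∑ l ∈ J, tm fun η => pq ω ((t + lin s η) l) * c1 ω h l (t + lin s η) ^ 2 :=
    tm_sum J fun l _ => bm_mul (bq l) (bm_sq (bc l))
  have Fl := hFl t h hU hi (ps ω h t s) (fun l η => |c1 ω h l (t + lin s η)|)
    (tm fun η => Inf ω J h (t + lin s η))
    (fun l => ⟨bp l, pp l, bm_abs (bc l), fun η n => congrArg abs (pc l η n)⟩)
    (fun l η => ⟨abs_nonneg _, ((cb l).2.2 _).1.trans ((cb l).2.2 _).2, by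
      rw [ps, abs_mul, abs_of_nonneg (Ra.pq_nonneg _)]⟩)
    (by
      simp only [sq_abs]
      rw [← eW]
      exact (tm_mono (r2 J).1 (bm_const 1) fun η => ((wb J).2.2.2 _).2.1).trans (tm_const 1).le)
    ((sum_le_sum fun l _ => tm_mono (bm_mul (bq l) (bm_abs (bc l))) (bm_mul (bdp l) (bi l))
      fun η => mul_le_mul (Ra.pq_le_dpr _) ((cb l).2.2 _).1 (abs_nonneg _) (Ra.dpr_nonneg _)).trans
      (tm_sum J fun l _ => bm_mul (bdp l) (bi l)).ge) le_rfl
  have e1' : ∑ l ∈ J, tm (fun η => ps ω h t s l η * (del ω h t s l η - c1 ω h l (t + lin s η))) =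
      ∑ l ∈ J, tm (fun η => ps ω h t s l η * del ω h t s l η)
        - tm fun η => W1 ω J h (t + lin s η) := by
    rw [eW, ← sum_sub_distrib]
    refine sum_congr rfl fun l _ => ?_
    rw [← tm_sub (bm_mul (bp l) (bd l)) (bm_mul (bq l) (bm_sq (bc l)))]
    congr 1; ext η; rw [ps]; ring
  have Pa : ∀ l, HasSum (fun m : κ → ℤ => (fc (ps ω h t s l) m * (starRingEnd ℂ)
      (fc (mE ω h t s) m) * ch (-(1 / 2 * ip m (dir s l))) - fc (ps ω h t s l) m * (starRingEnd ℂ)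
      (fc (mE ω h t s) m) * ch (1 / 2 * ip m (dir s l))).re)
      (tm fun η => ps ω h t s l η * del ω h t s l η) := fun l => by
    have a := Complex.hasSum_re (((torus_proof κ).2.1 _ _ (pp l) (bp l) pE bE
      ((1 / 2 : ℝ) • dir s l)).sub ((torus_proof κ).2.1 _ _ (pp l) (bp l) pE bE
      ((-(1 / 2) : ℝ) • dir s l)))
    rw [← Complex.ofReal_sub, Complex.ofReal_re, ← tm_sub
      (bm_mul (bp l) (bm_comp bE (measurable_add_const _)))
      (bm_mul (bp l) (bm_comp bE (measurable_add_const _)))] at a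
    simp only [ip_smul, neg_mul, neg_neg] at a
    simpa only [← mul_sub, del, neg_smul, ← sub_eq_add_neg] using a
  have Pb := hasSum_le_of_sum_le (hasSum_sum fun l (_ : l ∈ J) => Pa l)
    (freq (a := fun m => ∑ l ∈ J, ‖fc (ps ω h t s l) m‖ ^ 2)
      (e := fun m => ‖fc (mE ω h t s) m‖ ^ 2) (W := tm fun η => W1 ω J h (t + lin s η))
      hM hΛ h0 hβ (fun m => by positivity) (fun m u hu => by
        refine (sum_le_sum fun l _ => term_le _ _ _ hu).trans ?_
        rw [sum_add_distrib, ← mul_sum, ← mul_sum]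
        exact add_le_add le_rfl (mul_le_mul_of_nonneg_left (dir_sq H m) (by positivity)))
      (fun S => by
        rw [sum_comm, eW]
        refine sum_le_sum fun l _ => ((hF κ).2.2.2.1 _ (pp l) (bp l) S).trans
          (tm_mono (bm_sq (bp l)) (bm_mul (bq l) (bm_sq (bc l))) fun η => ?_)
        rw [ps, mul_pow]
        refine mul_le_mul_of_nonneg_right ?_ (sq_nonneg _)
        nlinarith [Ra.pq_nonneg ((t + lin s η) l), Ra.pq_le ((t + lin s η) l)]) Lo Hi)
  have n1 : 0 ≤ ∑ l ∈ J, tm fun η => cq ω h t s L l η ^ 2 :=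
    sum_nonneg fun l _ => tm_nonneg fun η => sq_nonneg _
  have hΘ0 : 0 ≤ Θ := le_trans (by positivity) hΘ
  have k1 : 32 * π ^ 2 * Λ ^ 2 * β * (β * cd κ / (π ^ 2 * (c2 * cd κ)) *
      ∑ l ∈ J, tm fun η => cq ω h t s L l η ^ 2) ≤
      Θ / 2 * ∑ l ∈ J, tm fun η => cq ω h t s L l η ^ 2 := by
    rw [← mul_assoc]
    refine mul_le_mul_of_nonneg_right (le_trans (le_of_eq ?_)
      (div_le_div_of_nonneg_right hΘ two_pos.le)) n1
    field_simp; ring
  have k2 := mul_le_mul_of_nonneg_left Co hΘ0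
  have k3 := (abs_le.1 Fl).1
  rw [e1'] at k3
  generalize tm (fun η => W1 ω J h (t + lin s η)) = W at *
  generalize tm (fun η => Inf ω J h (t + lin s η)) = I at *
  calc W ≤ 2 * (A1 * I + e1) + Θ * (4 / ω ^ 2 * (A1 * I + e1) + I / (ω * L))
        + 2 * (14 * β * √β / (ω ^ 2 * Λ)) := by linarith
    _ = _ := by ring

end Vale.Agent.P318.B
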