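import Vale.Agent.P318.B.Stmt
import Vale.Agent.P318.M.Ramp

/-!
The block theorem with all parameters expressed by `Y`.
-/

namespace Vale.Agent.P318.B

open Finset MeasureTheory Vale.Agent.P318.M

namespace BlockNum

theorem inf_nonneg {ι : Type} [Fintype ι] [DecidableEq ι] {ω : ℝ} (h0 : 0 < ω) (h1 : ω ≤ 1 / 8)
    (J : Finset ι) (h : (ι → ℤ) → ℝ) (y : ι → ℝ) : 0 ≤ Inf ω J h y := by
  have hR := ramp_proof.2 ω h0 h1
  refine sum_nonneg fun j _ => mul_nonneg (hR.dpr_nonneg _) (sum_nonneg fun b _ =>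
    mul_nonneg (prod_nonneg fun i _ => ?_) (abs_nonneg _))
  unfold wt1
  split_ifs
  · exact hR.pr_nonneg _
  · exact sub_nonneg.2 (hR.pr_le _)

theorem mono {ι κ : Type} [Fintype ι] [DecidableEq ι] [Fintype κ] {Γ : AddSubgroup (κ → ℝ)}
    {J : Finset ι} {s : ι → κ → ℤ} {ω A A' ε ε' : ℝ} (h0 : 0 < ω) (h1 : ω ≤ 1 / 8)
    (h : BlockB ω A ε Γ J s) (hA : A ≤ A') (hε : ε ≤ ε') : BlockB ω A' ε' Γ J s :=
  fun t f hf hi => (h t f hf hi).trans (add_le_add (mul_le_mul_of_nonneg_right hA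
    (integral_nonneg fun _ => inf_nonneg h0 h1 J f _)) hε)

theorem floor_ge {x : ℝ} (hx : 2 ≤ x) : x / 2 ≤ ⌊x⌋₊ := by
  have := Nat.lt_floor_add_one x
  linarith

/-- the numerical data -/
structure Num (Y m μ r nb ω β : ℝ) : Prop where
  hY : 10 ^ 7 ≤ Y
  hm : Y ^ 35 ≤ m
  mu0 : 0 ≤ μ
  mu : μ ≤ 2 * Y * m
  r0 : 0 < r
  r1 : r ≤ m / Y ^ 24
  r2 : m ^ 2 / Y ^ 48 / 2 ≤ r ^ 2
  nb0 : 0 ≤ nb
  nb1 : nb ≤ Y * m ^ 2
  nb2 : nb ≤ Real.exp Y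
  om : 1 / Y ≤ ω
  b0 : 1 ≤ β
  b1 : β ≤ Y

namespace Num

variable {Y m μ r nb ω β : ℝ} (h : Num Y m μ r nb ω β)
include h

theorem Y1 : 1 ≤ Y := le_trans (by norm_num) h.hY

theorem Y0 : 0 < Y := lt_of_lt_of_le one_pos h.Y1

theorem m0 : 0 < m := lt_of_lt_of_le (pow_pos h.Y0 _) h.hm

theorem om0 : 0 < ω := lt_of_lt_of_le (one_div_pos.2 h.Y0) h.om

theorem sV : Real.sqrt (Y ^ 50) = Y ^ 25 := by
  rw [show Y ^ 50 = (Y ^ 25) ^ 2 by ring, Real.sqrt_sq (pow_pos h.Y0 _).le]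

theorem t1 : 4 * (μ * r) / (m ^ 2 * ω) ≤ 8 / Y ^ 22 := by
  have := h.Y0; have := h.m0; have := h.mu0; have := h.r0
  calc _ ≤ 4 * (2 * Y * m * (m / Y ^ 24)) / (m ^ 2 * (1 / Y)) := by
        gcongr
        exacts [h.mu, h.r1, h.om]
    _ = _ := by field_simp; ring

theorem t2 : 12 * nb * (4 * μ / m ^ 2) * Real.sqrt (Y ^ 50) * Real.exp (-Y ^ 2) / ω ≤
    1 / Y ^ 22 := by
  have := h.Y0; have := h.m0; have := h.mu0; have := h.hY
  have e1 : Real.exp Y * Real.exp (-Y ^ 2) ≤ 1 / Y ^ 15 := by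
    rw [← Real.exp_add, le_div_iff₀ (by positivity)]
    calc _ ≤ Real.exp (Y + -Y ^ 2) * Real.exp Y ^ 15 := by
          gcongr
          linarith [Real.add_one_le_exp Y]
      _ ≤ 1 := by
          rw [← Real.exp_nat_mul, ← Real.exp_add, Real.exp_le_one_iff]
          push_cast
          nlinarith
  rw [h.sV]
  calc _ ≤ 12 * Real.exp Y * (4 * (2 * Y * m) / m ^ 2) * Y ^ 25 * Real.exp (-Y ^ 2) / (1 / Y) := by
        gcongr
        exacts [h.nb2, h.mu, h.om]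
    _ = 96 * Y ^ 27 / m * (Real.exp Y * Real.exp (-Y ^ 2)) := by field_simp; ring
    _ ≤ Y * Y ^ 27 / Y ^ 35 * (1 / Y ^ 15) := by
        gcongr
        exacts [by linarith, h.hm]
    _ = _ := by field_simp

theorem t3 : 8 * (μ * r) * Real.sqrt nb / (m ^ 2 * ω * Real.sqrt (Y ^ 50 * r ^ 2)) ≤
    16 / Y ^ 22 := by
  have := h.Y0; have := h.m0; have := h.mu0; have := h.r0; have := h.Y1
  have e1 : Real.sqrt nb ≤ Y * m := Real.sqrt_le_iff.2 ⟨by positivity, h.nb1.trans (by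
    rw [mul_pow]; gcongr; nlinarith)⟩
  rw [Real.sqrt_mul (by positivity), h.sV, Real.sqrt_sq h.r0.le]
  calc _ ≤ 8 * (2 * Y * m * r) * (Y * m) / (m ^ 2 * (1 / Y) * (Y ^ 25 * r)) := by
        gcongr
        exacts [h.mu, h.om]
    _ = _ := by field_simp; ring

theorem sb : Real.sqrt β ≤ Y := Real.sqrt_le_iff.2 ⟨h.Y0.le, h.b1.trans (by nlinarith [h.Y1])⟩

theorem t4 : 6 / ω * Real.sqrt (β / Y ^ 50) ≤ 6 / Y ^ 22 := by
  have := h.Y0; have := h.Y1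
  rw [Real.sqrt_div (by linarith [h.b0]), h.sV]
  calc _ ≤ 6 / (1 / Y) * (Y / Y ^ 25) := by
        gcongr
        exacts [h.om, h.sb]
    _ = 6 / (Y ^ 22 * Y) := by field_simp
    _ ≤ 6 / (Y ^ 22 * 1) := by gcongr
    _ = _ := by rw [mul_one]

theorem e1 : pa0 (m ^ 2) μ (μ * r) nb ω (Y ^ 50) (Y ^ 2) +
    paV (m ^ 2) β (μ * r) (r ^ 2) nb ω (Y ^ 50) ≤ 1 / Y ^ 21 := by
  have := h.Y0; have := h.hY
  calc _ ≤ 39 / Y ^ 22 := by
        unfold pa0 paV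
        have e : (39 : ℝ) / Y ^ 22 = 8 / Y ^ 22 + 1 / Y ^ 22 + (8 / Y ^ 22 + 16 / Y ^ 22 + 6 / Y ^ 22) := by
          ring
        linarith [h.t1, h.t2, h.t3, h.t4]
    _ ≤ Y / Y ^ 22 := by gcongr; linarith
    _ = _ := by field_simp

theorem a1 : paU (m ^ 2) (μ * r) (r ^ 2) nb ω + paI (m ^ 2) μ (μ * r) (r ^ 2) (Y ^ 50) (Y ^ 2) ≤
    Y ^ 29 / m := by
  have := h.Y0; have := h.m0; have := h.mu0; have := h.r0; have := h.Y1; have := h.hY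
  have e1 : Real.sqrt (nb / r ^ 2) ≤ Y ^ 25 := Real.sqrt_le_iff.2 ⟨by positivity, by
    calc _ ≤ Y * m ^ 2 / (m ^ 2 / Y ^ 48 / 2) := by
          gcongr
          exacts [h.nb1, h.r2]
      _ = 2 * Y ^ 49 := by field_simp
      _ ≤ Y * Y ^ 49 := by gcongr; linarith
      _ = _ := by ring⟩
  have e2 : (1 : ℝ) ≤ Y ^ 25 := one_le_pow₀ h.Y1
  unfold paU paI
  rw [h.sV, Real.sqrt_sq h.r0.le]
  calc _ ≤ 8 * (2 * Y * m * r) * (Y ^ 25 + Y ^ 25) / (m ^ 2 * (1 / Y) * r) +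
        (4 * (2 * Y * m * r) * Y ^ 25 / (m ^ 2 * r) +
          2 * Y ^ 2 * (4 * (2 * Y * m) / m ^ 2) * Y ^ 25) := by
        gcongr
        exacts [h.mu, h.om, h.mu, h.mu]
    _ = (32 * Y ^ 27 + 8 * Y ^ 26 + 16 * Y ^ 28) / m := by field_simp; ring
    _ ≤ (32 * Y ^ 28 + 8 * Y ^ 28 + 16 * Y ^ 28) / m := by gcongr <;> norm_num
    _ = 56 * Y ^ 28 / m := by ring
    _ ≤ Y * Y ^ 28 / m := by gcongr; linarith
    _ = _ := by ring

theorem th : 2 + 4 * Y ^ 16 / ω ^ 2 ≤ Y ^ 19 := by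
  have := h.Y0; have := h.hY
  have e2 : (1 : ℝ) ≤ Y ^ 18 := one_le_pow₀ h.Y1
  calc _ ≤ 2 * Y ^ 18 + 4 * Y ^ 16 / (1 / Y) ^ 2 := by
        gcongr
        exacts [by linarith, h.om]
    _ = 6 * Y ^ 18 := by field_simp; ring
    _ ≤ Y * Y ^ 18 := by gcongr; linarith
    _ = _ := by ring

theorem fA {A1 L : ℝ} (h0 : 0 ≤ A1) (h1 : A1 ≤ Y ^ 29 / m) (hL : m / Y ^ 32 / 2 ≤ L) :
    (2 + 4 * Y ^ 16 / ω ^ 2) * A1 + Y ^ 16 / (ω * L) ≤ Y ^ 50 / m := by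
  have := h.Y0; have := h.m0; have := h.Y1; have := h.hY; have := h.om0
  calc _ ≤ Y ^ 19 * (Y ^ 29 / m) + Y ^ 16 / (1 / Y * (m / Y ^ 32 / 2)) := by
        gcongr
        exacts [h.th, h.om]
    _ = (Y ^ 48 + 2 * Y ^ 49) / m := by field_simp
    _ ≤ (Y ^ 49 + 2 * Y ^ 49) / m := by gcongr <;> norm_num
    _ = 3 * Y ^ 49 / m := by ring
    _ ≤ Y * Y ^ 49 / m := by gcongr; linarith
    _ = _ := by ring

theorem fE {e : ℝ} (h0 : 0 ≤ e) (h1 : e ≤ 1 / Y ^ 21) :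
    (2 + 4 * Y ^ 16 / ω ^ 2) * e + 28 * β * Real.sqrt β / (ω ^ 2 * Y ^ 6) ≤ 1 / Y := by
  have := h.Y0; have := h.hY; have := h.om0
  calc _ ≤ Y ^ 19 * (1 / Y ^ 21) + 28 * Y * Y / ((1 / Y) ^ 2 * Y ^ 6) := by
        gcongr
        exacts [h.th, h.b1, h.sb, h.om]
    _ = 29 / Y ^ 2 := by field_simp; ring
    _ ≤ Y / Y ^ 2 := by gcongr; linarith
    _ = _ := by field_simp

theorem f1 {L : ℝ} (h0 : 0 ≤ L) (hL : L ≤ m / Y ^ 32) : 1024 * L ^ 2 * β * (Y ^ 6) ^ 2 ≤ r ^ 2 := by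
  have := h.Y0; have := h.m0; have := h.Y1; have := h.hY; have := h.b0
  calc _ ≤ 1024 * (m / Y ^ 32) ^ 2 * Y * (Y ^ 6) ^ 2 := by
        gcongr
        exact h.b1
    _ = 2048 * (m ^ 2 / Y ^ 51 / 2) := by field_simp; ring
    _ ≤ Y * (m ^ 2 / Y ^ 49 / 2) := by
        gcongr
        exacts [by linarith, by norm_num]
    _ = m ^ 2 / Y ^ 48 / 2 := by field_simp
    _ ≤ _ := h.r2

theorem f2 : 32 * (μ * r) ≤ m ^ 2 := by
  have := h.Y0; have := h.m0; have := h.Y1; have := h.hY; have := h.r0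
  calc _ ≤ 32 * (2 * Y * m * (m / Y ^ 24)) := by
        gcongr
        exacts [h.mu, h.r1]
    _ = 64 * (m ^ 2 / Y ^ 23) := by field_simp; ring
    _ ≤ Y * (m ^ 2 / Y ^ 1) := by
        gcongr
        exacts [by linarith, by norm_num]
    _ = _ := by field_simp

theorem f3 {L : ℝ} (h0 : 0 ≤ L) (hL : L ≤ m / Y ^ 32) : 256 * (Y ^ 6) ^ 2 * μ * L ≤ m ^ 2 := by
  have := h.Y0; have := h.m0; have := h.Y1; have := h.hY
  calc _ ≤ 256 * (Y ^ 6) ^ 2 * (2 * Y * m) * (m / Y ^ 32) := by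
        gcongr
        exact h.mu
    _ = 512 * (m ^ 2 / Y ^ 19) := by field_simp; ring
    _ ≤ Y * (m ^ 2 / Y ^ 1) := by
        gcongr
        exacts [by linarith, by norm_num]
    _ = _ := by field_simp

theorem f4 : 64 * (Y ^ 6) ^ 2 * β ^ 2 / (1 / 10 ^ 6) ≤ Y ^ 16 := by
  have := h.Y0; have := h.hY; have := h.b0
  calc _ ≤ 64 * (Y ^ 6) ^ 2 * Y ^ 2 / (1 / 10 ^ 6) := by
        gcongr
        exact h.b1
    _ = 64 * 10 ^ 6 * Y ^ 14 := by field_simp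
    _ ≤ Y * Y * Y ^ 14 := by gcongr <;> linarith
    _ = _ := by ring

end Num

end BlockNum

open BlockNum in
theorem blockNum_proof (hP : PointStmt) (hFl : FlatStmt) (hB : BlockBStmt) (hFa : FarStmt)
    (hC : ChunkStmt) : BlockNumStmt := by
  intro ι κ _ _ _ Γ J s Y K β ω sp2 hY hM hint hdual hzero hent hnrm hK0 hK hsp2 hrip hb0 hb1 hop
    hn1 hn2 hw0 hw1 hspan
  have Y1 : 1 ≤ Y := le_trans (by norm_num) hY
  have Y0 : 0 < Y := by linarith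
  have M1 : 1 ≤ cd κ := (one_le_pow₀ Y1).trans hM
  obtain ⟨m, m0, hm⟩ : ∃ m, 0 ≤ m ∧ cd κ = m ^ 2 := ⟨_, Real.sqrt_nonneg _,
    (Real.sq_sqrt (by linarith)).symm⟩
  have hm1 : Y ^ 35 ≤ m := abs_le_of_sq_le_sq' (by rw [← hm, ← pow_mul]; exact hM) m0 |>.2
  have two : ∀ {a b : ℕ} {x : ℝ}, Y ^ a ≤ x → b < a → 2 ≤ x / Y ^ b := fun {a b x} h1 h2 => by
    rw [le_div_iff₀ (by positivity)]
    calc 2 * Y ^ b ≤ Y * Y ^ b := by gcongr; linarith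
      _ = Y ^ (b + 1) := by ring
      _ ≤ Y ^ a := pow_le_pow_right₀ Y1 h2
      _ ≤ x := h1
  set sp := ⌊cd κ / Y ^ 48⌋₊ with hsp
  have s1 : cd κ / Y ^ 48 / 2 ≤ sp := floor_ge (two hM (by norm_num))
  have s2 : (sp : ℝ) ≤ cd κ / Y ^ 48 := Nat.floor_le (by positivity)
  have s3 : 1 ≤ sp := Nat.le_floor (by have := two (b := 48) hM (by norm_num); push_cast; linarith)
  have s4 : sp ≤ sp2 := by
    have : (sp : ℝ) ≤ sp2 := s2.trans (by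
      rw [div_le_iff₀ (by positivity)]
      refine hsp2.trans ?_
      rw [mul_comm]
      exact mul_le_mul_of_nonneg_left (le_self_pow₀ Y1 (by norm_num)) (Nat.cast_nonneg _))
    exact_mod_cast this
  have s5 : (1 : ℝ) ≤ sp := by exact_mod_cast s3
  obtain ⟨r, r0, hr⟩ : ∃ r, 0 < r ∧ (sp : ℝ) = r ^ 2 := ⟨_, Real.sqrt_pos.2 (by linarith),
    (Real.sq_sqrt (by linarith)).symm⟩
  set L := ⌊m / Y ^ 32⌋₊ with hL
  have l1 : m / Y ^ 32 / 2 ≤ L := floor_ge (two hm1 (by norm_num))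
  have l2 : (L : ℝ) ≤ m / Y ^ 32 := Nat.floor_le (by positivity)
  have l3 : 1 ≤ L := Nat.le_floor (by have := two (b := 32) hm1 (by norm_num); push_cast; linarith)
  obtain ⟨c1, c2, -, -⟩ := hC ι κ J s
  have c1 := c1 K sp sp2 hK0 s3 s4 hrip
  have c2 := c2 K sp2 (s3.trans s4) hrip
  rw [Real.sqrt_mul (by linarith), ← mul_assoc] at c1
  set μ := K * Real.sqrt (2 * cd κ) with hμ
  have N : Num Y m μ r J.card ω β := ⟨hY, hm1, by positivity, by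
      have : Real.sqrt (2 * cd κ) ≤ 2 * m := Real.sqrt_le_iff.2 ⟨by positivity, by nlinarith⟩
      calc μ ≤ Y * (2 * m) := mul_le_mul hK this (Real.sqrt_nonneg _) Y0.le
        _ = _ := by ring,
    r0, (abs_le_of_sq_le_sq' (by rw [← hr, div_pow, ← hm, ← pow_mul]; exact s2)
      (by positivity)).2, by rw [← hm, ← hr]; exact s1, Nat.cast_nonneg _, hm ▸ hn1, hn2, hw0,
    hb0, hb1⟩
  have w0 := N.om0
  rw [show Real.sqrt sp = r by rw [hr, Real.sqrt_sq r0.le]] at c1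
  have H : BHyp Γ J s β μ (μ * r) sp J.card := ⟨hint, hdual, hzero, hent, M1, hnrm, c2, c1, hop,
    le_rfl, hb0, N.mu0, mul_nonneg N.mu0 r0.le, s5⟩
  have m0 := N.mu0
  have p1 : 0 ≤ paV (cd κ) β (μ * r) sp J.card ω (Y ^ 50) := by unfold paV; positivity
  have p2 : 0 ≤ paU (cd κ) (μ * r) sp J.card ω := by unfold paU; positivity
  have p3 : 0 ≤ paI (cd κ) μ (μ * r) sp (Y ^ 50) (Y ^ 2) := by unfold paI; positivity
  have p4 : 0 ≤ pa0 (cd κ) μ (μ * r) J.card ω (Y ^ 50) (Y ^ 2) := by unfold pa0; positivity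
  have F1 := hFl ι κ Γ J s ω _ _ _ _ hint hzero (fun l hl => by linarith [hnrm l hl]) w0 hw1 p1 p2 p3
    (hP ι κ Γ J s β μ (μ * r) sp J.card ω (Y ^ 50) (Y ^ 2) H w0 hw1 (one_le_pow₀ Y1)
      (by positivity))
  have F2 := (hFa ι κ Γ J s).2 β μ (μ * r) sp J.card (Y ^ 6) (1 / 10 ^ 6) L sp H (by positivity)
    (le_trans (by norm_num) (one_le_pow₀ (one_le_pow₀ Y1))) (by exact_mod_cast l3)
    (by rw [hr]; exact N.f1 (Nat.cast_nonneg _) l2) le_rfl (by rw [hm]; exact N.f2)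
    (by rw [hm]; exact N.f3 (Nat.cast_nonneg _) l2) (by rwa [one_div_mul_eq_div])
  refine mono w0 hw1 (hB ι κ Γ J s β μ (μ * r) sp J.card ω _ _ (Y ^ 6) (1 / 10 ^ 6) (Y ^ 16) L H w0
    hw1 (add_nonneg p2 p3) (add_nonneg p4 p1) F1 (by positivity) (by positivity) l3 F2 N.f4) ?_
    (N.fE (add_nonneg p4 p1) (by rw [hm, hr]; exact N.e1))
  rw [show Real.sqrt (cd κ) = m by rw [hm, Real.sqrt_sq N.m0.le]]
  exact N.fA (add_nonneg p2 p3) (by rw [hm, hr]; exact N.a1) l1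

end Vale.Agent.P318.B
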