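import Vale.Agent.P318.B.Stmt
import Vale.Agent.P318.RProb

/-!
The property `C1` for independent rows.
-/

namespace Vale.Agent.P318.B

open Finset Vale.Agent.P318.M
open scoped BigOperators

namespace C1p

lemma av_ind {α : Type} [Fintype α] (E : α → Prop) : av (fun x => ind (E x)) = R.pr E := by
  unfold av R.pr ind
  rw [Fintype.expect_eq_sum_div_card]

lemma le_pr_of_update {A : Type} [Fintype A] [DecidableEq A] {Ω : A → Type} [∀ a, Fintype (Ω a)]
    [∀ a, Nonempty (Ω a)] (a0 : A) (E : (∀ a, Ω a) → Prop) {q : ℝ}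
    (h : ∀ u, q ≤ R.pr fun t : Ω a0 => E (Function.update u a0 t)) : q ≤ R.pr E := by
  let e : (∀ a, Ω a) × Ω a0 ≃ (∀ a, Ω a) × Ω a0 :=
    { toFun := fun p => (Function.update p.1 a0 p.2, p.1 a0)
      invFun := fun p => (Function.update p.1 a0 p.2, p.1 a0)
      left_inv := fun p => by simp
      right_inv := fun p => by simp }
  have h1 := R.pr_equiv e fun p => E p.1
  have h2 : R.pr (fun p : (∀ a, Ω a) × Ω a0 => E p.1) = R.pr E := by
    rw [R.pr_prod]
    unfold R.pr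
    exact expect_congr rfl fun u _ => by
      by_cases hu : E u <;> simp [hu, expect_const (univ_nonempty (α := Ω a0))]
  rw [← h2, ← h1, R.pr_prod]
  exact le_expect univ_nonempty fun u _ => h u

variable {ι A : Type} [Fintype ι] [DecidableEq ι] [Fintype A] [DecidableEq A] {m Mf : A → ℕ}

omit [DecidableEq ι] [Fintype ι] [DecidableEq A] in
lemma lin_sb (π : (a : A) → ι → Fin (m a)) (r : (a : A) → ι → Fin (Mf a) → ℤ)
    (Δ : Kt (fun J : Bk m => Mf J.1) → ℝ) (i : ι) :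
    lin (tc (M := fun J : Bk m => Mf J.1) (sb π r)) Δ i =
      ∑ a, ip (r a i) (res (M := fun J : Bk m => Mf J.1) Δ ⟨a, π a i⟩) := by
  simp only [lin, ip, tc, Fintype.sum_sigma, sb, res]
  refine sum_congr rfl fun a _ => ?_
  rw [sum_eq_single (π a i)]
  · simp
  · intro j _ hj
    simp [hj.symm]
  · simp

lemma one_pattern (π : (a : A) → ι → Fin (m a)) (Γ : (a : A) → AddSubgroup (Fin (Mf a) → ℝ))
    (T : (a : A) → Finset (Fin (Mf a) → Bool × Bool)) (hT : ∀ a, (T a).Nonempty)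
    (hSB : ∀ a, SB (Γ a) (T a)) (Δ : Kt (fun J : Bk m => Mf J.1) → ℝ) (S : Finset (Bk m))
    {η : ℝ} (h0 : 0 < η) (h1 : η ≤ 1 / 2)
    (hΓ : ∀ J ∈ S, ∀ γ ∈ Γ J.1, η ^ 2 ≤ nsq (res (M := fun J : Bk m => Mf J.1) Δ J - γ)) :
    R.pr (fun x : (a : A) → ι → T a =>
      (((zone (bk π) S).filter fun i => η / 10 ≤ nd (lin (tc (M := fun J : Bk m => Mf J.1)
        (sb π fun a i => rw (x a i).1)) Δ i)).card : ℝ) ≤ ((zone (bk π) S).card : ℝ) / 40) ≤
      Real.exp (-(((zone (bk π) S).card : ℝ) / 160)) := by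
  have : ∀ a, Nonempty (T a) := fun a => (hT a).to_subtype
  have h := R.pr_card_le_le (Ω := fun _ : ι => (a : A) → T a) (zone (bk π) S)
    (fun i u => η / 10 ≤ nd (∑ a, ip (rw (u a).1)
      (res (M := fun J : Bk m => Mf J.1) Δ ⟨a, π a i⟩))) (q := 1 / 20) fun i hi => by
      obtain ⟨⟨a0, j⟩, hJ, hi⟩ := mem_biUnion.1 hi
      have hj : π a0 i = j := (mem_filter.1 hi).2
      subst hj
      refine le_pr_of_update a0 _ fun u => ?_
      have h2 := hSB a0 (res (M := fun J : Bk m => Mf J.1) Δ ⟨a0, π a0 i⟩)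
        (∑ a ∈ univ.erase a0, ip (rw (u a).1) (res (M := fun J : Bk m => Mf J.1) Δ ⟨a, π a i⟩))
        η h0 h1 (hΓ _ hJ)
      rw [av_ind] at h2
      refine h2.trans (le_of_eq ?_)
      congr 1
      funext t
      rw [← add_sum_erase _ _ (mem_univ a0), Function.update_self]
      congr 3
      exact sum_congr rfl fun a ha => by rw [Function.update_of_ne (mem_erase.1 ha).1]
  rw [← R.pr_equiv (Equiv.piComm fun (a : A) (_ : ι) => T a)] at h
  refine le_trans (le_of_eq ?_) (h.trans (le_of_eq ?_))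
  · congr 1
    funext x
    simp only [lin_sb]
    congr 1
    ring
  · congr 1
    ring

end C1p

open C1p in
theorem c1_proof (hP : PatStmt) : C1Stmt := by
  intro ι A _ _ _ _ m Mf π Γ T g Υ hΥ hT hSB
  rw [av_ind]
  refine le_trans ?_ ((hP (Bk m) (fun J => Mf J.1) g).2.2
    fun J => ((bk π J).card : ℝ) / (160 * Υ))
  have hsub := (hP (Bk m) (fun J => Mf J.1) g).1
  let bad : Pat (fun J : Bk m => Mf J.1) g → ((a : A) → ι → T a) → Prop := fun P x =>
    ∃ η : ℝ, 0 < η ∧ η ≤ 1 / 2 ∧ wsz (bk π) (pS P) ≤ Υ * (zone (bk π) (pJ P)).card ∧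
      (∀ J ∈ pJ P, ∀ γ ∈ Γ J.1, η ^ 2 ≤ nsq (res (pD P) J - γ)) ∧
      (((zone (bk π) (pJ P)).filter fun i =>
        η / 10 ≤ nd (pw (sb π fun a i => rw (x a i).1) P i)).card : ℝ) <
          ((zone (bk π) (pJ P)).card : ℝ) / 40
  refine le_trans (R.pr_mono (F := fun x => ∃ P, bad P x) fun x hx => ?_)
    ((R.pr_exists_le bad).trans (sum_le_sum fun P _ => ?_))
  · unfold C1 at hx
    push Not at hx
    exact hx
  by_cases hb : ∃ x, bad P x
  swap
  · have : R.pr (bad P) = 0 := by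
      unfold R.pr
      exact expect_eq_zero fun x _ => if_neg fun h => hb ⟨x, h⟩
    rw [this]
    split_ifs
    · exact le_rfl
    · positivity
  obtain ⟨x0, η0, h1, h2, h3, h4, h5⟩ := hb
  have hZ : (zone (bk π) (pJ P)).Nonempty := by
    rw [← card_pos, ← Nat.cast_pos (α := ℝ)]
    have : (0 : ℝ) ≤ _ := Nat.cast_nonneg ((zone (bk π) (pJ P)).filter fun i =>
      η0 / 10 ≤ nd (pw (sb π fun a i => rw (x0 a i).1) P i)).card
    linarith
  have hS : pS P ≠ ∅ := by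
    obtain ⟨i, hi⟩ := hZ
    obtain ⟨J, hJ, -⟩ := mem_biUnion.1 hi
    exact ne_empty_of_mem (hsub P hJ)
  rw [if_neg hS]
  let Ad : Set ℝ := {η | 0 < η ∧ η ≤ 1 / 2 ∧
    ∀ J ∈ pJ P, ∀ γ ∈ Γ J.1, η ^ 2 ≤ nsq (res (pD P) J - γ)}
  have hne : Ad.Nonempty := ⟨η0, h1, h2, h4⟩
  have hbd : BddAbove Ad := ⟨1 / 2, fun η hη => hη.2.1⟩
  have hpos : 0 < sSup Ad := h1.trans_le (le_csSup hbd ⟨h1, h2, h4⟩)
  have h6 := one_pattern π Γ T hT hSB (pD P) (pJ P) hpos (csSup_le hne fun η hη => hη.2.1)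
    fun J hJ γ hγ => by
      have h7 : sSup Ad ≤ √(nsq (res (pD P) J - γ)) :=
        csSup_le hne fun η hη => Real.le_sqrt_of_sq_le (hη.2.2 J hJ γ hγ)
      exact (Real.le_sqrt hpos.le (sum_nonneg fun _ _ => sq_nonneg _)).1 h7
  refine le_trans (R.pr_mono fun x hx => ?_) (h6.trans (Real.exp_le_exp.2 ?_))
  · obtain ⟨η, g1, g2, -, g4, g5⟩ := hx
    refine le_trans ?_ g5.le
    have g6 : η ≤ sSup Ad := le_csSup hbd ⟨g1, g2, g4⟩
    exact_mod_cast card_le_card fun i hi => mem_filter.2 ⟨(mem_filter.1 hi).1,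
      le_trans (by linarith) (mem_filter.1 hi).2⟩
  · rw [neg_le_neg_iff, ← sum_div, div_le_div_iff₀ (by positivity) (by norm_num)]
    unfold wsz at h3
    nlinarith

end Vale.Agent.P318.B
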