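import Vale.Agent.P318.B.Stmt

/-! Character sums for the code with parity checks `H`. -/

namespace Vale.Agent.P318.B

open Finset Vale.Agent.P318.M
open scoped Real

namespace CharS

variable {M r p : ℕ}

/-- the fractional combination of the rows -/
noncomputable def hh (H : Fin r → Fin M → ZMod p) (y : Fin r → ZMod p) (k : Fin M) : ℝ :=
  ((∑ a, y a * H a k).val : ℝ) / p

/-- the one-coordinate sum -/
noncomputable def WW (ζ : ℂ) : ℂ := (1 + Complex.exp ζ) * (1 + Complex.exp (-ζ))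

theorem av_coe {α : Type} (T : Finset α) (f : α → ℝ) :
    av (fun e : T => f e.1) = (∑ e ∈ T, f e) / T.card := by
  rw [av, sum_coe_sort T f, Fintype.card_coe]

theorem hh_zero (H : Fin r → Fin M → ZMod p) (k : Fin M) : hh H 0 k = 0 := by simp [hh]

theorem exists_int [NeZero p] (c : ZMod p) (n : ℤ) (h : (n : ZMod p) = c) :
    ∃ q : ℤ, (n : ℝ) / p = q + (c.val : ℝ) / p := by
  have h1 : ((c.val : ℤ) : ZMod p) = (n : ZMod p) := by simp [h]
  obtain ⟨q, hq⟩ := (ZMod.intCast_eq_intCast_iff_dvd_sub _ _ _).1 h1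
  have h2 : (n : ℝ) - c.val = p * q := by exact_mod_cast hq
  have h3 : (p : ℝ) ≠ 0 := Nat.cast_ne_zero.2 (NeZero.ne p)
  exact ⟨q, by field_simp; linarith⟩

theorem mem_GH [NeZero p] {H : Fin r → Fin M → ZMod p} {ρ : Fin M → ℝ} :
    ρ ∈ GH H ↔ ∃ (y : Fin r → ZMod p) (n : Fin M → ℤ), ∀ k, ρ k = n k + hh H y k := by
  have key : ∀ (y : Fin r → ℤ) (k : Fin M), ∃ q : ℤ,
      (∑ a, (y a : ℝ) * ((H a k).val : ℝ)) / p = q + hh H (fun a => (y a : ZMod p)) k := fun y k => by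
    simpa [hh] using exists_int (∑ a, (y a : ZMod p) * H a k) (∑ a, y a * (H a k).val) (by simp)
  constructor
  · rintro ⟨y, n, h⟩
    choose q hq using key y
    exact ⟨_, n + q, fun k => by rw [h k, hq k, Pi.add_apply, Int.cast_add, add_assoc]⟩
  · rintro ⟨y, n, h⟩
    choose q hq using key fun a => (y a).val
    refine ⟨fun a => (y a).val, n - q, fun k => ?_⟩
    rw [h k, hq k, Pi.sub_apply, Int.cast_sub]
    simp only [hh, Int.cast_natCast, ZMod.natCast_zmod_val]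
    ring

theorem hh_sub [NeZero p] (H : Fin r → Fin M → ZMod p) (y y' : Fin r → ZMod p) (k : Fin M) :
    ∃ q : ℤ, hh H y k - hh H y' k = q + hh H (y - y') k := by
  simpa [hh, sub_div] using exists_int (∑ a, (y - y') a * H a k)
    ((∑ a, y a * H a k).val - (∑ a, y' a * H a k).val) (by simp [sub_mul])

theorem dual_iff [NeZero p] (H : Fin r → Fin M → ZMod p) (m : Fin M → ℤ) :
    Dual (GH H) m ↔ inK H m := by
  have h3 : (p : ℝ) ≠ 0 := Nat.cast_ne_zero.2 (NeZero.ne p)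
  have e : ∀ a, ((∑ k, m k * (H a k).val : ℤ) : ZMod p) = ∑ k, H a k * (m k : ZMod p) :=
    fun a => by simp [mul_comm]
  constructor
  · intro h a
    obtain ⟨n, hn⟩ := h (fun k => ((H a k).val : ℝ) / p) ⟨Pi.single a 1, 0, fun k => by
      simp [Pi.single_apply]⟩
    have h1 : (∑ k, m k * (H a k).val : ℤ) = p * n := by
      have : ((∑ k, m k * (H a k).val : ℤ) : ℝ) = p * n := by
        rw [← hn, ip, mul_sum]
        push_cast
        exact sum_congr rfl fun k _ => by field_simp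
      exact_mod_cast this
    rw [← e, h1]
    simp
  · rintro h ρ ⟨y, n, hρ⟩
    choose q hq using fun a => (ZMod.intCast_zmod_eq_zero_iff_dvd _ p).1 ((e a).trans (h a))
    have h1 : ∀ a, ∑ k, (m k : ℝ) * ((H a k).val : ℝ) = p * q a := fun a => by
      exact_mod_cast hq a
    refine ⟨∑ k, m k * n k + ∑ a, y a * q a, ?_⟩
    simp only [ip, hρ, mul_add, sum_add_distrib, ← mul_div_assoc, ← sum_div, mul_sum]
    push_cast
    congr 1
    rw [sum_comm, div_eq_iff h3, sum_mul]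
    refine sum_congr rfl fun a _ => ?_
    rw [mul_assoc, mul_comm (q a : ℝ), ← h1, mul_sum]
    exact sum_congr rfl fun k _ => by ring

theorem psi_sum [NeZero p] {ι : Type} (s : Finset ι) (f : ι → ZMod p) :
    ZMod.stdAddChar (∑ i ∈ s, f i) = ∏ i ∈ s, ZMod.stdAddChar (f i) := by
  induction s using Finset.cons_induction with
  | empty => simp
  | cons a s ha ih => rw [sum_cons, prod_cons, AddChar.map_add_eq_mul, ih]

open Classical in
theorem orth [Fact p.Prime] (H : Fin r → Fin M → ZMod p) (m : Fin M → ℤ) :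
    ∑ y : Fin r → ZMod p, ∏ k, Complex.exp (m k * (2 * π * Complex.I * hh H y k)) =
      if inK H m then (p : ℂ) ^ r else 0 := by
  have e : ∀ y : Fin r → ZMod p, ∏ k, Complex.exp (m k * (2 * π * Complex.I * hh H y k)) =
      ∏ a, ZMod.stdAddChar (y a * ∑ k, H a k * (m k : ZMod p)) := fun y => by
    have h1 : ∀ k, Complex.exp (m k * (2 * π * Complex.I * hh H y k)) =
        ZMod.stdAddChar ((m k : ZMod p) * ∑ a, y a * H a k) := fun k => by
      have := ZMod.stdAddChar_coe (N := p) (m k * (∑ a, y a * H a k).val)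
      rw [Int.cast_mul, Int.cast_natCast, ZMod.natCast_zmod_val] at this
      rw [this, hh]
      congr 1
      generalize (∑ a, y a * H a k).val = n
      push_cast
      ring
    simp only [h1]
    rw [← psi_sum, ← psi_sum]
    congr 1
    simp only [mul_sum]
    rw [sum_comm]
    exact sum_congr rfl fun a _ => sum_congr rfl fun k _ => by ring
  simp only [e]
  rw [← Fintype.piFinset_univ, ← prod_univ_sum (fun _ => univ)
    fun a x => ZMod.stdAddChar (x * ∑ k, H a k * (m k : ZMod p))]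
  simp only [AddChar.sum_mulShift _ (ZMod.isPrimitive_stdAddChar p), ZMod.card]
  split_ifs with h
  · simp [h _]
  · obtain ⟨a, ha⟩ := not_forall.1 h
    exact prod_eq_zero (mem_univ a) (by simp [ha])

theorem sum_prod {R : Type} [CommSemiring R] (g : Fin M → ℤ → R) :
    ∑ e : Fin M → Bool × Bool, ∏ k, g k (rw e k) = ∏ k, (g k 0 + g k 1 + g k (-1) + g k 0) := by
  rw [← Fintype.piFinset_univ]
  refine (prod_univ_sum (fun _ => univ) fun k (b : Bool × Bool) =>
    g k ((if b.1 then 1 else 0) - if b.2 then 1 else 0)).symm.trans (prod_congr rfl fun k _ => ?_)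
  simp [Fintype.sum_prod_type, add_assoc]

theorem exp_mul_neg (ζ : ℂ) : Complex.exp ζ * Complex.exp (-ζ) = 1 := by
  rw [← Complex.exp_add, add_neg_cancel, Complex.exp_zero]

theorem master [Fact p.Prime] (H : Fin r → Fin M → ZMod p) (v : Fin M → ℂ) :
    (p : ℂ) ^ r * ∑ e ∈ code H, Complex.exp (∑ k, rw e k * v k) =
      ∑ y : Fin r → ZMod p, ∏ k, WW (v k + 2 * π * Complex.I * hh H y k) := by
  have e : ∀ y : Fin r → ZMod p, ∏ k, WW (v k + 2 * π * Complex.I * hh H y k) =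
      ∑ e : Fin M → Bool × Bool, (∏ k, Complex.exp (rw e k * (2 * π * Complex.I * hh H y k))) *
        Complex.exp (∑ k, rw e k * v k) := fun y => by
    simp only [Complex.exp_sum, ← prod_mul_distrib, ← Complex.exp_add, ← mul_add]
    rw [sum_prod fun k n => Complex.exp (n * (2 * π * Complex.I * hh H y k + v k))]
    refine prod_congr rfl fun k _ => ?_
    rw [WW, add_comm (v k)]
    generalize 2 * π * Complex.I * hh H y k + v k = ζ
    simp only [Int.cast_zero, zero_mul, Complex.exp_zero, Int.cast_one, one_mul, Int.cast_neg,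
      neg_mul]
    linear_combination exp_mul_neg ζ
  simp only [e]
  rw [sum_comm, code, sum_filter, mul_sum]
  refine sum_congr rfl fun e _ => ?_
  rw [← sum_mul, orth]
  split_ifs <;> simp

theorem WW_I (x : ℝ) : WW (2 * π * Complex.I * x) = (4 * Real.cos (π * x) ^ 2 : ℝ) := by
  have h := Complex.two_cos (2 * π * x)
  rw [Real.cos_sq, WW]
  push_cast
  rw [show 2 * ((π : ℂ) * x) = 2 * π * x by ring]
  simp only [mul_add, add_mul, mul_one, one_mul, ← Complex.exp_add, add_neg_cancel, Complex.exp_zero]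
  rw [show 2 * π * Complex.I * x = 2 * π * x * Complex.I by ring, ← neg_mul]
  linear_combination -h

theorem norm_WW (v θ : ℝ) :
    ‖WW (v + 2 * π * Complex.I * θ)‖ ≤ 4 * Real.exp (v ^ 2 - Real.sin (π * θ) ^ 2) := by
  have h1 : ‖WW (v + 2 * π * Complex.I * θ)‖ =
      Real.exp v + Real.exp (-v) + 2 * Real.cos (2 * (π * θ)) := by
    set ζ : ℂ := v + 2 * π * Complex.I * θ with hζ
    have e : WW ζ = (1 + Complex.exp ζ) ^ 2 * Complex.exp (-ζ) := by
      rw [WW]
      linear_combination -(1 + Complex.exp ζ) * exp_mul_neg ζ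
    have r1 : ζ.re = v := by simp [hζ]
    have r2 : ζ.im = 2 * (π * θ) := by simp [hζ, mul_assoc]
    rw [e, norm_mul, norm_pow, Complex.norm_exp, Complex.neg_re, r1, Complex.sq_norm,
      Complex.normSq_apply]
    simp only [Complex.add_re, Complex.one_re, Complex.exp_re, Complex.add_im, Complex.one_im,
      Complex.exp_im, r1, r2, zero_add]
    have h2 : Real.exp v * Real.exp (-v) = 1 := by rw [← Real.exp_add]; simp
    have h3 := Real.sin_sq_add_cos_sq (2 * (π * θ))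
    linear_combination (2 * Real.cos (2 * (π * θ)) + Real.exp v) * h2 +
      Real.exp v ^ 2 * Real.exp (-v) * h3
  have h2 := Real.cosh_le_exp_half_sq v
  rw [Real.cosh_eq] at h2
  have h3 : Real.exp (v ^ 2 - Real.sin (π * θ) ^ 2) =
      Real.exp (v ^ 2 / 2) ^ 2 * Real.exp (-Real.sin (π * θ) ^ 2) := by
    rw [← Real.exp_nat_mul, ← Real.exp_add]
    congr 1
    push_cast
    ring
  have h4 := Real.add_one_le_exp (-Real.sin (π * θ) ^ 2)
  have h5 : 1 / 4 ≤ Real.exp (-Real.sin (π * θ) ^ 2) :=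
    le_trans (by linarith [Real.exp_neg_one_gt_d9])
      (Real.exp_le_exp.2 (neg_le_neg (Real.sin_sq_le_one _)))
  have h6 : 1 ≤ Real.exp (v ^ 2 / 2) := Real.one_le_exp (by positivity)
  rw [h1, h3, Real.cos_two_mul, Real.cos_sq']
  nlinarith [mul_le_mul_of_nonneg_left h5 (sub_nonneg.2 h6), mul_nonneg (sq_nonneg
    (Real.exp (v ^ 2 / 2) - 1)) (Real.exp_pos (-Real.sin (π * θ) ^ 2)).le]

theorem sum_cos [Fact p.Prime] (H : Fin r → Fin M → ZMod p) (θ : Fin M → ℝ) (z : ℝ) :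
    (p : ℝ) ^ r * ∑ e ∈ code H, Real.cos (2 * π * (ip (rw e) θ + z)) =
      Real.cos (2 * π * z) * ∑ y : Fin r → ZMod p, ∏ k, 4 * Real.cos (π * (θ k + hh H y k)) ^ 2 := by
  have h := master H fun k => 2 * π * Complex.I * θ k
  simp only [← mul_add, ← Complex.ofReal_add, WW_I] at h
  have h2 := congrArg (fun w => (Complex.exp (((2 * π * z : ℝ) : ℂ) * Complex.I) * w).re) h
  simp only [← Complex.ofReal_prod, ← Complex.ofReal_sum, Complex.re_mul_ofReal,
    Complex.exp_ofReal_mul_I_re] at h2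
  rw [← h2, mul_left_comm, ← Complex.ofReal_natCast, ← Complex.ofReal_pow, Complex.re_ofReal_mul,
    mul_sum (code H) _ (Complex.exp _), Complex.re_sum]
  congr 1
  refine sum_congr rfl fun e _ => ?_
  rw [← Complex.exp_ofReal_mul_I_re, ← Complex.exp_add, ip]
  congr 2
  push_cast
  simp only [mul_add, add_mul, mul_sum, sum_mul]
  rw [add_comm]
  congr 1
  exact sum_congr rfl fun k _ => by ring

theorem card_ge [Fact p.Prime] (H : Fin r → Fin M → ZMod p) :
    (4 : ℝ) ^ M ≤ (p : ℝ) ^ r * (code H).card := by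
  have h := sum_cos H 0 0
  simp only [ip, Pi.zero_apply, mul_zero, sum_const_zero, add_zero, Real.cos_zero, sum_const,
    nsmul_eq_mul, mul_one, one_mul, zero_add] at h
  rw [h]
  refine le_trans (le_of_eq ?_) (single_le_sum (f := fun y : Fin r → ZMod p =>
    ∏ k, 4 * Real.cos (π * hh H y k) ^ 2) (fun y _ => by positivity) (mem_univ 0))
  simp [hh_zero]

theorem card_pos [Fact p.Prime] (H : Fin r → Fin M → ZMod p) : (0 : ℝ) < (code H).card :=
  pos_of_mul_pos_right (lt_of_lt_of_le (by positivity) (card_ge H)) (by positivity)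

/-- averages over the code from sums -/
theorem av_le [Fact p.Prime] (H : Fin r → Fin M → ZMod p) {f : (Fin M → Bool × Bool) → ℝ} {A : ℝ}
    (hA : 0 ≤ A) (h : (p : ℝ) ^ r * ∑ e ∈ code H, f e ≤ 4 ^ M * A) :
    av (fun e : code H => f e.1) ≤ A := by
  have hp : (0 : ℝ) < (p : ℝ) ^ r := pow_pos (Nat.cast_pos.2 (Fact.out : p.Prime).pos) r
  rw [av_coe, div_le_iff₀ (card_pos H)]
  refine le_of_mul_le_mul_left (h.trans ?_) hp
  linarith [mul_le_mul_of_nonneg_right (card_ge H) hA]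

/-- a sum in which one term is at most `a` and the others are at most `b` -/
theorem sum_le_one_add [NeZero p] {g : (Fin r → ZMod p) → ℝ} {a b : ℝ} (hb : 0 ≤ b)
    (y₀ : Fin r → ZMod p) (h0 : g y₀ ≤ a) (h : ∀ y, y ≠ y₀ → g y ≤ b) :
    ∑ y, g y ≤ a + (p : ℝ) ^ r * b := by
  rw [← add_sum_erase _ _ (mem_univ y₀)]
  refine add_le_add h0 ((sum_le_card_nsmul _ _ b fun y hy => h y (ne_of_mem_erase hy)).trans ?_)
  rw [nsmul_eq_mul]
  refine mul_le_mul_of_nonneg_right ?_ hb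
  exact_mod_cast (card_erase_le.trans_eq (by simp))

theorem sg [Fact p.Prime] {H : Fin r → Fin M → ZMod p} (hp : (p : ℝ) ^ r ≤ Real.exp (M / 64))
    (hH : MinD H) : SG (code H) (Real.exp (-(M / 64 : ℝ))) := fun v => by
  refine av_le H (f := fun e => Real.exp (ip (rw e) v)) (by positivity) ?_
  have h := congrArg norm (master H fun k => v k)
  have e : ((p : ℂ) ^ r * ∑ e ∈ code H, Complex.exp (∑ k, rw e k * (v k : ℂ))) =
      (((p : ℝ) ^ r * ∑ e ∈ code H, Real.exp (ip (rw e) v) : ℝ) : ℂ) := by simp [ip]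
  rw [e, Complex.norm_real, Real.norm_eq_abs] at h
  have h1 : ∀ y : Fin r → ZMod p, ‖∏ k, WW (v k + 2 * π * Complex.I * hh H y k)‖ ≤
      4 ^ M * Real.exp (nsq v - ∑ k, Real.sin (π * hh H y k) ^ 2) := fun y => by
    rw [norm_prod]
    refine (prod_le_prod (fun k _ => norm_nonneg _) fun k _ => norm_WW _ _).trans_eq ?_
    rw [prod_mul_distrib, ← Real.exp_sum, sum_sub_distrib]
    simp [nsq]
  refine (le_abs_self _).trans (h.trans_le ((norm_sum_le _ _).trans ((sum_le_one_add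
    (a := 4 ^ M * Real.exp (nsq v)) (b := 4 ^ M * Real.exp (nsq v - M / 8)) (by positivity) 0
    ((h1 0).trans_eq (by simp [hh_zero])) fun y hy => (h1 y).trans ?_).trans ?_)))
  · gcongr
    exact hH y hy
  · have h2 : Real.exp (M / 64) * Real.exp (nsq v - M / 8) ≤
        Real.exp (-(M / 64 : ℝ)) * Real.exp (nsq v) := by
      rw [← Real.exp_add, ← Real.exp_add]
      exact Real.exp_le_exp.2 (by linarith [Nat.cast_nonneg (α := ℝ) M])
    have h3 := (mul_le_mul_of_nonneg_right hp (Real.exp_pos (nsq v - M / 8)).le).trans h2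
    linarith [mul_le_mul_of_nonneg_left h3 (show (0 : ℝ) ≤ 4 ^ M by positivity)]

theorem ind_le {P : Prop} {x : ℝ} (h0 : 0 ≤ x) (h : P → 1 ≤ x) : ind P ≤ x := by
  unfold ind
  split_ifs with hP
  exacts [h hP, h0]

theorem nrm [Fact p.Prime] (H : Fin r → Fin M → ZMod p) (hp : (p : ℝ) ^ r ≤ Real.exp (M / 64)) :
    av (fun e : code H => ind (msq (rw e.1) < (M : ℝ) / 4)) ≤ Real.exp (-(M / 64 : ℝ)) := by
  refine av_le H (f := fun e => ind (msq (rw e) < (M : ℝ) / 4)) (by positivity) ?_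
  have h1 : ∑ e ∈ code H, ind (msq (rw e) < (M : ℝ) / 4) ≤
      ∑ e : Fin M → Bool × Bool, ∏ k, Real.exp (1 / 4 - (rw e k : ℝ) ^ 2) := by
    refine (sum_le_sum fun e _ => ind_le (by positivity) fun h => ?_).trans
      (sum_le_univ_sum_of_nonneg fun e => by positivity)
    rw [← Real.exp_sum, sum_sub_distrib]
    refine Real.one_le_exp ?_
    simp only [sum_const, card_univ, Fintype.card_fin, nsmul_eq_mul]
    unfold msq at h
    linarith
  rw [sum_prod fun _ n => Real.exp (1 / 4 - (n : ℝ) ^ 2)] at h1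
  have h2 : Real.exp (1 / 4 - ((0 : ℤ) : ℝ) ^ 2) + Real.exp (1 / 4 - ((1 : ℤ) : ℝ) ^ 2) +
      Real.exp (1 / 4 - ((-1 : ℤ) : ℝ) ^ 2) + Real.exp (1 / 4 - ((0 : ℤ) : ℝ) ^ 2) ≤
      4 * Real.exp (-(1 / 32)) := by
    have e1 : Real.exp (-(1 / 32)) = Real.exp (1 / 4) * Real.exp (-(9 / 32)) := by
      rw [← Real.exp_add]; norm_num
    have e2 : Real.exp (1 / 4 - 1) = Real.exp (1 / 4) * Real.exp (-1) := by
      rw [← Real.exp_add]; norm_num
    simp only [Int.cast_zero, Int.cast_one, Int.cast_neg, neg_one_sq, one_pow, ne_eq,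
      OfNat.ofNat_ne_zero, not_false_eq_true, zero_pow, sub_zero, e1, e2]
    nlinarith [Real.exp_pos (1 / 4), Real.exp_neg_one_lt_d9, Real.add_one_le_exp (-(9 / 32))]
  have h3 := h1.trans (prod_le_prod (fun k _ => by positivity) fun k _ => h2)
  simp only [prod_const, card_univ, Fintype.card_fin, mul_pow, ← Real.exp_nat_mul] at h3
  refine (mul_le_mul hp h3 (sum_nonneg fun e _ => ?_) (by positivity)).trans_eq ?_
  · unfold ind
    split_ifs <;> norm_num
  · rw [mul_left_comm, ← Real.exp_add]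
    congr 2
    ring

theorem sin_sq_int (x : ℝ) (n : ℤ) : Real.sin (π * (n + x)) ^ 2 = Real.sin (π * x) ^ 2 := by
  rw [mul_add, add_comm, mul_comm π n, Real.sin_add_int_mul_pi, mul_pow, ← zpow_natCast, ← zpow_mul,
    mul_comm n, zpow_mul]
  simp

theorem min_nsq [NeZero p] {H : Fin r → Fin M → ZMod p} (hM : 256 ≤ M) (hH : MinD H) :
    ∀ γ ∈ GH H, γ ≠ 0 → 1 ≤ nsq γ := fun γ hγ h0 => by
  obtain ⟨y, n, h⟩ := mem_GH.1 hγ
  by_cases hy : y = 0
  · obtain ⟨k, hk⟩ := Function.ne_iff.1 h0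
    refine le_trans ?_ (single_le_sum (f := fun k => γ k ^ 2) (fun k _ => sq_nonneg _) (mem_univ k))
    rw [h k, hy, hh_zero, add_zero] at hk ⊢
    have : n k ≠ 0 := fun e => hk (by simp [e])
    exact_mod_cast (one_le_sq_iff_one_le_abs _).2 (Int.one_le_abs this)
  · have h1 : (M : ℝ) / 8 ≤ ∑ k, 16 * γ k ^ 2 := (hH y hy).trans (sum_le_sum fun k _ => by
      refine (sin_sq_int (hh H y k) (n k)).ge.trans (Real.sin_sq_le_sq.trans ?_)
      rw [← h k, mul_pow]
      gcongr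
      nlinarith [Real.pi_le_four, Real.pi_pos])
    have h2 : (256 : ℝ) ≤ M := by exact_mod_cast hM
    rw [← mul_sum] at h1
    unfold nsq
    linarith

theorem exists_mult {Γ : AddSubgroup (Fin M → ℝ)} (hΓ : ∀ γ ∈ Γ, γ ≠ 0 → 1 ≤ nsq γ) {Δ : Fin M → ℝ}
    {η : ℝ} (h0 : 0 < η) (h1 : η ≤ 1 / 2) (h : ∀ γ ∈ Γ, η ^ 2 ≤ nsq (Δ - γ)) :
    ∃ k : ℕ, k * η ≤ 1 / 2 ∧ ∀ γ ∈ Γ, 1 / 16 ≤ nsq ((k : ℝ) • Δ - γ) := by
  by_cases hc : ∀ γ ∈ Γ, 1 / 16 ≤ nsq (Δ - γ)
  · exact ⟨1, by simpa using h1, by simpa using hc⟩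
  push Not at hc
  obtain ⟨γ₀, g1, g2⟩ := hc
  obtain ⟨d, d0, d1⟩ : ∃ d, 0 ≤ d ∧ d ^ 2 = nsq (Δ - γ₀) :=
    ⟨√(nsq (Δ - γ₀)), Real.sqrt_nonneg _, Real.sq_sqrt ((sq_nonneg η).trans (h γ₀ g1))⟩
  have d2 : η ≤ d := (pow_le_pow_iff_left₀ h0.le d0 two_ne_zero).1 (d1 ▸ h γ₀ g1)
  have d3 : d ≤ 1 / 4 := (pow_le_pow_iff_left₀ d0 (by norm_num) two_ne_zero).1 (by linarith)
  have d4 : 0 < d := h0.trans_le d2
  have k1 : (⌊1 / 2 / d⌋₊ : ℝ) * d ≤ 1 / 2 := (le_div_iff₀ d4).1 (Nat.floor_le (by positivity))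
  have k2 : 1 / 4 ≤ (⌊1 / 2 / d⌋₊ : ℝ) * d := by
    linarith [(div_lt_iff₀ d4).1 (Nat.lt_floor_add_one (1 / 2 / d))]
  generalize ⌊1 / 2 / d⌋₊ = k at k1 k2
  refine ⟨k, (mul_le_mul_of_nonneg_left d2 (Nat.cast_nonneg k)).trans k1, fun γ hγ => ?_⟩
  have e1 : nsq ((k : ℝ) • (Δ - γ₀)) = (k * d) ^ 2 := by
    rw [mul_pow, d1, nsq, nsq, mul_sum]
    exact sum_congr rfl fun j _ => by rw [Pi.smul_apply, smul_eq_mul, mul_pow]
  by_cases hg : γ - k • γ₀ = 0
  · rw [sub_eq_zero.1 hg, ← Nat.cast_smul_eq_nsmul ℝ, ← smul_sub, e1]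
    nlinarith
  · have h2 := hΓ _ (Γ.sub_mem hγ (Γ.nsmul_mem g1 k)) hg
    have h3 : nsq (γ - k • γ₀) ≤ 2 * nsq ((k : ℝ) • Δ - γ) + 2 * nsq ((k : ℝ) • (Δ - γ₀)) := by
      simp only [nsq, mul_sum, ← sum_add_distrib]
      refine sum_le_sum fun j _ => ?_
      simp only [Pi.sub_apply, Pi.smul_apply, smul_eq_mul, nsmul_eq_mul, Pi.mul_apply,
        Pi.natCast_apply]
      nlinarith [sq_nonneg (k * Δ j - γ j + k * (Δ j - γ₀ j))]
    nlinarith [mul_nonneg (Nat.cast_nonneg (α := ℝ) k) d0]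

theorem four_sq_le (x : ℝ) : 4 * (x - round x) ^ 2 ≤ Real.sin (π * x) ^ 2 := by
  have h1 := Real.mul_abs_le_abs_sin (x := π * (x - round x)) (by
    rw [abs_mul, abs_of_pos Real.pi_pos]
    linarith [mul_le_mul_of_nonneg_left (abs_sub_round x) Real.pi_pos.le])
  rw [abs_mul, abs_of_pos Real.pi_pos, ← mul_assoc, div_mul_cancel₀ _ Real.pi_pos.ne'] at h1
  have h2 := pow_le_pow_left₀ (by positivity) h1 2
  rw [mul_pow, sq_abs, sq_abs, ← sin_sq_int _ (round x), add_sub_cancel] at h2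
  linarith

theorem sin_sq_sub_le (a b : ℝ) : Real.sin (a - b) ^ 2 ≤ 2 * Real.sin a ^ 2 + 2 * Real.sin b ^ 2 := by
  rw [Real.sin_sub]
  nlinarith [sq_nonneg (Real.sin a * Real.cos b + Real.cos a * Real.sin b),
    mul_le_mul_of_nonneg_left (Real.cos_sq_le_one b) (sq_nonneg (Real.sin a)),
    mul_le_mul_of_nonneg_left (Real.cos_sq_le_one a) (sq_nonneg (Real.sin b))]

theorem sum_prod_cos_le [Fact p.Prime] {H : Fin r → Fin M → ZMod p} (hM : 256 ≤ M)
    (hp : (p : ℝ) ^ r ≤ Real.exp (M / 64)) (hH : MinD H) {θ : Fin M → ℝ}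
    (h : ∀ γ ∈ GH H, 1 / 16 ≤ nsq (θ - γ)) :
    ∑ y : Fin r → ZMod p, ∏ k, 4 * Real.cos (π * (θ k + hh H y k)) ^ 2 ≤ 4 ^ M * (4 / 5) := by
  set S : (Fin r → ZMod p) → ℝ := fun y => ∑ k, Real.sin (π * (θ k + hh H y k)) ^ 2 with hS
  have h1 : ∀ y, ∏ k, 4 * Real.cos (π * (θ k + hh H y k)) ^ 2 ≤ 4 ^ M * Real.exp (-S y) :=
    fun y => by
      refine (prod_le_prod (fun k _ => by positivity) (g := fun k =>
        4 * Real.exp (-Real.sin (π * (θ k + hh H y k)) ^ 2)) fun k _ => ?_).trans_eq ?_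
      · linarith [Real.cos_sq' (π * (θ k + hh H y k)),
          Real.add_one_le_exp (-Real.sin (π * (θ k + hh H y k)) ^ 2)]
      · rw [prod_mul_distrib, ← Real.exp_sum, sum_neg_distrib]
        simp [hS]
  have h2 : ∀ y, 1 / 4 ≤ S y := fun y => by
    have h3 := h _ ((GH H).neg_mem (mem_GH.2
      ⟨y, fun k => -round (θ k + hh H y k), fun k => rfl⟩))
    refine le_trans ?_ (sum_le_sum fun k _ => four_sq_le (θ k + hh H y k))
    rw [← mul_sum]
    refine le_trans (by linarith) (mul_le_mul_of_nonneg_left (h3.trans_eq ?_) (by norm_num))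
    exact sum_congr rfl fun k _ => by simp; ring
  obtain ⟨y₀, -, h3⟩ := exists_min_image univ S univ_nonempty
  have h4 : ∀ y, y ≠ y₀ → M / 32 ≤ S y := fun y hy => by
    have h5 : (M : ℝ) / 8 ≤ 2 * S y + 2 * S y₀ := by
      simp only [hS, mul_sum, ← sum_add_distrib]
      refine (hH _ (sub_ne_zero.2 hy)).trans (sum_le_sum fun k _ => ?_)
      obtain ⟨q, hq⟩ := hh_sub H y y₀ k
      refine (sin_sq_int (hh H (y - y₀) k) q).ge.trans (le_of_eq_of_le ?_ (sin_sq_sub_le _ _))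
      rw [← hq, ← mul_sub, add_sub_add_left_eq_sub]
    linarith [h3 y (mem_univ y)]
  refine (sum_le_one_add (a := 4 ^ M * Real.exp (-(1 / 4))) (b := 4 ^ M * Real.exp (-(M / 32)))
    (by positivity) y₀ ((h1 _).trans ?_) fun y hy => (h1 y).trans ?_).trans ?_
  · gcongr
    exact h2 _
  · gcongr
    exact h4 y hy
  have h5 : Real.exp (M / 64) * Real.exp (-(M / 32)) ≤ Real.exp (-1) ^ 4 := by
    have : (256 : ℝ) ≤ M := by exact_mod_cast hM
    rw [← Real.exp_add, ← Real.exp_nat_mul]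
    exact Real.exp_le_exp.2 (by push_cast; linarith)
  have h6 := pow_le_pow_left₀ (Real.exp_pos _).le Real.exp_neg_one_lt_d9.le 4
  have h7 : Real.exp (-(1 / 4)) ≤ 32 / 41 := by
    rw [Real.exp_neg, inv_le_comm₀ (Real.exp_pos _) (by norm_num)]
    linarith [Real.quadratic_le_exp_of_nonneg (x := 1 / 4) (by norm_num)]
  have h8 : Real.exp (-(1 / 4)) + (p : ℝ) ^ r * Real.exp (-(M / 32)) ≤ 4 / 5 := by
    linarith [mul_le_mul_of_nonneg_right hp (Real.exp_pos (-(M / 32 : ℝ))).le]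
  linarith [mul_le_mul_of_nonneg_left h8 (show (0 : ℝ) ≤ 4 ^ M by positivity)]

theorem ind_ge {x η : ℝ} {k : ℕ} (hk : k * η ≤ 1 / 2) :
    1 - ind (η / 10 ≤ nd x) ≤ Real.cos (2 * π * (k * x)) / 2 + 11 / 20 := by
  unfold ind
  split_ifs with h
  · linarith [Real.neg_one_le_cos (2 * π * (k * x))]
  have h1 : Real.cos (2 * π * (k * x)) = Real.cos (2 * π * (k * (x - round x))) := by
    rw [← Real.cos_add_int_mul_two_pi (2 * π * (k * (x - round x))) (k * round x)]
    congr 1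
    push_cast
    ring
  have h2 : |k * (x - round x)| ≤ 1 / 20 := by
    rw [abs_mul, Nat.abs_cast]
    have := mul_le_mul_of_nonneg_left (not_le.1 h).le (Nat.cast_nonneg (α := ℝ) k)
    unfold nd at this
    linarith
  have h3 := pow_le_pow_left₀ (abs_nonneg _) h2 2
  rw [sq_abs] at h3
  have h4 : π ^ 2 ≤ 16 := by nlinarith [Real.pi_le_four, Real.pi_pos]
  have h5 := mul_le_mul h4 h3 (sq_nonneg _) (by norm_num)
  linarith [Real.one_sub_sq_div_two_le_cos (x := 2 * π * (k * (x - round x)))]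

theorem sb [Fact p.Prime] {H : Fin r → Fin M → ZMod p} (hM : 256 ≤ M)
    (hp : (p : ℝ) ^ r ≤ Real.exp (M / 64)) (hH : MinD H) : SB (GH H) (code H) := by
  intro Δ z η h0 h1 h
  obtain ⟨k, k1, k2⟩ := exists_mult (min_nsq hM hH) h0 h1 h
  have h2 : av (fun e : code H => Real.cos (2 * π * (ip (rw e.1) ((k : ℝ) • Δ) + k * z))) ≤ 4 / 5 := by
    refine av_le H (f := fun e => Real.cos (2 * π * (ip (rw e) ((k : ℝ) • Δ) + k * z)))
      (by norm_num) ?_
    rw [sum_cos]
    exact (mul_le_of_le_one_left (sum_nonneg fun y _ => by positivity) (Real.cos_le_one _)).trans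
      (sum_prod_cos_le hM hp hH k2)
  have h3 := sum_le_sum fun e (_ : e ∈ code H) => ind_ge (x := ip (rw e) Δ + z) k1
  have e : ∀ e : Fin M → Bool × Bool, ip (rw e) ((k : ℝ) • Δ) + k * z = k * (ip (rw e) Δ + z) :=
    fun e => by simp [ip, mul_add, mul_sum, mul_left_comm]
  simp only [e] at h2
  rw [av_coe (code H) fun e => Real.cos (2 * π * (k * (ip (rw e) Δ + z))),
    div_le_iff₀ (card_pos H)] at h2
  rw [av_coe (code H) fun e => ind (η / 10 ≤ nd (ip (rw e) Δ + z)), le_div_iff₀ (card_pos H)]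
  simp only [sum_sub_distrib, sum_add_distrib, sum_const, nsmul_eq_mul, ← sum_div] at h3
  linarith

end CharS

open CharS in
theorem char_proof : CharStmt := fun M r p _ H =>
  ⟨card_ge H, dual_iff H, fun hM hp hH =>
    ⟨Finset.card_pos.1 (by exact_mod_cast CharS.card_pos H), fun n => mem_GH.2 ⟨0, n, fun k => by simp [hh_zero]⟩, min_nsq hM hH,
      fun e he => (dual_iff H _).2 (by simpa [code] using he), sg hp hH, CharS.sb hM hp hH, nrm H hp⟩⟩

end Vale.Agent.P318.B
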