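import Vale.Agent.P318.B.Stmt

/-!
Restricted isometry for arbitrary vectors from restricted isometry for sparse vectors, coherence,
operator norm bounds and transposition.
-/

namespace Vale.Agent.P318.B

open Finset Vale.Agent.P318.M

namespace Chunk

variable {ι κ : Type} [DecidableEq ι] [Fintype κ]

theorem exists_top (S : Finset ι) (f : ι → ℝ) : ∀ n ≤ S.card,
    ∃ T ⊆ S, T.card = n ∧ ∀ j ∈ T, ∀ l ∈ S \ T, f l ≤ f j := by
  intro n
  induction n with
  | zero => intro _; exact ⟨∅, empty_subset _, rfl, by simp⟩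
  | succ n ih =>
    intro hn
    obtain ⟨T, hT, hc, h⟩ := ih (by omega)
    have hne : (S \ T).Nonempty := by
      rw [← card_pos, card_sdiff_of_subset hT]; omega
    obtain ⟨a, ha, hmax⟩ := exists_max_image (S \ T) f hne
    have haT : a ∉ T := (mem_sdiff.1 ha).2
    refine ⟨insert a T, insert_subset (mem_sdiff.1 ha).1 hT, by rw [card_insert_of_notMem haT, hc],
      ?_⟩
    intro j hj l hl
    have hl' : l ∈ S \ T := by
      rw [mem_sdiff] at hl ⊢
      exact ⟨hl.1, fun h' => hl.2 (mem_insert_of_mem h')⟩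
    rcases mem_insert.1 hj with rfl | hj
    · exact hmax l hl'
    · exact h j hj l hl'

theorem n2_nonneg (J : Finset ι) (z : ι → ℝ) : 0 ≤ n2 J z := Real.sqrt_nonneg _

theorem n1_nonneg (J : Finset ι) (z : ι → ℝ) : 0 ≤ n1 J z := sum_nonneg fun _ _ => abs_nonneg _

theorem n2_mono {T J : Finset ι} (h : T ⊆ J) (z : ι → ℝ) : n2 T z ≤ n2 J z :=
  Real.sqrt_le_sqrt (sum_le_sum_of_subset_of_nonneg h fun _ _ _ => sq_nonneg _)

theorem n2_sub {T J : Finset ι} (h : T ⊆ J) {z : ι → ℝ} (hz : ∀ j ∉ T, z j = 0) :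
    n2 J z = n2 T z := by
  unfold n2
  rw [← sum_subset h fun j _ hj => by rw [hz j hj]; simp]

theorem n1_sub {T J : Finset ι} (h : T ⊆ J) {z : ι → ℝ} (hz : ∀ j ∉ T, z j = 0) :
    n1 J z = n1 T z := by
  unfold n1
  rw [← sum_subset h fun j _ hj => by rw [hz j hj]; simp]

theorem n2_congr {T : Finset ι} {z z' : ι → ℝ} (h : ∀ j ∈ T, z j = z' j) : n2 T z = n2 T z' := by
  unfold n2
  rw [sum_congr rfl fun j hj => by rw [h j hj]]

theorem n1_congr {T : Finset ι} {z z' : ι → ℝ} (h : ∀ j ∈ T, z j = z' j) : n1 T z = n1 T z' := by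
  unfold n1
  rw [sum_congr rfl fun j hj => by rw [h j hj]]

theorem offd_congr {T : Finset ι} (s : ι → κ → ℤ) {z z' q q' : ι → ℝ} (h : ∀ j ∈ T, z j = z' j)
    (h' : ∀ j ∈ T, q j = q' j) : offd T s z q = offd T s z' q' := by
  unfold offd
  refine sum_congr rfl fun j hj => sum_congr rfl fun l hl => ?_
  rw [h l (mem_of_mem_erase hl), h' j hj]

theorem offd_sub {T J : Finset ι} (h : T ⊆ J) (s : ι → κ → ℤ) {z q : ι → ℝ}
    (hz : ∀ j ∉ T, z j = 0) (hq : ∀ j ∉ T, q j = 0) : offd J s z q = offd T s z q := by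
  unfold offd
  rw [← sum_subset h fun j _ hj => by simp [hq j hj]]
  refine sum_congr rfl fun j _ => ?_
  symm
  refine sum_subset (erase_subset_erase j h) fun l hl hl' => ?_
  have : l ∉ T := fun hT => hl' (mem_erase.2 ⟨(mem_erase.1 hl).1, hT⟩)
  simp [hz l this]

theorem offd_add_left (J : Finset ι) (s : ι → κ → ℤ) (z z' q : ι → ℝ) :
    offd J s (z + z') q = offd J s z q + offd J s z' q := by
  unfold offd
  rw [← sum_add_distrib]
  refine sum_congr rfl fun j _ => ?_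
  rw [← sum_add_distrib]
  refine sum_congr rfl fun l _ => ?_
  simp only [Pi.add_apply]; ring

theorem offd_add_right (J : Finset ι) (s : ι → κ → ℤ) (z q q' : ι → ℝ) :
    offd J s z (q + q') = offd J s z q + offd J s z q' := by
  unfold offd
  rw [← sum_add_distrib]
  refine sum_congr rfl fun j _ => ?_
  rw [← sum_add_distrib]
  refine sum_congr rfl fun l _ => ?_
  simp only [Pi.add_apply]; ring

/-- The chunking estimate. -/
theorem chunk (N : (ι → ℝ) → ℝ) (k : ℝ) (hk : 0 ≤ k) (sp : ℕ) (hsp : 1 ≤ sp) (J : Finset ι)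
    (hadd : ∀ z z', N (z + z') ≤ N z + N z')
    (hs : ∀ T ⊆ J, T.card ≤ sp → ∀ z : ι → ℝ, (∀ j ∉ T, z j = 0) → N z ≤ k * n2 T z) :
    ∀ n : ℕ, ∀ S ⊆ J, S.card ≤ n → ∀ z : ι → ℝ, (∀ j ∉ S, z j = 0) → ∀ b : ℝ,
      (∀ T ⊆ S, T.card ≤ sp → n2 T z ≤ b) → N z ≤ k * (b + n1 S z / Real.sqrt sp) := by
  have hsp0 : (0 : ℝ) < sp := by exact_mod_cast hsp
  have hsq : 0 < Real.sqrt sp := Real.sqrt_pos.2 hsp0
  have base : ∀ S ⊆ J, S.card ≤ sp → ∀ z : ι → ℝ, (∀ j ∉ S, z j = 0) → ∀ b : ℝ,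
      (∀ T ⊆ S, T.card ≤ sp → n2 T z ≤ b) → N z ≤ k * (b + n1 S z / Real.sqrt sp) := by
    intro S hS hc z hz b hb
    refine (hs S hS hc z hz).trans (mul_le_mul_of_nonneg_left ?_ hk)
    have := hb S Subset.rfl hc
    have h1 : 0 ≤ n1 S z / Real.sqrt sp := div_nonneg (n1_nonneg _ _) hsq.le
    linarith
  intro n
  induction n with
  | zero => intro S hS hc; exact base S hS (by omega)
  | succ n ih =>
    intro S hS hc z hz b hb
    by_cases hle : S.card ≤ sp
    · exact base S hS hle z hz b hb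
    obtain ⟨T, hT, hcT, htop⟩ := exists_top S (fun j => |z j|) sp (by omega)
    set z1 : ι → ℝ := fun j => if j ∈ T then z j else 0 with hz1
    set z2 : ι → ℝ := fun j => if j ∈ T then 0 else z j with hz2
    have hsum : z = z1 + z2 := by
      funext j; simp only [hz1, hz2, Pi.add_apply]; split_ifs <;> simp
    have h1 : N z1 ≤ k * b := by
      refine (hs T (hT.trans hS) hcT.le z1 fun j hj => by simp [hz1, hj]).trans ?_
      refine mul_le_mul_of_nonneg_left ?_ hk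
      rw [n2_congr (z' := z) fun j hj => by simp [hz1, hj]]
      exact hb T hT hcT.le
    have hbd : ∀ l ∈ S \ T, |z l| ≤ n1 T z / sp := by
      intro l hl
      rw [le_div_iff₀ hsp0]
      have : ∑ _j ∈ T, |z l| ≤ n1 T z := sum_le_sum fun j hj => htop j hj l hl
      rw [sum_const, hcT, nsmul_eq_mul] at this
      linarith
    have h2 : N z2 ≤ k * (n1 T z / Real.sqrt sp + n1 (S \ T) z2 / Real.sqrt sp) := by
      refine ih (S \ T) (sdiff_subset.trans hS) ?_ z2 ?_ _ ?_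
      · rw [card_sdiff_of_subset hT]; omega
      · intro j hj
        simp only [hz2]
        split_ifs with h
        · rfl
        · exact hz j fun hS' => hj (mem_sdiff.2 ⟨hS', h⟩)
      · intro U hU hcU
        unfold n2
        rw [Real.sqrt_le_iff]
        refine ⟨div_nonneg (n1_nonneg _ _) hsq.le, ?_⟩
        have hb' : ∑ j ∈ U, z2 j ^ 2 ≤ ∑ _j ∈ U, (n1 T z / sp) ^ 2 := by
          refine sum_le_sum fun j hj => ?_
          have hj' := hU hj
          have : z2 j = z j := by simp [hz2, (mem_sdiff.1 hj').2]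
          rw [this, ← sq_abs]
          exact pow_le_pow_left₀ (abs_nonneg _) (hbd j hj') 2
        rw [sum_const, nsmul_eq_mul] at hb'
        have hcU' : (U.card : ℝ) ≤ sp := by exact_mod_cast hcU
        calc ∑ j ∈ U, z2 j ^ 2 ≤ U.card * (n1 T z / sp) ^ 2 := hb'
          _ ≤ sp * (n1 T z / sp) ^ 2 := mul_le_mul_of_nonneg_right hcU' (sq_nonneg _)
          _ = (n1 T z / Real.sqrt sp) ^ 2 := by
            rw [div_pow, div_pow, Real.sq_sqrt hsp0.le]; field_simp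
    have h3 : n1 T z + n1 (S \ T) z2 = n1 S z := by
      rw [n1_congr (T := S \ T) (z' := z) fun j hj => by simp [hz2, (mem_sdiff.1 hj).2]]
      unfold n1
      rw [add_comm, sum_sdiff hT]
    calc N z = N (z1 + z2) := by rw [← hsum]
      _ ≤ N z1 + N z2 := hadd _ _
      _ ≤ k * b + k * (n1 T z / Real.sqrt sp + n1 (S \ T) z2 / Real.sqrt sp) := add_le_add h1 h2
      _ = k * (b + n1 S z / Real.sqrt sp) := by rw [← h3]; ring

theorem chunk' (N : (ι → ℝ) → ℝ) (k : ℝ) (hk : 0 ≤ k) (sp : ℕ) (hsp : 1 ≤ sp) (J : Finset ι)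
    (hadd : ∀ z z', N (z + z') ≤ N z + N z')
    (hs : ∀ T ⊆ J, T.card ≤ sp → ∀ z : ι → ℝ, (∀ j ∉ T, z j = 0) → N z ≤ k * n2 T z)
    (z : ι → ℝ) (hz : ∀ j ∉ J, z j = 0) : N z ≤ k * (n2 J z + n1 J z / Real.sqrt sp) :=
  chunk N k hk sp hsp J hadd hs J.card J Subset.rfl le_rfl z hz _ fun _ hT _ => n2_mono hT z

theorem cd_nonneg : 0 ≤ cd κ := Nat.cast_nonneg _

theorem rip_of (J : Finset ι) (s : ι → κ → ℤ) (K : ℝ) (sp sp2 : ℕ) (hK : 0 ≤ K) (h1 : 1 ≤ sp)
    (h2 : sp ≤ sp2) (hR : RipAll J s K sp2) : Rip J s (K * Real.sqrt (2 * cd κ * sp)) sp := by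
  set R := K * Real.sqrt (2 * cd κ * sp) with hRdef
  have hR0 : 0 ≤ R := mul_nonneg hK (Real.sqrt_nonneg _)
  have hsq : 0 ≤ Real.sqrt sp := Real.sqrt_nonneg _
  have sparse : ∀ A ⊆ J, A.card ≤ sp → ∀ q : ι → ℝ, (∀ j ∉ A, q j = 0) →
      ∀ B ⊆ J, B.card ≤ sp → ∀ z : ι → ℝ, (∀ j ∉ B, z j = 0) →
        |offd J s z q| ≤ R * n2 A q * n2 B z := by
    intro A hA hcA q hq B hB hcB z hz
    have hAB : A ∪ B ⊆ J := union_subset hA hB
    have hc : (A ∪ B).card ≤ 2 * sp := (card_union_le _ _).trans (by omega)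
    rw [offd_sub hAB s (fun j hj => hz j fun h => hj (mem_union_right _ h))
      (fun j hj => hq j fun h => hj (mem_union_left _ h))]
    refine (hR _ hAB (by omega) z q).trans ?_
    rw [n2_sub subset_union_right hz, n2_sub subset_union_left hq]
    have hc' : ((A ∪ B).card : ℝ) ≤ 2 * sp := by exact_mod_cast hc
    have : Real.sqrt (cd κ * (A ∪ B).card) ≤ Real.sqrt (2 * cd κ * sp) := by
      refine Real.sqrt_le_sqrt ?_
      have := mul_le_mul_of_nonneg_left hc' (cd_nonneg (κ := κ))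
      linarith
    have h3 : K * Real.sqrt (cd κ * (A ∪ B).card) ≤ R := mul_le_mul_of_nonneg_left this hK
    have h4 := mul_le_mul_of_nonneg_right h3 (mul_nonneg (n2_nonneg B z) (n2_nonneg A q))
    linarith
  have half : ∀ z : ι → ℝ, (∀ j ∉ J, z j = 0) → ∀ A ⊆ J, A.card ≤ sp → ∀ q : ι → ℝ,
      (∀ j ∉ A, q j = 0) →
        |offd J s z q| ≤ R * (n2 J z + n1 J z / Real.sqrt sp) * n2 A q := by
    intro z hz A hA hcA q hq
    have := chunk' (fun z => |offd J s z q|) (R * n2 A q) (mul_nonneg hR0 (n2_nonneg _ _)) sp h1 J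
      (fun z z' => by simp only [offd_add_left]; exact abs_add_le _ _)
      (fun B hB hcB z hz => sparse A hA hcA q hq B hB hcB z hz) z hz
    linarith
  intro z q
  set z' : ι → ℝ := fun j => if j ∈ J then z j else 0 with hz'
  set q' : ι → ℝ := fun j => if j ∈ J then q j else 0 with hq'
  have ez : ∀ j ∈ J, z j = z' j := fun j hj => by simp [hz', hj]
  have eq : ∀ j ∈ J, q j = q' j := fun j hj => by simp [hq', hj]
  rw [offd_congr s ez eq, n2_congr ez, n1_congr ez, n2_congr eq, n1_congr eq]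
  have hz0 : ∀ j ∉ J, z' j = 0 := fun j hj => by simp [hz', hj]
  have hq0 : ∀ j ∉ J, q' j = 0 := fun j hj => by simp [hq', hj]
  exact chunk' (fun q => |offd J s z' q|) (R * (n2 J z' + n1 J z' / Real.sqrt sp))
    (mul_nonneg hR0 (add_nonneg (n2_nonneg _ _) (div_nonneg (n1_nonneg _ _) hsq))) sp h1 J
    (fun q q'' => by simp only [offd_add_right]; exact abs_add_le _ _)
    (fun A hA hcA q hq => half z' hz0 A hA hcA q hq) q' hq0

theorem coh_of (J : Finset ι) (s : ι → κ → ℤ) (K : ℝ) (sp2 : ℕ) (h1 : 1 ≤ sp2)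
    (hR : RipAll J s K sp2) (j : ι) (hj : j ∈ J) (l : ι) (hl : l ∈ J) (hjl : j ≠ l) :
    |gram s j l| ≤ K * Real.sqrt (2 * cd κ) := by
  have hsub : ({j, l} : Finset ι) ⊆ J := by
    intro x hx
    rcases mem_insert.1 hx with rfl | hx
    · exact hj
    · rw [mem_singleton.1 hx]; exact hl
  have hc : ({j, l} : Finset ι).card = 2 := card_pair hjl
  have h := hR {j, l} hsub (by omega) (Pi.single l 1) (Pi.single j 1)
  have e1 : ({j, l} : Finset ι).erase j = {l} := by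
    rw [erase_insert (by simpa using hjl)]
  have e2 : offd {j, l} s (Pi.single l 1) (Pi.single j 1) = gram s j l := by
    unfold offd
    rw [sum_pair hjl, e1]
    simp [hjl.symm]
  have e3 : n2 {j, l} (Pi.single l (1 : ℝ)) = 1 := by
    unfold n2
    rw [sum_pair hjl]; simp [hjl]
  have e4 : n2 {j, l} (Pi.single j (1 : ℝ)) = 1 := by
    unfold n2
    rw [sum_pair hjl]; simp [hjl.symm]
  rw [e2, e3, e4, hc] at h
  simpa [mul_comm] using h

theorem le_of_sq_le {X c : ℝ} (hc : 0 ≤ c) (h : X ^ 2 ≤ c * X) : X ≤ c := by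
  by_contra hn
  push Not at hn
  nlinarith

theorem op_iff (J : Finset ι) (s : ι → κ → ℤ) (Bn : ℝ) (hB : 0 ≤ Bn) : Op J s Bn ↔
    ∀ z : ι → ℝ, ∑ k, (∑ j ∈ J, z j * s j k) ^ 2 ≤ Bn * ∑ j ∈ J, z j ^ 2 := by
  have key : ∀ (z : ι → ℝ) (V : κ → ℝ),
      ∑ j ∈ J, z j * ip (s j) V = ∑ k, V k * ∑ j ∈ J, z j * s j k := by
    intro z V
    unfold ip
    simp only [mul_sum]
    rw [sum_comm]
    refine sum_congr rfl fun k _ => sum_congr rfl fun j _ => by ring
  constructor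
  · intro h z
    set V : κ → ℝ := fun k => ∑ j ∈ J, z j * s j k with hV
    have e : nsq V = ∑ j ∈ J, z j * ip (s j) V := by
      rw [key]; unfold nsq
      exact sum_congr rfl fun k _ => by rw [sq]
    have hz : 0 ≤ ∑ j ∈ J, z j ^ 2 := sum_nonneg fun _ _ => sq_nonneg _
    change nsq V ≤ _
    refine le_of_sq_le (mul_nonneg hB hz) ?_
    calc nsq V ^ 2 = (∑ j ∈ J, z j * ip (s j) V) ^ 2 := by rw [← e]
      _ ≤ (∑ j ∈ J, z j ^ 2) * ∑ j ∈ J, ip (s j) V ^ 2 := sum_mul_sq_le_sq_mul_sq _ _ _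
      _ ≤ (∑ j ∈ J, z j ^ 2) * (Bn * nsq V) := mul_le_mul_of_nonneg_left (h V) hz
      _ = Bn * (∑ j ∈ J, z j ^ 2) * nsq V := by ring
  · intro h V
    set z : ι → ℝ := fun j => ip (s j) V with hzd
    have e : ∑ j ∈ J, z j ^ 2 = ∑ k, V k * ∑ j ∈ J, z j * s j k := by
      rw [← key]
      exact sum_congr rfl fun k _ => by rw [sq]
    have hV : 0 ≤ nsq V := sum_nonneg fun _ _ => sq_nonneg _
    change ∑ j ∈ J, z j ^ 2 ≤ _
    refine le_of_sq_le (mul_nonneg hB hV) ?_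
    calc (∑ j ∈ J, z j ^ 2) ^ 2 = (∑ k, V k * ∑ j ∈ J, z j * s j k) ^ 2 := by rw [← e]
      _ ≤ (∑ k, V k ^ 2) * ∑ k, (∑ j ∈ J, z j * s j k) ^ 2 := sum_mul_sq_le_sq_mul_sq _ _ _
      _ ≤ nsq V * (Bn * ∑ j ∈ J, z j ^ 2) := mul_le_mul_of_nonneg_left (h z) hV
      _ = Bn * nsq V * ∑ j ∈ J, z j ^ 2 := by ring

theorem expand (T : Finset ι) (s : ι → κ → ℤ) (z : ι → ℝ) :
    ∑ k, (∑ j ∈ T, z j * s j k) ^ 2 = ∑ j ∈ T, z j ^ 2 * gram s j j + offd T s z z := by
  have e : ∑ k, (∑ j ∈ T, z j * s j k) ^ 2 = ∑ j ∈ T, ∑ l ∈ T, z j * z l * gram s j l := by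
    unfold gram
    simp only [sq, sum_mul_sum]
    rw [sum_comm]
    refine sum_congr rfl fun j _ => ?_
    rw [sum_comm]
    simp only [mul_sum]
    refine sum_congr rfl fun l _ => sum_congr rfl fun k _ => by ring
  rw [e]
  unfold offd
  rw [← sum_add_distrib]
  refine sum_congr rfl fun j hj => ?_
  rw [← add_sum_erase T _ hj, sq]

theorem op_of (J : Finset ι) (s : ι → κ → ℤ) (R sp : ℝ) (hR : 0 ≤ R) (hsp : 0 < sp)
    (hs : ∀ j k, |(s j k : ℝ)| ≤ 1) (h : Rip J s R sp) (T : Finset ι) (hT : T ⊆ J) :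
    Op T s (cd κ + 2 * R + 2 * R * T.card / sp) := by
  have hc : (0 : ℝ) ≤ T.card := Nat.cast_nonneg _
  rw [op_iff T s _ (by have := cd_nonneg (κ := κ); positivity)]
  intro z
  rw [expand]
  set Z := ∑ j ∈ T, z j ^ 2 with hZ
  have hZ0 : 0 ≤ Z := sum_nonneg fun _ _ => sq_nonneg _
  have h1 : ∑ j ∈ T, z j ^ 2 * gram s j j ≤ cd κ * Z := by
    rw [hZ, mul_sum]
    refine sum_le_sum fun j _ => ?_
    rw [mul_comm (cd κ)]
    refine mul_le_mul_of_nonneg_left ?_ (sq_nonneg _)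
    unfold gram cd
    calc ∑ k, (s j k : ℝ) * s j k ≤ ∑ _k : κ, (1 : ℝ) := sum_le_sum fun k _ => by
          have := hs j k
          rw [abs_le] at this
          nlinarith
      _ = Fintype.card κ := by simp
  set z' : ι → ℝ := fun j => if j ∈ T then z j else 0 with hz'
  have ez : ∀ j ∈ T, z j = z' j := fun j hj => by simp [hz', hj]
  have hz0 : ∀ j ∉ T, z' j = 0 := fun j hj => by simp [hz', hj]
  have h2 := h z' z'
  rw [offd_sub hT s hz0 hz0, n2_sub hT hz0, n1_sub hT hz0, ← offd_congr s ez ez, ← n2_congr ez,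
    ← n1_congr ez] at h2
  have h3 : n2 T z ^ 2 = Z := Real.sq_sqrt hZ0
  have h4 : n1 T z ^ 2 ≤ T.card * Z := by
    have := sum_mul_sq_le_sq_mul_sq T (fun _ => (1 : ℝ)) fun j => |z j|
    simpa [n1, sq_abs] using this
  have h5 : (n1 T z / Real.sqrt sp) ^ 2 ≤ T.card * Z / sp := by
    rw [div_pow, Real.sq_sqrt hsp.le]
    exact div_le_div_of_nonneg_right h4 hsp.le
  have h6 : (n2 T z + n1 T z / Real.sqrt sp) ^ 2 ≤ 2 * Z + 2 * (T.card * Z / sp) := by
    nlinarith [sq_nonneg (n2 T z - n1 T z / Real.sqrt sp)]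
  have h7 : offd T s z z ≤ R * (2 * Z + 2 * (T.card * Z / sp)) := by
    refine (le_abs_self _).trans (h2.trans ?_)
    rw [mul_assoc, ← sq]
    exact mul_le_mul_of_nonneg_left h6 hR
  calc _ ≤ cd κ * Z + R * (2 * Z + 2 * (T.card * Z / sp)) := add_le_add h1 h7
    _ = _ := by ring

end Chunk

theorem chunk_proof : ChunkStmt := by
  intro ι κ _ _ _ J s
  exact ⟨fun K sp sp2 hK h1 h2 hR => Chunk.rip_of J s K sp sp2 hK h1 h2 hR,
    fun K sp2 h1 hR j hj l hl hjl => Chunk.coh_of J s K sp2 h1 hR j hj l hl hjl,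
    fun R sp hR hsp hs h T hT => Chunk.op_of J s R sp hR hsp hs h T hT,
    fun Bn hB => Chunk.op_iff J s Bn hB⟩

end Vale.Agent.P318.B
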