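import Vale.Agent.P318.B.Stmt

/-!
Forced flips.
-/

namespace Vale.Agent.P318.B

open Finset Vale.Agent.P318.M

namespace ClaimA

theorem card_mul_le {ι : Type} {T : Finset ι} {f : ι → ℝ} (hf : ∀ i ∈ T, 0 ≤ f i) {S : Finset ι}
    (hS : S ⊆ T) {c : ℝ} (h : ∀ i ∈ S, c ≤ f i) : (S.card : ℝ) * c ≤ ∑ i ∈ T, f i := by
  refine le_trans ?_ (sum_le_sum_of_subset_of_nonneg hS fun i hi _ => hf i hi)
  rw [← nsmul_eq_mul]
  exact card_nsmul_le_sum _ _ _ h

theorem nsq_nonneg {κ : Type} [Fintype κ] (V : κ → ℝ) : 0 ≤ nsq V :=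
  sum_nonneg fun _ _ => sq_nonneg _

theorem nsq_near {m : ℕ} (a b γ : Fin m → ℝ) {e : ℝ} (h : ∀ k, |b k - a k| ≤ e) :
    nsq (a - γ) ≤ 2 * nsq (b - γ) + 2 * (m * e ^ 2) := by
  have h1 : ∀ k, (a - γ) k ^ 2 ≤ 2 * (b - γ) k ^ 2 + 2 * e ^ 2 := fun k => by
    have h2 := sq_le_sq' (abs_le.1 (h k)).1 (abs_le.1 (h k)).2
    simp only [Pi.sub_apply]
    nlinarith [sq_nonneg ((b k - γ k) + (b k - a k))]
  refine (sum_le_sum fun k _ => h1 k).trans_eq ?_
  rw [sum_add_distrib, ← mul_sum, sum_const, card_univ, Fintype.card_fin, nsmul_eq_mul, nsq]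
  ring

theorem flip {u u' l w τ ϑ : ℝ} {x : ℤ} (h1 : u - u' = x - l) (h2 : |u'| ≤ 1 / 2 + τ)
    (h3 : |l - w| ≤ ϑ) (h4 : ϑ ≤ 1 / 4) (h5 : 1 / 2 + τ + ϑ < |u + cf w|) :
    1 / 16 ≤ (u - u') ^ 2 := by
  have h6 : |cf w| ≤ 1 / 2 := abs_sub_round w
  have h7 : round w - x ≠ 0 := by
    intro h
    have h8 : (round w : ℝ) = x := by exact_mod_cast sub_eq_zero.1 h
    have h9 : u + cf w = u' - (l - w) := by rw [cf, h8]; linarith
    rw [h9] at h5
    linarith [abs_sub u' (l - w)]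
  have h8 : (1 : ℝ) ≤ |(round w : ℝ) - x| := by exact_mod_cast Int.one_le_abs h7
  have h9 : (round w : ℝ) - x = -(u - u') - cf w - (l - w) := by rw [cf]; linarith
  have h10 := abs_sub (-(u - u') - cf w) (l - w)
  have h11 := abs_sub (-(u - u')) (cf w)
  rw [abs_neg] at h11
  rw [h9] at h8
  rw [← sq_abs]
  have h12 : 1 / 4 ≤ |u - u'| := by linarith
  nlinarith

end ClaimA

open ClaimA in
theorem claimA_proof (hP : PatStmt) (hB : BasicStmt) : ClaimAStmt := by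
  intro ι B _ _ _ _ M blk s Γ F Kb Lm Cn γ1 τ δ1 Υ ϑ ϑ1 ϑ2 δ3 η g u u' Δ x hG hC hGam hA hu hu' hR hx
  obtain ⟨b1, -, b3, -, -, b6⟩ := hB ι B M blk s Γ F Kb Lm Cn hG
  set JJ := univ.filter fun J => η ^ 2 ≤ nsq (res Δ J) with hJJ
  set SS := univ.filter fun J => ϑ ^ 2 ≤ nsq (res Δ J) with hSS
  set a := ∑ i, (u i - u' i) ^ 2 with ha
  set z : ℝ := ((zone blk JJ).card : ℝ) with hz
  by_contra hcon
  rw [not_le] at hcon
  have hϑ := hA.th_pos
  have hγ := hA.gam_pos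
  have hη : 0 < η := hϑ.trans_le hA.th_le
  have hη2 := hA.eta_le
  have hϑ1 := hA.th1_pos
  have a0 : 0 ≤ a := sum_nonneg fun _ _ => sq_nonneg _
  have z0 : 0 ≤ z := Nat.cast_nonneg _
  have g0 : (0 : ℝ) < g := by exact_mod_cast hA.g_pos
  have t1 : ϑ ^ 2 ≤ η ^ 2 := pow_le_pow_left₀ hϑ.le hA.th_le 2
  have t2 : η ^ 2 ≤ 1 / 4 := by nlinarith
  have G1 : γ1 * ∑ J, ((blk J).card : ℝ) * min (1 / 4) (nsq (res Δ J)) ≤ a := by
    simpa only [ha, hx] using hGam Δ hR x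
  have G0 : ∀ J, 0 ≤ ((blk J).card : ℝ) * min (1 / 4) (nsq (res Δ J)) := fun J =>
    mul_nonneg (Nat.cast_nonneg _) (le_min (by norm_num) (nsq_nonneg _))
  -- the pattern
  obtain ⟨π, p1, p2, p3, p4⟩ := (hP B M g).2.1 Δ SS JJ hA.g_pos
    (fun y => ((hR y.1).1 y.2).trans (by norm_num))
    (fun J hJ => mem_filter.2 ⟨mem_univ _, t1.trans (mem_filter.1 hJ).2⟩)
  have w1 : wsz blk (pS π) ≤ Υ * (zone blk (pJ π)).card := by
    rw [p1, p2, ← hz]
    have h1 : wsz blk SS * ϑ ^ 2 ≤ ∑ J, ((blk J).card : ℝ) * min (1 / 4) (nsq (res Δ J)) := by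
      rw [wsz, sum_mul]
      refine le_trans (sum_le_sum fun J hJ => ?_)
        (sum_le_sum_of_subset_of_nonneg (subset_univ SS) fun J _ _ => G0 J)
      exact mul_le_mul_of_nonneg_left (le_min (t1.trans t2) (mem_filter.1 hJ).2) (Nat.cast_nonneg _)
    have h2 : wsz blk SS ≤ 1 / (γ1 * ϑ ^ 2) * a := by
      rw [one_div_mul_eq_div, le_div_iff₀ (by positivity)]
      nlinarith
    have h3 : a ≤ z := by nlinarith
    refine h2.trans (mul_le_mul hA.ups h3 a0 ?_)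
    exact le_trans (by positivity) hA.ups
  have c1 := hC π (η / 2) (by positivity) (by linarith) w1 fun J hJ γ hγ' => by
    rw [p2] at hJ
    have h1 := (le_min t2 (mem_filter.1 hJ).2).trans ((hR J).2 γ hγ')
    have h2 := nsq_near (res Δ J) (res (pD π) J) γ (e := 1 / g) fun k =>
      p3 ⟨J, k⟩ (mem_filter.2 ⟨mem_univ _, t1.trans (mem_filter.1 hJ).2⟩)
    have h3 : (M J : ℝ) * (1 / g) ^ 2 ≤ (Cn / g) ^ 2 := by
      rw [div_pow, div_pow, one_pow, mul_one_div]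
      gcongr
      nlinarith [hG.dim_le J, hG.one_le_Cn]
    have h4 : (Cn / g) ^ 2 ≤ (η / 2) ^ 2 :=
      pow_le_pow_left₀ (div_nonneg (zero_le_one.trans hG.one_le_Cn) g0.le) hA.grid2 2
    nlinarith
  have c2 := hu.2.2 π w1
  rw [p2, ← hz] at c1 c2
  have c3 := card_mul_le (T := zone blk JJ) (f := fun i => max (|cf (pw s π i)| - ϑ2) 0)
    (fun i _ => le_max_right _ _) (filter_subset (fun i => η / 2 / 10 ≤ nd (pw s π i)) _)
    (c := η / 40) fun i hi => le_max_of_le_left (by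
      have h1 : η / 2 / 10 ≤ |cf (pw s π i)| := (mem_filter.1 hi).2
      linarith [hA.th2_le])
  set Cand := (zone blk JJ).filter fun i => 1 / 2 + τ + ϑ1 < |u i + cf (pw s π i)| with hCand
  have c4 : η * z / 3200 ≤ Cand.card := by
    have h1 := mul_le_mul_of_nonneg_right c1 (show 0 ≤ η / 40 by positivity)
    have h2 := mul_le_mul_of_nonneg_right hA.d3_le z0
    linarith
  -- the small blocks
  set sm : ι → ℝ := fun i => ∑ J ∈ SSᶜ, ip (s J i) (res Δ J) with hsm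
  have d1 : ∀ i, |lin (tc s) Δ i - pw s π i - sm i| ≤ ϑ1 / 2 := fun i => by
    have h1 := b3 (fun y => if y.1 ∈ SS then Δ y - pD π y else 0) (1 / g) (by positivity) (fun y => by
      split_ifs with h
      · rw [abs_sub_comm]; exact p3 y h
      · rw [abs_zero]; positivity) i
    rw [mul_one_div] at h1
    refine le_trans (le_of_eq ?_) (h1.trans hA.grid1)
    congr 1
    rw [pw, b1, b1, b1, hsm, ← sum_sub_distrib]
    simp only
    rw [← sum_ite_mem_eq SSᶜ, ← sum_sub_distrib]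
    refine sum_congr rfl fun J _ => ?_
    by_cases h : J ∈ SS
    · simp [ip, res, h, mul_sub]
    · simp [ip, res, h, p4 ⟨J, _⟩ h]
  have d2 := b6 Δ SSᶜ (zone blk JJ) (ϑ ^ 2) (by positivity) fun J hJ => by
    have h1 := mem_compl.1 hJ
    rw [hSS, mem_filter, not_and, not_le] at h1
    exact (h1 (mem_univ _)).le
  have d3 : ∑ J ∈ SSᶜ, ((blk J).card : ℝ) * nsq (res Δ J) ≤ a / γ1 := by
    rw [le_div_iff₀' hγ]
    refine le_trans (mul_le_mul_of_nonneg_left ?_ hγ.le) G1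
    refine le_trans (sum_le_sum fun J hJ => ?_)
      (sum_le_sum_of_subset_of_nonneg (subset_univ SSᶜ) fun J _ _ => G0 J)
    have h1 := mem_compl.1 hJ
    rw [hSS, mem_filter, not_and, not_le] at h1
    rw [min_eq_right ((h1 (mem_univ _)).le.trans (t1.trans t2))]
  have d4 : ∑ i ∈ zone blk JJ, sm i ^ 2 ≤ ϑ1 ^ 2 * a + η * ϑ1 ^ 2 / 51200 * z := by
    refine d2.trans (add_le_add ?_ (mul_le_mul_of_nonneg_right (by linarith [hA.small]) z0))
    have h1 : 0 ≤ F * Kb / Lm := by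
      have := hG.one_le_F
      have := hG.one_le_Kb
      have := hG.one_le_Lm
      positivity
    refine (mul_le_mul_of_nonneg_left d3 h1).trans ?_
    rw [← mul_one_div a, mul_comm a, ← mul_assoc, mul_one_div, div_div]
    exact mul_le_mul_of_nonneg_right hA.eps1 a0
  set Big := (zone blk JJ).filter fun i => ϑ1 / 2 < |sm i| with hBig
  have d5 := card_mul_le (T := zone blk JJ) (f := fun i => sm i ^ 2) (fun i _ => sq_nonneg _)
    (S := Big) (filter_subset _ _) (c := ϑ1 ^ 2 / 4) fun i hi => by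
      have h1 := (mem_filter.1 hi).2
      rw [← sq_abs (sm i)]
      nlinarith
  have d6 : (Big.card : ℝ) ≤ η * z / 6400 := by
    have h1 : (Big.card : ℝ) * ϑ1 ^ 2 ≤ (4 * a + η * z / 12800) * ϑ1 ^ 2 := by linarith
    have h2 := le_of_mul_le_mul_right h1 (by positivity)
    have h3 : 0 ≤ η * z := by positivity
    linarith
  have f1 := card_mul_le (T := univ) (f := fun i => (u i - u' i) ^ 2) (fun i _ => sq_nonneg _)
    (subset_univ (Cand \ Big)) (c := 1 / 16) fun i hi => by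
      obtain ⟨h1, h2⟩ := mem_sdiff.1 hi
      obtain ⟨h3, h4⟩ := mem_filter.1 h1
      have h5 : |sm i| ≤ ϑ1 / 2 := not_lt.1 fun h => h2 (mem_filter.2 ⟨h3, h⟩)
      refine flip (hx i) (hu' i) ?_ hA.th1_le h4
      have h6 := abs_add_le (lin (tc s) Δ i - pw s π i - sm i) (sm i)
      rw [sub_add_cancel] at h6
      linarith [d1 i]
  have f2 : (Cand.card : ℝ) ≤ (Cand \ Big).card + Big.card := by
    exact_mod_cast card_le_card_sdiff_add_card
  linarith

end Vale.Agent.P318.B
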