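import Vale.Agent.P318.B.Stmt

/-!
Combinations modulo `p` and the choice of the lattice.
-/

namespace Vale.Agent.P318.B

open Finset Vale.Agent.P318.M

noncomputable section

namespace Code

theorem ind_nn (P : Prop) : 0 ≤ ind P := by unfold ind; split_ifs <;> norm_num

theorem ind_one {P : Prop} (h : P) : ind P = 1 := if_pos h

theorem ind_le {P : Prop} {x : ℝ} (h0 : 0 ≤ x) (h : P → 1 ≤ x) : ind P ≤ x := by
  unfold ind
  split_ifs with k
  exacts [h k, h0]

theorem av_mono {α : Type} [Fintype α] {f g : α → ℝ} (h : ∀ x, f x ≤ g x) : av f ≤ av g :=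
  div_le_div_of_nonneg_right (sum_le_sum fun x _ => h x) (Nat.cast_nonneg _)

theorem av_add {α : Type} [Fintype α] (f g : α → ℝ) : av (fun x => f x + g x) = av f + av g := by
  simp only [av, sum_add_distrib, add_div]

theorem av_sum {α β : Type} [Fintype α] (S : Finset β) (f : β → α → ℝ) :
    av (fun x => ∑ b ∈ S, f b x) = ∑ b ∈ S, av (f b) := by
  simp only [av, ← sum_div]
  rw [sum_comm]

variable {M p : ℕ} {ι : Type}

/-- the size of a residue -/
abbrev na (x : ZMod p) : ℕ := x.valMinAbs.natAbs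

theorem na_sub (x y : ZMod p) : na (x - y) ≤ na x + na y := by
  rw [sub_eq_add_neg]
  refine (ZMod.natAbs_valMinAbs_add_le _ _).trans ((Int.natAbs_add_le _ _).trans ?_)
  rw [ZMod.natAbs_valMinAbs_neg]

/-- one event of the union bound -/
def Ev (s : ι → Fin M → ℤ) (B : ℕ) (U : Finset ι) (z : ι → ZMod p) (l : ι) : Prop :=
  2 * B < na (z l) ∧ ∀ k, na (∑ j ∈ U, z j * (s j k : ZMod p)) ≤ B

variable [Fintype ι] [DecidableEq ι]

theorem av_Ev {T : Finset (Fin M → Bool × Bool)} (hT : T.Nonempty) (B : ℕ) {U : Finset ι}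
    (z : ι → ZMod p) {l : ι} (hl : l ∈ U) :
    av (fun x : ι → T => ind (Ev (fun i => rw (x i).1) B U z l)) ≤ 2 ^ M / T.card := by
  classical
  have h1 : (univ.filter fun x : ι → T => Ev (fun i => rw (x i).1) B U z l).card ≤
      (univ : Finset (({j // j ≠ l} → T) × (Fin M → Bool))).card := by
    refine card_le_card_of_injOn (fun x => (fun j => x j.1, fun k => ((x l).1 k).1))
      (fun _ _ => mem_univ _) fun x hx y hy e => ?_
    replace hx := (mem_filter.1 hx).2
    replace hy := (mem_filter.1 hy).2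
    have hz : 2 * B < (z l).valMinAbs.natAbs := hx.1
    have e1 : ∀ j, j ≠ l → x j = y j := fun j hj => congrFun (congrArg Prod.fst e) ⟨j, hj⟩
    funext j
    by_cases hj : j = l
    swap
    · exact e1 j hj
    subst hj
    refine Subtype.ext (funext fun k => ?_)
    have e2 : ((x j).1 k).1 = ((y j).1 k).1 := congrFun (congrArg Prod.snd e) k
    refine Prod.ext e2 (by_contra fun e3 => ?_)
    have e4 : ∑ i ∈ U, z i * (rw (x i).1 k : ZMod p) - ∑ i ∈ U, z i * (rw (y i).1 k : ZMod p) =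
        z j * (rw (x j).1 k - rw (y j).1 k) := by
      rw [← sum_sub_distrib, sum_eq_single_of_mem j hl fun i _ hi => by rw [e1 i hi, sub_self],
        mul_sub]
    have h2 := (na_sub _ _).trans (add_le_add (hx.2 k) (hy.2 k))
    rw [e4] at h2
    simp only [rw, e2] at h2
    revert e3 h2
    rcases ((x j).1 k).2 <;> rcases ((y j).1 k).2 <;> simp [na, ZMod.natAbs_valMinAbs_neg] <;>
      omega
  have h2 : Fintype.card (ι → T) = T.card * Fintype.card ({j // j ≠ l} → T) := by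
    rw [Fintype.card_congr (Equiv.funSplitAt l T), Fintype.card_prod, Fintype.card_coe]
  have h3 : (0 : ℝ) < T.card := Nat.cast_pos.2 hT.card_pos
  have : Nonempty T := hT.to_subtype
  have h4 : (0 : ℝ) < Fintype.card ({j // j ≠ l} → T) := Nat.cast_pos.2 Fintype.card_pos
  rw [card_univ, Fintype.card_prod, Fintype.card_fun, Fintype.card_fun (β := Bool),
    ← Fintype.card_fun, Fintype.card_bool, Fintype.card_fin] at h1
  have h5 : ∑ x : ι → T, ind (Ev (fun i => rw (x i).1) B U z l) =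
      (univ.filter fun x : ι → T => Ev (fun i => rw (x i).1) B U z l).card := by
    rw [card_filter, Nat.cast_sum]
    refine sum_congr rfl fun x _ => ?_
    unfold ind
    split_ifs <;> simp
  rw [av, h5, h2, Nat.cast_mul, div_le_div_iff₀ (by positivity) h3]
  have h6 : ((univ.filter fun x : ι → T => Ev (fun i => rw (x i).1) B U z l).card : ℝ) ≤
      Fintype.card ({j // j ≠ l} → T) * 2 ^ M := by exact_mod_cast h1
  nlinarith

theorem e3a [Fact p.Prime] (hB : BallStmt) (T : Finset (Fin M → Bool × Bool)) (Dm : ℝ) (sp B : ℕ)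
    (hT : T.Nonempty) (hD : (4 : ℝ) ^ M ≤ Dm * T.card) :
    av (fun x : ι → T => ind (Bad3 p (fun i => rw (x i).1) sp B)) ≤
      sp * ((cd ι + 1) * p) ^ sp * Dm / 2 ^ M := by
  have hp := (Fact.out : p.Prime).one_le
  have h3 : (0 : ℝ) < T.card := Nat.cast_pos.2 hT.card_pos
  let Z : Finset ι → Finset (ι → ZMod p) := fun U =>
    Fintype.piFinset fun j => if j ∈ U then univ else {0}
  have hZ : ∀ U, (Z U).card = p ^ U.card := fun U => by
    simp only [Z, Fintype.card_piFinset, apply_ite card, card_univ, ZMod.card, card_singleton,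
      prod_ite_mem, univ_inter, prod_const]
  have h1 : (2 : ℝ) ^ M / T.card ≤ Dm / 2 ^ M := by
    rw [div_le_div_iff₀ h3 (by positivity), ← mul_pow]
    norm_num
    exact hD
  have h0 : 0 ≤ Dm / 2 ^ M := le_trans (by positivity) h1
  calc _ ≤ av fun x : ι → T => ∑ U ∈ univ.filter fun U : Finset ι => U.card ≤ sp, ∑ z ∈ Z U,
        ∑ l ∈ U, ind (Ev (fun i => rw (x i).1) B U z l) := by
        refine av_mono fun x => ind_le (sum_nonneg fun _ _ => sum_nonneg fun _ _ =>
          sum_nonneg fun _ _ => ind_nn _) ?_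
        rintro ⟨U, hU, z, l, hl, h1, h2⟩
        refine le_trans ?_ (single_le_sum (fun _ _ => sum_nonneg fun _ _ =>
          sum_nonneg fun _ _ => ind_nn _) (mem_filter.2 ⟨mem_univ U, hU⟩))
        refine le_trans ?_ (single_le_sum (a := fun j => if j ∈ U then z j else 0)
          (fun _ _ => sum_nonneg fun _ _ => ind_nn _) (Fintype.mem_piFinset.2 fun j => by
            split_ifs <;> simp))
        refine le_trans (ind_one ⟨by simpa [hl] using h1, fun k => ?_⟩).ge
          (single_le_sum (fun _ _ => ind_nn _) hl)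
        exact (congrArg na (sum_congr rfl fun j hj => by simp only [if_pos hj])).trans_le (h2 k)
    _ ≤ ∑ U ∈ univ.filter fun U : Finset ι => U.card ≤ sp, (p : ℝ) ^ sp * (sp * (Dm / 2 ^ M)) := by
        rw [av_sum]
        refine sum_le_sum fun U hU => ?_
        have hU := (mem_filter.1 hU).2
        rw [av_sum]
        refine (sum_le_card_nsmul _ _ (sp * (Dm / 2 ^ M)) fun z _ => ?_).trans ?_
        · rw [av_sum]
          refine (sum_le_card_nsmul _ _ _ fun l hl => (av_Ev hT B z hl).trans h1).trans ?_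
          rw [nsmul_eq_mul]
          gcongr
        · rw [nsmul_eq_mul, hZ, Nat.cast_pow]
          gcongr
          exact_mod_cast hp
    _ ≤ _ := by
        have : ((univ.filter fun U : Finset ι => U.card ≤ sp).card : ℝ) ≤ (cd ι + 1) ^ sp := by
          unfold cd
          exact_mod_cast hB.2.2 ι sp
        rw [sum_const, nsmul_eq_mul, mul_pow, mul_div_assoc]
        refine (mul_le_mul_of_nonneg_right this (by positivity)).trans_eq (by ring)

theorem e3b [Fact p.Prime] {r : ℕ} (H : Fin r → Fin M → ZMod p) (Γ : AddSubgroup (Fin M → ℝ))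
    (s : ι → Fin M → ℤ) (sp B : ℕ) (a c2 : ℝ) (hd : ∀ m, Dual Γ m → inK H m)
    (hs : ∀ j k, |(s j k : ℝ)| ≤ 1) (ha : 0 ≤ a) (hB : Real.sqrt c2 + a * sp ≤ B)
    (hp : B * (2 * sp + 2) < p) (h1 : ¬ Bad1 H s sp a c2) (h2 : ¬ Bad3 p s sp 0)
    (h3 : ¬ Bad3 p s sp B) : Span Γ univ s sp a c2 := by
  intro T _ hT m hm α hα hc
  have ex : ∀ (g : T → ZMod p) k, ∑ j ∈ T, (if h : j ∈ T then g ⟨j, h⟩ else 0) * (s j k : ZMod p) =
      (∑ i : T, g i • fun k => (s i k : ZMod p)) k := fun g k => by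
    rw [← sum_coe_sort, Finset.sum_apply]
    exact sum_congr rfl fun j _ => by rw [dif_pos j.2]; rfl
  have hi : LinearIndependent (ZMod p) (fun l : T => fun k => (s l k : ZMod p)) := by
    refine Fintype.linearIndependent_iff.2 fun g hg l => by_contra fun hl => h2
      ⟨T, hT, fun j => if h : j ∈ T then g ⟨j, h⟩ else 0, l, l.2, ?_, fun k => ?_⟩
    · simpa [l.2] using hl
    · rw [ex, hg]
      simp
  obtain ⟨g, hg⟩ := (Submodule.mem_span_range_iff_exists_fun _).1
    (by_contra fun h => h1 ⟨T, hT, hi, m, α, hα, hc, hd m hm, h⟩)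
  have hm' : ∀ k, (m k).natAbs ≤ B := fun k => by
    have k1 : |(m k : ℝ) - ∑ l ∈ T, α l * s l k| ≤ Real.sqrt c2 := Real.abs_le_sqrt
      ((single_le_sum (f := fun k => ((m k : ℝ) - ∑ l ∈ T, α l * s l k) ^ 2)
        (fun _ _ => sq_nonneg _) (mem_univ k)).trans hc.le)
    have k2 : |∑ l ∈ T, α l * s l k| ≤ a * sp := by
      refine (abs_sum_le_sum_abs _ _).trans ((sum_le_card_nsmul _ _ a fun l _ => ?_).trans ?_)
      · rw [abs_mul]
        exact (mul_le_of_le_one_right (abs_nonneg _) (hs l k)).trans (hα l)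
      · rw [nsmul_eq_mul, mul_comm]
        gcongr
    have k3 : |(m k : ℝ)| ≤ B := by
      linarith [abs_sub_abs_le_abs_sub (m k : ℝ) (∑ l ∈ T, α l * s l k)]
    have k4 : |m k| ≤ B := by exact_mod_cast k3
    rwa [Int.abs_eq_natAbs, Nat.cast_le] at k4
  set z : ι → ZMod p := fun j => if h : j ∈ T then g ⟨j, h⟩ else 0
  have ez : ∀ k, ∑ j ∈ T, z j * (s j k : ZMod p) = m k := fun k => by rw [ex, hg]
  have hz : ∀ l ∈ T, na (z l) ≤ 2 * B := fun l hl => not_lt.1 fun h => h3
    ⟨T, hT, z, l, hl, h, fun k => by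
      rw [ez]
      exact (ZMod.natAbs_min_of_le_div_two p _ _ (ZMod.coe_valMinAbs _)
        (ZMod.natAbs_valMinAbs_le _)).trans (hm' k)⟩
  refine ⟨fun l => (z l).valMinAbs, fun k => sub_eq_zero.1 (Int.eq_zero_of_abs_lt_dvd (m := p)
    ((ZMod.intCast_zmod_eq_zero_iff_dvd _ _).1 ?_) ?_)⟩
  · push_cast
    simp only [ez, sub_self]
  · have k2 : |∑ l ∈ T, (z l).valMinAbs * s l k| ≤ sp * (2 * B : ℤ) := by
      refine (abs_sum_le_sum_abs _ _).trans ((sum_le_card_nsmul _ _ (2 * B : ℤ) fun l hl => ?_).trans ?_)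
      · have k1 : |s l k| ≤ 1 := by exact_mod_cast hs l k
        have k3 := hz l hl
        rw [abs_mul]
        refine (mul_le_of_le_one_right (abs_nonneg _) k1).trans ?_
        rw [Int.abs_eq_natAbs]
        exact_mod_cast k3
      · rw [nsmul_eq_mul]
        gcongr
    have k3 : |m k| ≤ B := by rw [Int.abs_eq_natAbs]; exact_mod_cast hm' k
    have k4 : (B : ℤ) * (2 * sp + 2) < p := by exact_mod_cast hp
    nlinarith [abs_sub (m k) (∑ l ∈ T, (z l).valMinAbs * s l k), Int.natCast_nonneg B]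

theorem rw_le (e : Fin M → Bool × Bool) (k : Fin M) : |(rw e k : ℝ)| ≤ 1 := by
  unfold rw
  split_ifs <;> simp

theorem ex_r {p x : ℝ} (hp : 1 < p) (hx : 0 ≤ x) :
    ∃ r : ℕ, p ^ r ≤ Real.exp x ∧ Real.exp x ≤ p ^ r * p := by
  have lp := Real.log_pos hp
  refine ⟨⌊x / Real.log p⌋₊, ?_, ?_⟩
  · rw [← Real.exp_log (pow_pos (by linarith) _), Real.exp_le_exp, Real.log_pow]
    exact (le_div_iff₀ lp).1 (Nat.floor_le (by positivity))
  · rw [← pow_succ, ← Real.exp_log (pow_pos (by linarith) _), Real.exp_le_exp, Real.log_pow]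
    push_cast
    exact (div_le_iff₀ lp).1 (Nat.lt_floor_add_one _).le

section num
variable {m c a x q : ℝ} {sp : ℕ}

theorem sp_le (hm : 10 ^ 14 ≤ m) (hc : 0 ≤ c)
    (h : sp * (Real.log (c + 1) + 5 * Real.log m) ≤ m / 512) : (sp : ℝ) ≤ m := by
  have l1 : 0 ≤ Real.log (c + 1) := Real.log_nonneg (by linarith)
  have l2 : 1 ≤ Real.log m := by
    rw [Real.le_log_iff_exp_le (by linarith)]
    linarith [Real.exp_one_lt_d9]
  nlinarith [Nat.cast_nonneg (α := ℝ) sp]

theorem key (hm : 0 < m) (hc : 0 ≤ c) (h : sp * (Real.log (c + 1) + 5 * Real.log m) ≤ m / 512)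
    (h0 : 0 ≤ x) (hx : x ≤ m ^ 5) : ((c + 1) * x) ^ sp ≤ Real.exp (m / 512) :=
  calc _ ≤ ((c + 1) * m ^ 5) ^ sp := by gcongr
    _ = Real.exp (sp * (Real.log (c + 1) + 5 * Real.log m)) := by
      rw [Real.exp_nat_mul, Real.exp_add, Real.exp_log (by linarith),
        show (5 : ℝ) = (5 : ℕ) by norm_num, Real.exp_nat_mul, Real.exp_log hm]
    _ ≤ _ := Real.exp_le_exp.2 h

theorem pw_le (hm : 10 ^ 14 ≤ m) (n : ℕ) : 10 ^ 14 * m ^ n ≤ m ^ (n + 1) := by
  rw [pow_succ' m]
  exact mul_le_mul_of_nonneg_right hm (pow_nonneg (by linarith) n)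

theorem num3 {M : ℕ} (h1 : (sp : ℝ) ≤ M ^ 4) (h0 : 0 ≤ x) (hx : x ≤ Real.exp (M / 512))
    (q0 : 0 ≤ q) (hq : q ≤ Real.exp (M / 64)) :
    sp * x * q / 2 ^ M ≤ M ^ 4 * Real.exp (-(M / 128) - M / 512) := by
  have M0 : (0 : ℝ) ≤ M := Nat.cast_nonneg M
  have k1 : Real.exp (M / 2) ≤ 2 ^ M := by
    rw [← Real.exp_log (by positivity : (0 : ℝ) < 2 ^ M), Real.exp_le_exp, Real.log_pow]
    nlinarith [Real.log_two_gt_d9]
  calc _ ≤ M ^ 4 * Real.exp (M / 512) * Real.exp (M / 64) / Real.exp (M / 2) := by gcongr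
    _ ≤ _ := by
      rw [mul_assoc, mul_div_assoc, ← Real.exp_add, ← Real.exp_sub]
      exact mul_le_mul_of_nonneg_left (Real.exp_le_exp.2 (by linarith)) (by positivity)

theorem num1 (hm : 0 ≤ m) (hx : x ≤ Real.exp (m / 512)) (q0 : 0 < q)
    (hq : Real.exp (m / 64) ≤ q * (2 * m ^ 4)) :
    2 * x * Real.exp (m / 512) / q ≤ 4 * m ^ 4 * Real.exp (-(m / 128) - m / 512) := by
  rw [div_le_iff₀ q0]
  calc _ ≤ 2 * Real.exp (m / 512) * Real.exp (m / 512) := by gcongr
    _ ≤ 2 * Real.exp (-(m / 128) - m / 512) * Real.exp (m / 64) := by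
      rw [mul_assoc, mul_assoc, ← Real.exp_add, ← Real.exp_add]
      exact mul_le_mul_of_nonneg_left (Real.exp_le_exp.2 (by linarith)) (by positivity)
    _ ≤ 2 * Real.exp (-(m / 128) - m / 512) * (q * (2 * m ^ 4)) := by gcongr
    _ = _ := by ring

theorem num0 (hm : 10 ^ 14 ≤ m) :
    6 * m ^ 4 * Real.exp (-(m / 128) - m / 512) ≤ Real.exp (-(m / 512)) :=
  calc _ ≤ Real.exp (m / 128) * Real.exp (-(m / 128) - m / 512) := by
        gcongr
        refine le_trans ?_ (Real.pow_div_factorial_le_exp _ (by linarith) 5)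
        have := pw_le hm 4
        have : 0 ≤ m ^ 4 := by positivity
        rw [div_pow]
        norm_num [Nat.factorial] at *
        linarith
    _ = _ := by
        rw [← Real.exp_add]
        congr 1
        ring

theorem numB (hm : 10 ^ 14 ≤ m) (ha : 0 ≤ a) (ham : a ≤ m) (hs : (sp : ℝ) ≤ m) :
    (sp : ℝ) ≤ m ^ 4 ∧ 2 * m ^ 4 ≤ m ^ 5 ∧ 2000 * a * sp + 3 ≤ m ^ 5 ∧
      (⌈Real.sqrt (m / 10 ^ 6) + a * sp⌉₊ : ℝ) * (2 * sp + 2) ≤ m ^ 4 := by
  have m1 := pw_le hm 1
  have m2 := pw_le hm 2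
  have m3 := pw_le hm 3
  have m4 := pw_le hm 4
  norm_num at m1 m2 m3 m4 hm
  have s0 : (0 : ℝ) ≤ sp := Nat.cast_nonneg _
  have as : a * sp ≤ m ^ 2 := by rw [sq]; exact mul_le_mul ham hs s0 (by linarith)
  have k0 := Nat.ceil_lt_add_one (show 0 ≤ Real.sqrt (m / 10 ^ 6) + a * sp by positivity)
  have k1 : Real.sqrt (m / 10 ^ 6) ≤ m := Real.sqrt_le_iff.2 ⟨by linarith, by linarith⟩
  refine ⟨by linarith, by linarith, by linarith, ?_⟩
  calc _ ≤ 2 * m ^ 2 * (4 * m) := by gcongr <;> linarith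
    _ ≤ _ := by linarith

end num

end Code

open Code

theorem e3_proof (hB : BallStmt) : E3Stmt := fun _ _ _ _ _ _ => ⟨e3a hB, fun _ => e3b⟩

theorem code_proof (hC : CharStmt) (hH : HStmt) (hE : E3Stmt) : CodeStmt := by
  refine ⟨10 ^ 14, fun M hM ι _ _ sp a ha haM hsp => ?_⟩
  have hM' : (10 : ℝ) ^ 14 ≤ M := by exact_mod_cast hM
  have M0 : (0 : ℝ) < M := lt_of_lt_of_le (by positivity) hM'
  obtain ⟨p, hp, p1, p2⟩ := Nat.exists_prime_lt_and_le_two_mul (M ^ 4) (by positivity)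
  have := Fact.mk hp
  have p3 : (M : ℝ) ^ 4 < p := by exact_mod_cast p1
  have p4 : (p : ℝ) ≤ 2 * M ^ 4 := by exact_mod_cast p2
  have p5 : (1 : ℝ) < p := by exact_mod_cast hp.one_lt
  obtain ⟨r, r1, r2⟩ := ex_r p5 (show (0 : ℝ) ≤ M / 64 by positivity)
  obtain ⟨H, hD, b1⟩ := hH M r p ι sp a (by omega) r1 ha
  obtain ⟨c1, c2, c3⟩ := hC M r p H
  have ok := c3 (by omega) r1 hD
  have c0 : 0 ≤ cd ι := Nat.cast_nonneg _
  obtain ⟨n1, n2, n3, n4⟩ := numB hM' ha haM (sp_le hM' c0 hsp)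
  have hB1 := Nat.le_ceil (Real.sqrt (M / 10 ^ 6) + a * sp)
  generalize ⌈Real.sqrt (M / 10 ^ 6) + a * sp⌉₊ = B at hB1 n4
  have hB : B * (2 * sp + 2) < p := by exact_mod_cast n4.trans_lt p3
  have b3 := fun B => ((hE M p ι).1 _ _ sp B ok.ne c1).trans (num3 n1 (by positivity)
    (key M0 c0 hsp (by positivity) (p4.trans n2)) (by positivity) r1)
  replace b1 := b1.trans (num1 M0.le (key M0 c0 hsp (by positivity) n3) (by positivity)
    (r2.trans (by gcongr)))
  refine ⟨GH H, code H, ok, le_trans ?_ (num0 hM')⟩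
  calc _ ≤ av fun x : ι → code H => ind (Bad1 H (fun i => rw (x i).1) sp a (M / 10 ^ 6)) +
        ind (Bad3 p (fun i => rw (x i).1) sp 0) + ind (Bad3 p (fun i => rw (x i).1) sp B) := by
        refine av_mono fun x => ?_
        have n1 := ind_nn (Bad1 H (fun i => rw (x i).1) sp a (M / 10 ^ 6))
        have n2 := ind_nn (Bad3 p (fun i => rw (x i).1) sp 0)
        have n3 := ind_nn (Bad3 p (fun i => rw (x i).1) sp B)
        refine ind_le (add_nonneg (add_nonneg n1 n2) n3) fun h => by_contra fun k => h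
          ((hE M p ι).2 r H _ _ sp B a _ (fun m => (c2 m).1) (fun j => rw_le _) ha hB1 hB ?_ ?_ ?_)
        all_goals exact fun h => k (by linarith only [ind_one h, n1, n2, n3])
    _ ≤ _ := by
        rw [av_add, av_add]
        linarith only [b1, b3 0, b3 B]

end

end Vale.Agent.P318.B
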