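import Vale.Agent.P318.B.Stmt
import Vale.Agent.P318.M.Ramp
import Vale.Agent.P318.M.Bit
import Vale.Agent.P318.M.Deriv
import Vale.Agent.P318.M.Torus
import Vale.Agent.P318.M.Block0

/-! The comb averages are small. -/

namespace Vale.Agent.P318.B

open Finset MeasureTheory Vale.Agent.P318.M Vale.Agent.P318.M.Block

namespace Comb

variable {κ : Type} [Fintype κ] {L : ℕ} {w : κ → ℝ} {F G : (κ → ℝ) → ℝ}

/-- The average along the comb with step `w`. -/
noncomputable def cv (L : ℕ) (w : κ → ℝ) (F : (κ → ℝ) → ℝ) (η : κ → ℝ) : ℝ :=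
  (1 / L : ℝ) * ∑ k ∈ range L, F (η + (k : ℝ) • w)

omit [Fintype κ] in
theorem bm_sh (hF : BM F) (ξ : κ → ℝ) : BM fun η => F (η + ξ) :=
  bm_comp hF (measurable_id.add_const ξ)

omit [Fintype κ] in
theorem bm_cv (hF : BM F) : BM (cv L w F) :=
  bm_mul (bm_const _) (bm_sum _ fun _ _ => bm_sh hF _)

omit [Fintype κ] in
theorem per_cv (hF : Per F) : Per (cv L w F) := fun β n => by
  unfold cv
  congr 1
  exact sum_congr rfl fun k _ => by rw [add_right_comm, hF]

theorem adj (hF : BM F) (pF : Per F) (hG : BM G) (pG : Per G) :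
    tm (fun η => F η * cv L w G η) = tm fun η => cv L (-w) F η * G η := by
  have e1 : ∀ η, F η * cv L w G η = (1 / L : ℝ) * ∑ k ∈ range L, F η * G (η + (k : ℝ) • w) :=
    fun η => by rw [cv, ← mul_sum]; ring
  have e2 : ∀ η, cv L (-w) F η * G η = (1 / L : ℝ) * ∑ k ∈ range L, F (η + (k : ℝ) • -w) * G η :=
    fun η => by rw [cv, ← sum_mul]; ring
  simp only [e1, e2]
  rw [tm_cmul, tm_cmul, tm_sum _ fun k _ => bm_mul hF (bm_sh hG _),
    tm_sum _ fun k _ => bm_mul (bm_sh hF _) hG]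
  congr 1
  refine sum_congr rfl fun k _ => ?_
  have := Torus.int_shift (H := fun η => F (η + (k : ℝ) • -w) * G η)
    (fun β n => by rw [add_right_comm, pF, pG]) ((k : ℝ) • w)
  simp only [smul_neg, add_neg_cancel_right] at this ⊢
  exact this

omit [Fintype κ] in
theorem cv_const (hL : 1 ≤ L) (c : ℝ) (η : κ → ℝ) : cv L w (fun _ => c) η = c := by
  have : (L : ℝ) ≠ 0 := Nat.cast_ne_zero.2 (by omega)
  rw [cv, sum_const, card_range, nsmul_eq_mul]
  field_simp

theorem tm_cv (hL : 1 ≤ L) (hF : BM F) (pF : Per F) : tm (cv L w F) = tm F := by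
  have := adj (L := L) (w := w) (bm_const (1 : ℝ)) (fun _ _ => rfl) hF pF
  simpa only [one_mul, cv_const hL] using this

omit [Fintype κ] in
theorem cv_mul {d : (κ → ℝ) → ℝ} (hd : ∀ η (k : ℕ), d (η + (k : ℝ) • w) = d η) (η : κ → ℝ) :
    cv L w (fun η => d η * F η) η = d η * cv L w F η := by
  simp only [cv, hd, ← mul_sum]
  ring

omit [Fintype κ] in
theorem cv_mono (h : ∀ η, F η ≤ G η) (η : κ → ℝ) : cv L w F η ≤ cv L w G η :=
  mul_le_mul_of_nonneg_left (sum_le_sum fun _ _ => h _) (by positivity)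

omit [Fintype κ] in
theorem cv_nonneg (h : ∀ η, 0 ≤ F η) (η : κ → ℝ) : 0 ≤ cv L w F η :=
  mul_nonneg (by positivity) (sum_nonneg fun _ _ => h _)

omit [Fintype κ] in
theorem abs_cv (η : κ → ℝ) : |cv L w F η| ≤ cv L w (fun η => |F η|) η := by
  rw [cv, cv, abs_mul, abs_of_nonneg (by positivity)]
  exact mul_le_mul_of_nonneg_left (abs_sum_le_sum_abs _ _) (by positivity)

omit [Fintype κ] in
theorem sq_cv (hL : 1 ≤ L) (η : κ → ℝ) : cv L w F η ^ 2 ≤ cv L w (fun η => F η ^ 2) η := by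
  have h0 : (0 : ℝ) < L := Nat.cast_pos.2 hL
  have h1 := sq_sum_le_card_mul_sum_sq (s := range L) (f := fun k => F (η + (k : ℝ) • w))
  rw [card_range] at h1
  rw [cv, cv, mul_pow]
  exact (mul_le_mul_of_nonneg_left h1 (by positivity)).trans (le_of_eq (by field_simp))

omit [Fintype κ] in
theorem cv_del {m : (κ → ℝ) → ℝ} (hm : U01 m) (η : κ → ℝ) :
    |cv L w (fun η => m (η + (1 / 2 : ℝ) • w) - m (η - (1 / 2 : ℝ) • w)) η| ≤ 1 / L := by
  have e : ∑ k ∈ range L, (m (η + (k : ℝ) • w + (1 / 2 : ℝ) • w) -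
      m (η + (k : ℝ) • w - (1 / 2 : ℝ) • w)) =
      m (η + (L : ℝ) • w - (1 / 2 : ℝ) • w) - m (η + ((0 : ℕ) : ℝ) • w - (1 / 2 : ℝ) • w) := by
    rw [← sum_range_sub (fun k : ℕ => m (η + (k : ℝ) • w - (1 / 2 : ℝ) • w))]
    refine sum_congr rfl fun k _ => ?_
    congr 2
    push_cast
    module
  rw [cv, e, abs_mul, abs_of_nonneg (by positivity)]
  refine mul_le_of_le_one_right (by positivity) (abs_le.2 ⟨?_, ?_⟩) <;>
    linarith [hm (η + (L : ℝ) • w - (1 / 2 : ℝ) • w),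
      hm (η + ((0 : ℕ) : ℝ) • w - (1 / 2 : ℝ) • w)]

omit [Fintype κ] in
theorem inv_neg {d : (κ → ℝ) → ℝ} (hd : ∀ η (k : ℕ), d (η + (k : ℝ) • w) = d η) (η : κ → ℝ)
    (k : ℕ) : d (η + (k : ℝ) • -w) = d η := by
  rw [← hd _ k, smul_neg, neg_add_cancel_right]

/-- moving a weight through the double average -/
theorem tm_wt (hL : 1 ≤ L) {p : (κ → ℝ) → ℝ} (hp : BM p) (pp : Per p)
    (ip : ∀ η (k : ℕ), p (η + (k : ℝ) • w) = p η) (hF : BM F) (pF : Per F) :
    tm (fun η => p η * cv L (-w) (cv L w F) η) = tm fun η => p η * F η := by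
  have pm : Per fun η => p η * F η := fun β n => by simp only [pp β n, pF β n]
  rw [← tm_cv (w := w) hL (bm_mul hp hF) pm, ← tm_cv (w := -w) hL (bm_cv (bm_mul hp hF)) (per_cv pm)]
  congr 1
  funext η
  rw [← cv_mul (inv_neg ip)]
  congr 1
  funext η
  exact (cv_mul ip η).symm

/-- the pairing with the double average -/
theorem pair {d c : (κ → ℝ) → ℝ} (hd : BM d) (pd : Per d)
    (id : ∀ η (k : ℕ), d (η + (k : ℝ) • w) = d η) (hc : BM c) (pc : Per c) (hG : BM G)
    (pG : Per G) : tm (fun η => d η ^ 2 * cv L (-w) (cv L w c) η * G η) =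
      tm fun η => cv L w (fun η => d η * c η) η * (d η * cv L w G η) := by
  have pm : Per fun η => d η * c η := fun β n => by simp only [pd β n, pc β n]
  have pm' : Per fun η => d η * G η := fun β n => by simp only [pd β n, pG β n]
  have h1 := adj (L := L) (w := w) (bm_cv (L := L) (w := w) (bm_mul hd hc)) (per_cv pm)
    (bm_mul hd hG) pm'
  simp only [cv_mul id] at h1
  simp only [cv_mul id]
  rw [h1]
  congr 1
  funext η
  rw [show cv L w (fun η => d η * c η) = fun η => d η * cv L w c η from funext (cv_mul id),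
    cv_mul (inv_neg id)]
  ring

variable {ι : Type} [Fintype ι] [DecidableEq ι]

omit [Fintype ι] [DecidableEq ι] in
theorem coord {s : ι → κ → ℤ} {l : ι} (hl : 0 < gram s l l) (t : ι → ℝ) (η : κ → ℝ) (k : ℕ) :
    (t + lin s (η + (k : ℝ) • dir s l)) l = (t + lin s η) l + ((k : ℤ) : ℝ) := by
  have e : ip (s l) (dir s l) = 1 := by
    simp only [ip, dir, ← mul_div_assoc, ← sum_div]
    exact div_self hl.ne'
  simp only [Pi.add_apply, lin, ip_add, ip_smul, e]
  push_cast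
  ring

end Comb

open Comb in
theorem comb_proof (hR : RegStmt) : CombStmt := by
  intro ι κ _ _ _ Γ J s ω A1 e1 L t h hΓ hg h0 h8 hL hF hh hI
  have R := ramp_proof.2 ω h0 h8
  obtain ⟨-, D1, -, D2, -⟩ := deriv_proof ramp_proof bit_proof ι ω h h0 h8 hh
  obtain ⟨⟨-, -, m01⟩, r2, r3, -⟩ := hR ι κ Γ s ω t h hΓ h0 h8 hh hI
  set c : ι → (κ → ℝ) → ℝ := fun l η => c1 ω h l (t + lin s η) with hc
  set d : ι → (κ → ℝ) → ℝ := fun l η => dpr ω ((t + lin s η) l) with hd
  set p : ι → (κ → ℝ) → ℝ := fun l η => pq ω ((t + lin s η) l) with hp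
  set f : ι → (κ → ℝ) → ℝ := fun l η => inf1 ω h l (t + lin s η) with hf
  have bc : ∀ l, BM (c l) ∧ Per (c l) := fun l => ⟨(r2 l).2.2.2.2.2.2.1, (r2 l).2.2.2.2.2.2.2.1⟩
  have bf : ∀ l, BM (f l) := fun l => (r2 l).2.2.2.2.2.2.2.2.1
  have bp : ∀ l, BM (p l) ∧ Per (p l) := fun l =>
    ⟨(r2 l).2.2.2.2.2.2.2.2.2.2.1, (r2 l).2.2.2.2.2.2.2.2.2.2.2.1⟩
  have bd : ∀ l, BM (d l) ∧ Per (d l) := fun l =>
    ⟨(r2 l).2.2.2.2.2.2.2.2.2.2.2.2.1, (r2 l).2.2.2.2.2.2.2.2.2.2.2.2.2.1⟩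
  have be : ∀ l, BM (del ω h t s l) ∧ Per (del ω h t s l) := fun l =>
    ⟨(r2 l).2.2.2.2.1, (r2 l).2.2.2.2.2.1⟩
  have ba : ∀ l, BM (fun η => |c l η|) ∧ Per fun η => |c l η| := fun l =>
    ⟨bm_abs (bc l).1, fun β n => by simp only [(bc l).2 β n]⟩
  have bs : ∀ l, BM (fun η => c l η ^ 2) ∧ Per fun η => c l η ^ 2 := fun l =>
    ⟨bm_sq (bc l).1, fun β n => by simp only [(bc l).2 β n]⟩
  have cf : ∀ l η, |c l η| ≤ f l η ∧ f l η ≤ 1 := fun l η => (D1 l).2.2 _
  have id : ∀ l ∈ J, ∀ η (k : ℕ), d l (η + (k : ℝ) • dir s l) = d l η := fun l hl η k => by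
    simp only [hd, coord (hg l hl), R.dpr_per]
  have ip : ∀ l ∈ J, ∀ η (k : ℕ), p l (η + (k : ℝ) • dir s l) = p l η := fun l hl η k => by
    simp only [hp, coord (hg l hl), R.pq_per]
  have eI : tm (fun η => Inf ω J h (t + lin s η)) = ∑ l ∈ J, tm fun η => d l η * f l η :=
    tm_sum J fun l _ => bm_mul (bd l).1 (bf l)
  set Z : ι → (κ → ℝ) → ℝ := fun l η =>
    d l η ^ 2 * cv L (-dir s l) (cv L (dir s l) (c l)) η with hZ
  have bZ : ∀ l, BM (Z l) ∧ Per (Z l) := fun l =>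
    ⟨bm_mul (bm_sq (bd l).1) (bm_cv (bm_cv (bc l).1)), fun β n => by
      simp only [hZ, (bd l).2 β n, per_cv (per_cv (bc l).2) β n]⟩
  have key := hF t h hh hI (fun l η => ω ^ 2 / 4 * Z l η)
    (fun l => cv L (-dir s l) (cv L (dir s l) fun η => |c l η|))
    (tm fun η => Inf ω J h (t + lin s η))
    (fun l => ⟨bm_mul (bm_const _) (bZ l).1, fun β n => by simp only [(bZ l).2 β n],
      bm_cv (bm_cv (ba l).1), per_cv (per_cv (ba l).2)⟩)
    (fun l η => ⟨cv_nonneg (cv_nonneg fun _ => abs_nonneg _) η, ?_, ?_⟩) ?_ ?_ le_rfl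
  rotate_left
  · exact (cv_mono (fun η => (cv_mono (fun η => (cf l η).1.trans (cf l η).2) η).trans
      (cv_const hL 1 η).le) η).trans (cv_const hL 1 η).le
  · rw [hZ, ← mul_assoc, abs_mul, abs_of_nonneg (by positivity)]
    refine mul_le_mul ?_ ((abs_cv η).trans (cv_mono abs_cv η)) (abs_nonneg _) (R.pq_nonneg _)
    refine (mul_le_mul_of_nonneg_left (R.dpr_sq_le _) (by positivity)).trans (le_of_eq ?_)
    field_simp
  · refine le_trans (sum_le_sum fun l hl => ?_) ((tm_sum J fun l _ =>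
      bm_mul (bp l).1 (bs l).1).symm.trans_le ((tm_mono (r3 J).1 (bm_const 1) fun η =>
        ((D2 J).2.2.2 _).2.1).trans (tm_const 1).le))
    rw [← tm_wt hL (bp l).1 (bp l).2 (ip l hl) (bs l).1 (bs l).2]
    refine tm_mono (bm_mul (bp l).1 (bm_sq (bm_cv (bm_cv (ba l).1))))
      (bm_mul (bp l).1 (bm_cv (bm_cv (bs l).1))) fun η =>
      mul_le_mul_of_nonneg_left ((sq_cv hL η).trans (cv_mono (fun η => ?_) η)) (R.pq_nonneg _)
    simpa only [sq_abs] using sq_cv (w := dir s l) (F := fun η => |c l η|) hL η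
  · rw [eI]
    refine sum_le_sum fun l hl => ?_
    refine (tm_wt hL (bp l).1 (bp l).2 (ip l hl) (ba l).1 (ba l).2).trans_le
      (tm_mono (bm_mul (bp l).1 (ba l).1) (bm_mul (bd l).1 (bf l)) fun η => ?_)
    exact mul_le_mul (R.pq_le_dpr _) (cf l η).1 (abs_nonneg _) (R.dpr_nonneg _)
  have k1 : ∀ l ∈ J, tm (fun η => cq ω h t s L l η ^ 2) = tm fun η => Z l η * c l η :=
    fun l hl => by
      rw [pair (bd l).1 (bd l).2 (id l hl) (bc l).1 (bc l).2 (bc l).1 (bc l).2]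
      congr 1
      funext η
      rw [← cv_mul (id l hl), sq]
      rfl
  have k2 : ∀ l ∈ J, tm (fun η => Z l η * del ω h t s l η) ≤
      (tm fun η => d l η * f l η) / (ω * L) := fun l hl => by
    have bm := bm_mul (bd l).1 (bc l).1
    have pm : Per fun η => |d l η * c l η| := fun β n => by
      simp only [(bd l).2 β n, (bc l).2 β n]
    rw [pair (bd l).1 (bd l).2 (id l hl) (bc l).1 (bc l).2 (be l).1 (be l).2]
    calc _ ≤ tm fun η => 1 / (ω * L) * cv L (dir s l) (fun η => |d l η * c l η|) η := by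
          refine tm_mono (bm_mul (bm_cv bm) (bm_mul (bd l).1 (bm_cv (be l).1)))
            (bm_mul (bm_const _) (bm_cv (bm_abs bm))) fun η => (le_abs_self _).trans ?_
          rw [abs_mul, abs_mul, mul_comm, abs_of_nonneg (R.dpr_nonneg _), ← one_div_mul_one_div]
          exact mul_le_mul (mul_le_mul (R.dpr_le _) (cv_del m01 η) (abs_nonneg _) (by positivity))
            (abs_cv η) (abs_nonneg _) (by positivity)
      _ = 1 / (ω * L) * tm fun η => |d l η * c l η| := by rw [tm_cmul, tm_cv hL (bm_abs bm) pm]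
      _ ≤ 1 / (ω * L) * tm fun η => d l η * f l η := by
          refine mul_le_mul_of_nonneg_left (tm_mono (bm_abs bm) (bm_mul (bd l).1 (bf l)) fun η => ?_)
            (by positivity)
          rw [abs_mul, abs_of_nonneg (R.dpr_nonneg _)]
          exact mul_le_mul_of_nonneg_left (cf l η).1 (R.dpr_nonneg _)
      _ = _ := by ring
  have k3 : ∀ l ∈ J, tm (fun η => ω ^ 2 / 4 * Z l η * (del ω h t s l η - c l η)) =
      ω ^ 2 / 4 * (tm (fun η => Z l η * del ω h t s l η) - tm fun η => Z l η * c l η) :=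
    fun l _ => by
      rw [← tm_sub (bm_mul (bZ l).1 (be l).1) (bm_mul (bZ l).1 (bc l).1), ← tm_cmul]
      congr 1
      funext η
      ring
  have k4 := (abs_le.1 key).1
  rw [sum_congr rfl k3, ← mul_sum, sum_sub_distrib] at k4
  have k5 := sum_le_sum k2
  rw [← sum_div, ← eI] at k5
  rw [sum_congr rfl k1]
  have k6 := mul_le_mul_of_nonneg_left k4 (show 0 ≤ 4 / ω ^ 2 by positivity)
  rw [← mul_assoc, show 4 / ω ^ 2 * (ω ^ 2 / 4) = 1 by field_simp, one_mul] at k6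
  linarith

end Vale.Agent.P318.B
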