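import Vale.Agent.P318.B.Stmt

/-!
From `Span` to `Far` and `Lat`.
-/

namespace Vale.Agent.P318.B

open Finset Vale.Agent.P318.M

namespace FarP

variable {ι κ : Type} [Fintype ι] [DecidableEq ι] [Fintype κ]

theorem nd_le (x : ℝ) (z : ℤ) : nd x ≤ |x - z| := round_le x z

omit [Fintype ι] in
/-- Expansion of the squared norm of a combination of columns. -/
theorem sq_expand (T : Finset ι) (s : ι → κ → ℤ) (α : ι → ℝ) :
    ∑ k, (∑ l ∈ T, α l * s l k) ^ 2 =
      ∑ l ∈ T, α l ^ 2 * gram s l l + offd T s α α := by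
  have h1 : ∀ k, (∑ l ∈ T, α l * s l k) ^ 2 =
      ∑ j ∈ T, ∑ l ∈ T, α j * α l * ((s j k : ℝ) * s l k) := by
    intro k
    rw [sq, sum_mul_sum]
    refine sum_congr rfl fun j _ => sum_congr rfl fun l _ => by ring
  simp only [h1]
  rw [sum_comm, offd, ← sum_add_distrib]
  refine sum_congr rfl fun j hj => ?_
  rw [sum_comm, ← add_sum_erase T _ hj]
  congr 1
  · rw [← mul_sum, gram, sq]
  · refine sum_congr rfl fun l _ => ?_
    rw [← mul_sum, gram]

omit [Fintype ι] in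
theorem offd_restrict {J T : Finset ι} (hT : T ⊆ J) (s : ι → κ → ℤ) (α : ι → ℝ) :
    offd J s (fun l => if l ∈ T then α l else 0) (fun l => if l ∈ T then α l else 0) =
      offd T s α α := by
  unfold offd
  symm
  rw [← sum_subset hT]
  · refine sum_congr rfl fun j hj => ?_
    rw [← sum_subset (erase_subset_erase j hT)]
    · refine sum_congr rfl fun l hl => ?_
      simp [hj, mem_of_mem_erase hl]
    · intro l hl hl'
      have : l ∉ T := fun h => hl' (mem_erase.2 ⟨ne_of_mem_erase hl, h⟩)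
      simp [this]
  · intro j _ hj
    simp [hj]

omit [Fintype ι] in
theorem lower {Γ : AddSubgroup (κ → ℝ)} {J : Finset ι} {s : ι → κ → ℤ} {β μ R sp nb : ℝ}
    (H : BHyp Γ J s β μ R sp nb) (hR : 32 * R ≤ cd κ) {T : Finset ι} (hT : T ⊆ J)
    (hc : (T.card : ℝ) ≤ sp) (α : ι → ℝ) :
    cd κ / 8 * ∑ l ∈ T, α l ^ 2 ≤ ∑ k, (∑ l ∈ T, α l * s l k) ^ 2 := by
  rw [sq_expand]
  set a : ι → ℝ := fun l => if l ∈ T then α l else 0 with ha
  have hsq : ∑ l ∈ J, a l ^ 2 = ∑ l ∈ T, α l ^ 2 := by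
    rw [← sum_subset hT]
    · exact sum_congr rfl fun l hl => by simp [ha, hl]
    · intro l _ hl
      simp [ha, hl]
  have hab : n1 J a = ∑ l ∈ T, |α l| := by
    unfold n1
    rw [← sum_subset hT]
    · exact sum_congr rfl fun l hl => by simp [ha, hl]
    · intro l _ hl
      simp [ha, hl]
  set A := ∑ l ∈ T, α l ^ 2 with hA
  have hA0 : 0 ≤ A := sum_nonneg fun l _ => sq_nonneg _
  have hsp : 0 < sp := lt_of_lt_of_le one_pos H.one_le_sp
  have hn2 : n2 J a = Real.sqrt A := by rw [n2, hsq]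
  have hn1 : n1 J a / Real.sqrt sp ≤ Real.sqrt A := by
    rw [div_le_iff₀ (Real.sqrt_pos.2 hsp), hab, ← Real.sqrt_mul hA0]
    apply Real.le_sqrt_of_sq_le
    have h1 := sq_sum_le_card_mul_sum_sq (s := T) (f := fun l => |α l|)
    simp only [sq_abs] at h1
    calc (∑ l ∈ T, |α l|) ^ 2 ≤ T.card * A := h1
      _ ≤ sp * A := mul_le_mul_of_nonneg_right hc hA0
      _ = A * sp := mul_comm _ _
  have hn10 : 0 ≤ n1 J a / Real.sqrt sp :=
    div_nonneg (sum_nonneg fun l _ => abs_nonneg _) (Real.sqrt_nonneg _)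
  have h2 := H.rip a a
  rw [offd_restrict hT, hn2] at h2
  have hs0 := Real.sqrt_nonneg A
  have h3 : R * (Real.sqrt A + n1 J a / Real.sqrt sp) * (Real.sqrt A + n1 J a / Real.sqrt sp) ≤
      4 * R * A := by
    have h4 : (Real.sqrt A + n1 J a / Real.sqrt sp) * (Real.sqrt A + n1 J a / Real.sqrt sp) ≤
        (2 * Real.sqrt A) * (2 * Real.sqrt A) :=
      mul_le_mul (by linarith) (by linarith) (by linarith) (by linarith)
    have h5 : (2 * Real.sqrt A) * (2 * Real.sqrt A) = 4 * A := by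
      have := Real.mul_self_sqrt hA0
      linarith
    rw [mul_assoc]
    have := mul_le_mul_of_nonneg_left (h4.trans h5.le) H.R_nonneg
    linarith
  have h6 : cd κ / 4 * A ≤ ∑ l ∈ T, α l ^ 2 * gram s l l := by
    rw [hA, mul_sum]
    refine sum_le_sum fun l hl => ?_
    rw [mul_comm]
    exact mul_le_mul_of_nonneg_left (H.nrm l (hT hl)) (sq_nonneg _)
  have h7 := neg_abs_le (offd T s α α)
  have h8 : 32 * R * A ≤ cd κ * A := mul_le_mul_of_nonneg_right hR hA0
  linarith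

omit [Fintype ι] [DecidableEq ι] in
theorem ip_dir (s : ι → κ → ℤ) (m : κ → ℤ) (l : ι) :
    ip m (dir s l) = ip (s l) (fun k => (m k : ℝ)) / gram s l l := by
  unfold ip dir
  rw [sum_div]
  exact sum_congr rfl fun k _ => by ring

omit [Fintype ι] in
theorem card_le {Γ : AddSubgroup (κ → ℝ)} {J : Finset ι} {s : ι → κ → ℤ} {β μ R sp nb : ℝ}
    (H : BHyp Γ J s β μ R sp nb) {Λ L : ℝ} (hL : 0 < L) {m : κ → ℤ}
    (hm : msq m ≤ Λ ^ 2 * cd κ) : ((tset J s L m).card : ℝ) ≤ 1024 * L ^ 2 * β * Λ ^ 2 := by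
  have hM : 0 < cd κ := lt_of_lt_of_le one_pos H.pos
  have hT : tset J s L m ⊆ J := filter_subset _ _
  have h1 : ∀ l ∈ tset J s L m,
      (cd κ / (32 * L)) ^ 2 ≤ ip (s l) (fun k => (m k : ℝ)) ^ 2 := by
    intro l hl
    have hlJ := hT hl
    have h2 : 1 / (8 * L) < nd (ip m (dir s l)) := (mem_filter.1 hl).2
    have h3 := nd_le (ip m (dir s l)) 0
    have hg := H.nrm l hlJ
    have hg0 : 0 < gram s l l := lt_of_lt_of_le (by positivity) hg
    rw [Int.cast_zero, sub_zero, ip_dir, abs_div, abs_of_pos hg0] at h3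
    have h4 : 1 / (8 * L) * gram s l l ≤ |ip (s l) fun k => (m k : ℝ)| := by
      rw [← le_div_iff₀ hg0]
      exact (h2.trans_le (by rwa [ip_dir])).le
    have h5 : cd κ / (32 * L) ≤ 1 / (8 * L) * gram s l l := by
      calc cd κ / (32 * L) = 1 / (8 * L) * (cd κ / 4) := by field_simp; ring
        _ ≤ _ := mul_le_mul_of_nonneg_left hg (by positivity)
    rw [← sq_abs (ip _ _)]
    exact pow_le_pow_left₀ (by positivity) (h5.trans h4) 2
  have h6 : ((tset J s L m).card : ℝ) * (cd κ / (32 * L)) ^ 2 ≤ β * cd κ * (Λ ^ 2 * cd κ) := by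
    calc ((tset J s L m).card : ℝ) * (cd κ / (32 * L)) ^ 2
        = ∑ l ∈ tset J s L m, (cd κ / (32 * L)) ^ 2 := by rw [sum_const, nsmul_eq_mul]
      _ ≤ ∑ l ∈ tset J s L m, ip (s l) (fun k => (m k : ℝ)) ^ 2 := sum_le_sum h1
      _ ≤ ∑ l ∈ J, ip (s l) (fun k => (m k : ℝ)) ^ 2 :=
          sum_le_sum_of_subset_of_nonneg hT fun l _ _ => sq_nonneg _
      _ ≤ β * cd κ * nsq (fun k => (m k : ℝ)) := H.op _
      _ ≤ β * cd κ * (Λ ^ 2 * cd κ) := by
          have hb : 0 ≤ β := le_trans zero_le_one H.one_le_b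
          exact mul_le_mul_of_nonneg_left hm (by positivity)
  have h7 : (cd κ / (32 * L)) ^ 2 = cd κ ^ 2 / (1024 * L ^ 2) := by
    field_simp; ring
  rw [h7, ← mul_div_assoc, div_le_iff₀ (by positivity)] at h6
  have h8 : ((tset J s L m).card : ℝ) * cd κ ^ 2 ≤ 1024 * L ^ 2 * β * Λ ^ 2 * cd κ ^ 2 := by
    linarith
  exact le_of_mul_le_mul_right h8 (by positivity)

theorem abs_le_sq (z : ℤ) : |(z : ℝ)| ≤ (z : ℝ) ^ 2 := by
  have h : |z| ≤ z ^ 2 := by
    rw [← sq_abs]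
    rcases (abs_nonneg z).eq_or_lt with h | h
    · rw [← h]; simp
    · nlinarith
  exact_mod_cast h

end FarP

open FarP in
theorem far_proof : FarStmt := by
  intro ι κ _ _ _ Γ J s
  refine ⟨fun sp' a c2 ha hint hS => ⟨hint, fun m hm => ?_⟩, ?_⟩
  · by_contra hcon
    push Not at hcon
    obtain ⟨z, hz⟩ := hS ∅ (empty_subset _) (by simp) m hm 0 (fun l => by simpa using ha)
      (by simpa using hcon.2)
    exact hcon.1 (funext fun k => by simpa using hz k)
  intro β μ R sp nb Λ c2 L sp' H hΛ hc2 hL hsp' hsp hR hμ hS m hm hm0 hmsq α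
  by_contra hcon
  push Not at hcon
  have hM : 0 < cd κ := lt_of_lt_of_le one_pos H.pos
  set T := tset J s L m with hTdef
  have hT : T ⊆ J := filter_subset _ _
  have hcard : (T.card : ℝ) ≤ sp' := (card_le H hL hmsq).trans hsp'
  have hcard' : T.card ≤ sp' := by exact_mod_cast hcard
  have hlow := fun a => lower H hR hT (hcard.trans hsp) a
  have h1 : ∑ k, (∑ l ∈ T, α l * s l k) ^ 2 ≤ 4 * Λ ^ 2 * cd κ := by
    have h2 : ∑ k, (∑ l ∈ T, α l * s l k) ^ 2 ≤
        ∑ k, (2 * (m k : ℝ) ^ 2 + 2 * ((m k : ℝ) - ∑ l ∈ T, α l * s l k) ^ 2) :=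
      sum_le_sum fun k _ => by nlinarith [sq_nonneg (2 * (m k : ℝ) - ∑ l ∈ T, α l * s l k)]
    rw [sum_add_distrib, ← mul_sum, ← mul_sum] at h2
    have h3 : c2 * cd κ ≤ Λ ^ 2 * cd κ := mul_le_mul_of_nonneg_right hc2 hM.le
    unfold msq at hmsq
    linarith
  have h4 : ∑ l ∈ T, α l ^ 2 ≤ 32 * Λ ^ 2 := by
    have h5 : cd κ * ∑ l ∈ T, α l ^ 2 ≤ cd κ * (32 * Λ ^ 2) := by linarith [hlow α]
    exact le_of_mul_le_mul_left h5 hM
  set a : ι → ℝ := fun l => if l ∈ T then α l else 0 with ha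
  have ha6 : ∀ l, |a l| ≤ 6 * Λ := by
    intro l
    by_cases hl : l ∈ T
    · have h5 : α l ^ 2 ≤ ∑ l ∈ T, α l ^ 2 := single_le_sum (fun l _ => sq_nonneg (α l)) hl
      simp only [ha, hl, if_true]
      exact abs_le_of_sq_le_sq' (by nlinarith) (by positivity) |> abs_le.2
    · simp only [ha, hl, if_false, abs_zero]
      positivity
  have hsame : ∀ k, ∑ l ∈ T, a l * s l k = ∑ l ∈ T, α l * s l k :=
    fun k => sum_congr rfl fun l hl => by simp [ha, hl]
  obtain ⟨z, hz⟩ := hS T hT hcard' m hm a ha6 (by simpa only [hsame] using hcon)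
  have hzr : ∀ k, (m k : ℝ) = ∑ l ∈ T, (z l : ℝ) * s l k := fun k => by
    rw [hz k]; push_cast; rfl
  have hz2 : ∑ l ∈ T, (z l : ℝ) ^ 2 ≤ 8 * Λ ^ 2 := by
    have h5 := hlow fun l => (z l : ℝ)
    simp only [← hzr] at h5
    unfold msq at hmsq
    have h6 : cd κ * ∑ l ∈ T, (z l : ℝ) ^ 2 ≤ cd κ * (8 * Λ ^ 2) := by linarith
    exact le_of_mul_le_mul_left h6 hM
  have hz1 : ∑ l ∈ T, |(z l : ℝ)| ≤ 8 * Λ ^ 2 := (sum_le_sum fun l _ => abs_le_sq (z l)).trans hz2
  have hTe : T = ∅ := by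
    refine eq_empty_of_forall_notMem fun l hl => ?_
    have hlJ := hT hl
    have h2 : 1 / (8 * L) < nd (ip m (dir s l)) := (mem_filter.1 hl).2
    have hg := H.nrm l hlJ
    have hg0 : 0 < gram s l l := lt_of_lt_of_le (by positivity) hg
    have h3 : ip (s l) (fun k => (m k : ℝ)) = ∑ j ∈ T, (z j : ℝ) * gram s j l := by
      unfold ip gram
      simp only [hzr, mul_sum]
      rw [sum_comm]
      exact sum_congr rfl fun j _ => sum_congr rfl fun k _ => by ring
    have h5 : ip m (dir s l) - z l = (∑ j ∈ T.erase l, (z j : ℝ) * gram s j l) / gram s l l := by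
      rw [ip_dir, h3, ← add_sum_erase T _ hl]
      field_simp
      ring
    have h6 : |∑ j ∈ T.erase l, (z j : ℝ) * gram s j l| ≤ 8 * Λ ^ 2 * μ := by
      calc |∑ j ∈ T.erase l, (z j : ℝ) * gram s j l|
          ≤ ∑ j ∈ T.erase l, |(z j : ℝ) * gram s j l| := abs_sum_le_sum_abs _ _
        _ ≤ ∑ j ∈ T.erase l, |(z j : ℝ)| * μ := by
            refine sum_le_sum fun j hj => ?_
            rw [abs_mul]
            exact mul_le_mul_of_nonneg_left
              (H.coh j (hT (mem_of_mem_erase hj)) l hlJ (ne_of_mem_erase hj)) (abs_nonneg _)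
        _ ≤ ∑ j ∈ T, |(z j : ℝ)| * μ :=
            sum_le_sum_of_subset_of_nonneg (erase_subset _ _) fun j _ _ =>
              mul_nonneg (abs_nonneg _) H.mu_nonneg
        _ ≤ 8 * Λ ^ 2 * μ := by
            rw [← sum_mul]
            exact mul_le_mul_of_nonneg_right hz1 H.mu_nonneg
    have h7 := nd_le (ip m (dir s l)) (z l)
    rw [h5, abs_div, abs_of_pos hg0] at h7
    have h8 : |∑ j ∈ T.erase l, (z j : ℝ) * gram s j l| / gram s l l ≤ 1 / (8 * L) := by
      rw [div_le_div_iff₀ hg0 (by positivity)]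
      have h9 := mul_le_mul_of_nonneg_right h6 (show 0 ≤ 8 * L by positivity)
      nlinarith
    linarith
  exact hm0 (funext fun k => by simpa [hTe] using hz k)

end Vale.Agent.P318.B
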