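import Vale.Agent.P318.B.Stmt
import Vale.Agent.P318.M.Block0
import Vale.Agent.P318.M.Torus

/-! Fourier coefficients: shift, linearity, mean, Bessel, derivative. -/

namespace Vale.Agent.P318.B

open Finset MeasureTheory Vale.Agent.P318.M

namespace Fc

variable {κ : Type} [Fintype κ]

theorem norm_ch (x : ℝ) : ‖ch x‖ = 1 := by
  rw [ch, show 2 * Real.pi * Complex.I * x = (2 * Real.pi * x : ℝ) * Complex.I by push_cast; ring,
    Complex.norm_exp_ofReal_mul_I]

theorem meas_ch : Measurable ch := by
  unfold ch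
  fun_prop

theorem int_ch {α : Type} [MeasurableSpace α] (μ : Measure α) [IsFiniteMeasure μ] {F x : α → ℝ}
    (hF : BM F) (hx : Measurable x) : Integrable (fun a => ch (x a) * (F a : ℂ)) μ := by
  obtain ⟨hm, C, hC⟩ := hF
  refine Integrable.of_bound ((meas_ch.comp hx).mul
    (Complex.measurable_ofReal.comp hm)).aestronglyMeasurable C (Filter.Eventually.of_forall fun a => ?_)
  rw [norm_mul, norm_ch, one_mul, Complex.norm_real]
  exact hC a

theorem key {F D : (κ → ℝ) → ℝ} {w : κ → ℝ} (hF : Per F) (hF' : BM F) (hD : Per D) (hD' : BM D)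
    (h : ℝ) (e : ∀ β, F (β + h • w) - F β = ∫ r in (0 : ℝ)..1, h * D (β + (r * h) • w))
    (m : κ → ℤ) : (ch (h * ip m w) - 1) * fc F m =
      (h * ∫ r in (0 : ℝ)..1, ch (r * h * ip m w)) * fc D m := by
  have hm : Measurable fun β : κ → ℝ => -ip m β := (Block.meas_ip m).neg
  have h1 : (ch (h * ip m w) - 1) * fc F m = ∫ β, ∫ r in Set.Ioc (0 : ℝ) 1,
      ch (-ip m β) * ((h * D (β + (r * h) • w) : ℝ) : ℂ) ∂volume ∂cube κ := by
    rw [sub_mul, one_mul, ← Block.ip_smul, ← Torus.fc_shift hF, fc, fc, ← integral_sub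
      (int_ch _ (Block.bm_comp hF' (measurable_add_const _)) hm) (int_ch _ hF' hm)]
    refine integral_congr_ae (Filter.Eventually.of_forall fun β => ?_)
    simp only
    rw [← mul_sub, ← Complex.ofReal_sub, e, integral_const_mul, integral_complex_ofReal,
      intervalIntegral.integral_of_le zero_le_one]
  have h2 : Integrable (Function.uncurry fun (β : κ → ℝ) (r : ℝ) =>
      ch (-ip m β) * ((h * D (β + (r * h) • w) : ℝ) : ℂ))
      ((cube κ).prod (volume.restrict (Set.Ioc (0 : ℝ) 1))) :=
    int_ch _ (Block.bm_mul (Block.bm_const h) (Block.bm_comp hD'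
      (g := fun p : (κ → ℝ) × ℝ => p.1 + (p.2 * h) • w) (by fun_prop))) (hm.comp measurable_fst)
  rw [h1, integral_integral_swap h2, intervalIntegral.integral_of_le zero_le_one,
    ← integral_const_mul, ← integral_mul_const]
  refine integral_congr_ae (Filter.Eventually.of_forall fun r => ?_)
  simp only
  rw [mul_assoc (h : ℂ), ← Block.ip_smul, ← Torus.fc_shift hD, fc, ← integral_const_mul]
  refine integral_congr_ae (Filter.Eventually.of_forall fun β => ?_)
  simp only
  push_cast
  ring

theorem int_exp (c : ℝ) : 2 * Real.pi * Complex.I * c * ∫ r in (0 : ℝ)..1, ch (r * c) =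
    ch c - 1 := by
  rw [← intervalIntegral.integral_const_mul, intervalIntegral.integral_eq_sub_of_hasDerivAt
    (f := fun r : ℝ => ch (r * c))]
  · simp [ch]
  · intro r _
    have h1 : HasDerivAt (fun r : ℝ => 2 * Real.pi * Complex.I * ((r * c : ℝ) : ℂ))
        (2 * Real.pi * Complex.I * ((1 * c : ℝ) : ℂ)) r :=
      (((hasDerivAt_id r).mul_const c).ofReal_comp).const_mul _
    refine h1.cexp.congr_deriv ?_
    rw [one_mul, mul_comm, ch]
  · refine Continuous.intervalIntegrable ?_ _ _
    unfold ch
    fun_prop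

end Fc

theorem fc_proof : FcStmt := by
  intro κ _
  refine ⟨fun F hF _ ξ m => Torus.fc_shift hF m ξ, fun α T a F hF => ?_, fun F _ => ?_,
    fun F hF hF' S => ?_, fun F D w hF hF' hD hD' e m => ?_⟩
  · have h1 : ∀ i ∈ T, BM fun β => a i * F i β := fun i hi =>
      Block.bm_mul (Block.bm_const _) (hF i hi)
    refine ⟨Block.bm_sum T h1, ?_, fun m => ?_⟩
    · rw [Block.tm_sum T h1]
      exact sum_congr rfl fun i _ => Block.tm_cmul _ _
    · simp only [fc, Complex.ofReal_sum, mul_sum]
      rw [integral_finsetSum T fun i hi =>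
        Fc.int_ch _ (x := fun β => -ip m β) (h1 i hi) (Block.meas_ip m).neg]
      refine sum_congr rfl fun i _ => ?_
      rw [← integral_const_mul]
      refine integral_congr_ae (Filter.Eventually.of_forall fun β => ?_)
      simp only
      push_cast
      ring
  · simp [fc, tm, ip, ch, integral_complex_ofReal]
  · exact sum_le_hasSum S (fun _ _ => sq_nonneg _) ((torus_proof κ).2.2.1 F hF hF')
  · rcases eq_or_ne (ip m w) 0 with h0 | h0
    · simpa [h0, ch] using (Fc.key hF hF' hD hD' 1 (fun β => e β 1) m).symm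
    · have h1 := Fc.key hF hF' hD hD' (1 / (2 * ip m w)) (fun β => e β _) m
      have h2 := Fc.int_exp (1 / (2 * ip m w) * ip m w)
      have h3 : ch (1 / (2 * ip m w) * ip m w) - 1 ≠ 0 := fun h => by
        obtain ⟨n, hn⟩ := Torus.ch_eq_one.1 (sub_eq_zero.1 h)
        have h4 : (1 : ℝ) = 2 * n := by
          rw [← hn]
          field_simp
        have h5 : (1 : ℤ) = 2 * n := by exact_mod_cast h4
        omega
      simp only [← mul_assoc] at h2
      refine mul_left_cancel₀ h3 ?_
      rw [mul_left_comm, h1, ← h2]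
      push_cast
      ring

end Vale.Agent.P318.B
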