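import Vale.Agent.P318.B.Stmt

/-!
From the instances to the bound `c sqrt (log n) / (log log n) ^ C ≤ g(n)`.
-/

namespace Vale.Agent.P318.B

open Filter Real

theorem finalB_proof (h : InstBStmt) : FinalBStmt := by
  obtain ⟨C, e, hC, h⟩ := h
  refine ⟨e + 1, 1 / (2 * C ^ (e + 1)), by positivity, ?_⟩
  have tl : Tendsto (fun n : ℕ => log n) atTop atTop :=
    tendsto_log_atTop.comp tendsto_natCast_atTop_atTop
  have t1 := tl.eventually ((isLittleO_pow_log_id_atTop (n := e + 1)).bound
    (c := 1 / (2 * C ^ (e + 1))) (by positivity))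
  obtain ⟨n0, hn0⟩ := eventually_atTop.1 (t1.and
    (((tendsto_log_atTop.comp tl).eventually_ge_atTop 1).and
      ((tl.eventually_ge_atTop 1).and (eventually_ge_atTop 1))))
  refine ⟨n0, fun n hn => ?_⟩
  obtain ⟨a1, a2, a3, a4⟩ := hn0 n hn
  set y := log n with hy
  set L := log y with hL
  have a2 : 1 ≤ L := a2
  have n0' : (0 : ℝ) < n := by exact_mod_cast a4
  rw [id, norm_of_nonneg (by positivity), norm_of_nonneg (by positivity), one_div_mul_eq_div,
    le_div_iff₀ (by positivity)] at a1
  have X1 : 1 ≤ C * L := one_le_mul_of_one_le_of_one_le hC a2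
  have b1 : 2 * (C * L) ^ e ≤ y / (C * L) := by
    rw [le_div_iff₀ (by positivity)]
    refine le_of_eq_of_le ?_ a1
    ring
  have b2 : 1 ≤ (C * L) ^ e := one_le_pow₀ X1
  have f1 : (⌊y / (C * L)⌋₊ : ℝ) ≤ y / (C * L) := Nat.floor_le (by positivity)
  have f2 := Nat.lt_floor_add_one (y / (C * L))
  set N := ⌊y / (C * L)⌋₊
  refine le_trans ?_ (h N (C * L) (le_mul_of_one_le_right (by positivity) a2) ?_ (by linarith) n ?_)
  · have c1 : y ≤ (2 * (C * L)) ^ 2 * N := by
      have : y / (C * L) ≤ 2 * N := by linarith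
      rw [div_le_iff₀ (by positivity)] at this
      have : (N : ℝ) * (C * L) * 1 ≤ N * (C * L) * (C * L) := by gcongr
      nlinarith
    calc _ ≤ 1 / (2 * C ^ (e + 1)) * (2 * (C * L) * sqrt N) / L ^ (e + 1) := by
          gcongr
          rw [← sqrt_sq (by positivity : 0 ≤ 2 * (C * L)), ← sqrt_mul (by positivity)]
          exact sqrt_le_sqrt c1
      _ = _ := by
          rw [mul_pow]
          field_simp
          ring
  · gcongr
    exact log_le_log (by linarith) (f1.trans (div_le_self (by positivity) X1))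
  · rw [← exp_log n0', exp_le_exp, ← le_div_iff₀' (by positivity)]
    exact f1

end Vale.Agent.P318.B
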