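import Vale.Agent.P318.B.Stmt
import Vale.Agent.P318.M.Block0
import Vale.Agent.P318.M.Torus
import Vale.Agent.P318.M.Ramp
import Vale.Agent.P318.M.Bit
import Vale.Agent.P318.M.Deriv

/-! Integration of the pointwise bound along the moves. -/

namespace Vale.Agent.P318.B

open Finset MeasureTheory Vale.Agent.P318.M Vale.Agent.P318.M.Block

namespace Flat

noncomputable section

variable {ι κ : Type} [Fintype ι] [DecidableEq ι] [Fintype κ]

def sg (b : Bool) : ℝ := if b then 1 else -1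

def kb (b : Bool) : ℤ := if b then 1 else 0

def ef (ω : ℝ) (b : Bool) (r x : ℝ) : ℝ :=
  if ⌊x - sg b * r / 2⌋ = ⌊x⌋ then (kb b : ℝ) - pr ω x else 0

def Hh (ω : ℝ) (J : Finset ι) (s : ι → κ → ℤ) (h : (ι → ℤ) → ℝ) (b : Bool) (l : ι) (r : ℝ)
    (y : ι → ℝ) : ℝ :=
  ∑ j ∈ J.erase l,
    gram s j l / gram s l l * (dpr ω (y j) * (c1 ω h j y + ef ω b r (y l) * c2 ω h j l y))

def Gg (ω : ℝ) (s : ι → κ → ℤ) (h : (ι → ℤ) → ℝ) (b : Bool) (l : ι) (y : ι → ℝ) : ℝ :=
  Ey ω h (Function.update (y + (sg b / 2) • lin s (dir s l)) l ((⌊y l⌋ + kb b : ℤ) : ℝ)) -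
    Ey ω h (Function.update y l ((⌊y l⌋ + kb b : ℤ) : ℝ))

omit [Fintype ι] [DecidableEq ι] in
theorem lin_dir (s : ι → κ → ℤ) (l j : ι) : lin s (dir s l) j = gram s j l / gram s l l := by
  simp only [lin, ip, dir, gram, sum_div]
  exact sum_congr rfl fun k _ => by ring

omit [Fintype ι] [DecidableEq ι] in
theorem lin_add (s : ι → κ → ℤ) (a b : κ → ℝ) : lin s (a + b) = lin s a + lin s b := by
  funext j; simp [lin, ip_add]

omit [Fintype ι] [DecidableEq ι] in
theorem lin_smul (s : ι → κ → ℤ) (r : ℝ) (a : κ → ℝ) : lin s (r • a) = r • lin s a := by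
  funext j; simp [lin, ip_smul]

omit [Fintype ι] [DecidableEq ι] in
theorem move (s : ι → κ → ℤ) (t : ι → ℝ) (η ξ : κ → ℝ) (r : ℝ) :
    t + lin s (η + r • ξ) = t + lin s η + r • lin s ξ := by
  rw [lin_add, lin_smul, add_assoc]

theorem win {ω : ℝ} (R : RampAt ω) {x : ℝ} (hx : pq ω x ≠ 0) :
    (⌊x⌋ : ℝ) + 1 / 2 - ω < x ∧ x < ⌊x⌋ + 1 / 2 + ω := by
  have h := abs_lt.1 (R.ee_supp x (pq_supp R hx))
  rw [Int.fract] at h
  constructor <;> linarith [h.1, h.2]

variable {ω : ℝ} {J : Finset ι} {s : ι → κ → ℤ} {h : (ι → ℤ) → ℝ}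

/-- The difference `del - c1` as two flat moves. -/
theorem claim1 (hU : UpdStmt) (h0 : 0 < ω) (h8 : ω ≤ 1 / 8) (hh : U01 h) {l : ι}
    (hl : 0 < gram s l l) (t : ι → ℝ) (η : κ → ℝ) (hx : pq ω ((t + lin s η) l) ≠ 0) :
    del ω h t s l η - c1 ω h l (t + lin s η) =
      Gg ω s h true l (t + lin s η) - Gg ω s h false l (t + lin s η) := by
  have R := ramp_proof.2 ω h0 h8
  obtain ⟨u1, u2, -⟩ := hU.2 ι ω h h0 h8 hh
  obtain ⟨w1, w2⟩ := win R hx
  set y := t + lin s η with hy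
  have e1 : lin s (dir s l) l = 1 := by rw [lin_dir, div_self hl.ne']
  have p1 : t + lin s (η + (1 / 2 : ℝ) • dir s l) = y + (sg true / 2) • lin s (dir s l) := by
    rw [move]; simp [sg, hy]
  have p2 : t + lin s (η - (1 / 2 : ℝ) • dir s l) = y + (sg false / 2) • lin s (dir s l) := by
    rw [sub_eq_add_neg, ← neg_smul, move]
    congr 2
    simp [sg]; norm_num
  have q1 := (u2 (y + (sg true / 2) • lin s (dir s l)) l (⌊y l⌋ + kb true) (by
    simp only [Pi.add_apply, Pi.smul_apply, e1, sg, kb, smul_eq_mul, if_true]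
    push_cast
    rw [abs_le]; constructor <;> linarith)).1
  have q2 := (u2 (y + (sg false / 2) • lin s (dir s l)) l (⌊y l⌋ + kb false) (by
    simp only [Pi.add_apply, Pi.smul_apply, e1, sg, kb, smul_eq_mul, Bool.false_eq_true, if_false]
    push_cast
    rw [abs_le]; constructor <;> linarith)).1
  unfold del mE Gg
  rw [p1, p2, q1, q2, u1 y l]
  simp only [kb, if_true, Bool.false_eq_true, if_false, add_zero]
  ring

/-- A flat move as an integral. -/
theorem claim2 (hU : UpdStmt) (h0 : 0 < ω) (h8 : ω ≤ 1 / 8) (hh : U01 h)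
    (hz : ∀ j, j ∉ J → s j = 0) {l : ι} (hl : 0 < gram s l l) (b : Bool) (y : ι → ℝ)
    (hx : pq ω (y l) ≠ 0) :
    Gg ω s h b l y = ∫ r in (0 : ℝ)..1,
      sg b / 2 * Hh ω J s h b l r (y + (sg b * r / 2) • lin s (dir s l)) := by
  have R := ramp_proof.2 ω h0 h8
  obtain ⟨-, u2, u3, -⟩ := hU.2 ι ω h h0 h8 hh
  obtain ⟨-, -, -, -, -, d6, -⟩ := deriv_proof ramp_proof bit_proof ι ω h h0 h8 hh
  obtain ⟨w1, w2⟩ := win R hx
  have e1 : lin s (dir s l) l = 1 := by rw [lin_dir, div_self hl.ne']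
  set k : ℤ := ⌊y l⌋ + kb b with hk
  set u : ι → ℝ := Function.update ((sg b / 2) • lin s (dir s l)) l 0 with hu
  have hsum : ∀ r : ℝ, Function.update y l (k : ℝ) + r • u =
      Function.update (y + (sg b * r / 2) • lin s (dir s l)) l (k : ℝ) := by
    intro r
    funext j
    by_cases hj : j = l
    · subst hj; simp [hu]
    · simp only [hu, Pi.add_apply, Pi.smul_apply, Function.update_of_ne hj, smul_eq_mul]; ring
  have h1 := d6 (Function.update y l (k : ℝ)) u
  have h2 := hsum 1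
  rw [one_smul, mul_one] at h2
  rw [h2] at h1
  unfold Gg
  rw [← hk, h1]
  refine intervalIntegral.integral_congr fun r hr => ?_
  rw [Set.uIcc_of_le zero_le_one] at hr
  obtain ⟨r0, r1⟩ := hr
  rw [hsum r]
  set y' := y + (sg b * r / 2) • lin s (dir s l) with hy'
  have yl : y' l = y l + sg b * r / 2 := by simp [hy', e1]
  have key : ∀ j, j ≠ l → c1 ω h j (Function.update y' l (k : ℝ)) =
      c1 ω h j y' + ef ω b r (y' l) * c2 ω h j l y' := by
    intro j hj
    have e2 : y' l - sg b * r / 2 = y l := by rw [yl]; ring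
    unfold ef
    rw [e2]
    split_ifs with hf
    · cases b
      · have := (u3 y' l j hj).2
        rw [hk, hf]
        simp only [kb, Bool.false_eq_true, if_false, add_zero, Int.cast_zero]
        rw [this]; ring
      · have := (u3 y' l j hj).1
        rw [hk, hf]
        simp only [kb, if_true, Int.cast_one]
        rw [this]
    · rw [zero_mul, add_zero]
      refine ((u2 y' l k ?_).2 j hj).symm
      cases b
      · have : y' l < ⌊y l⌋ := by
          by_contra hc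
          refine hf (Int.floor_eq_iff.2 ⟨not_lt.1 hc, ?_⟩).symm
          simp only [sg, Bool.false_eq_true, if_false] at yl
          linarith
        simp only [sg, Bool.false_eq_true, if_false] at yl
        simp only [hk, kb, Bool.false_eq_true, if_false, add_zero]
        rw [abs_le]; constructor <;> linarith
      · have : (⌊y l⌋ : ℝ) + 1 ≤ y' l := by
          by_contra hc
          refine hf (Int.floor_eq_iff.2 ⟨?_, not_le.1 hc⟩).symm
          simp only [sg, if_true] at yl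
          linarith
        simp only [sg, if_true] at yl
        simp only [hk, kb, if_true]
        push_cast
        rw [abs_le]; constructor <;> linarith
  unfold Hh
  rw [mul_sum, ← sum_subset (subset_univ (J.erase l))]
  · refine sum_congr rfl fun j hj => ?_
    have hjl : j ≠ l := ne_of_mem_erase hj
    rw [key j hjl]
    have a1 : u j = sg b / 2 * (gram s j l / gram s l l) := by
      simp [hu, Function.update_of_ne hjl, lin_dir]
    have a2 : Function.update y l (k : ℝ) j + r * u j = y' j := by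
      rw [Function.update_of_ne hjl, a1]
      simp only [hy', Pi.add_apply, Pi.smul_apply, lin_dir, smul_eq_mul]; ring
    rw [a2, a1]; ring
  · intro j _ hj
    have : u j = 0 := by
      by_cases hjl : j = l
      · subst hjl; simp [hu]
      · have hJ : j ∉ J := fun hc => hj (mem_erase.2 ⟨hjl, hc⟩)
        simp [hu, Function.update_of_ne hjl, lin_dir, gram, hz j hJ]
    rw [this]; simp

/-- The coefficient after the move. -/
theorem coef_le (hU : UpdStmt) (h0 : 0 < ω) (h8 : ω ≤ 1 / 8) (b : Bool) {r : ℝ} (r0 : 0 ≤ r)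
    (x ψ Y : ℝ) (Y0 : 0 ≤ Y) (Y1 : Y ≤ 1) (hψ : |ψ| ≤ pq ω (x - sg b * r / 2) * Y) :
    ψ ^ 2 ≤ pq ω (x - sg b * r / 2) * Y ^ 2 ∧ |ψ * ef ω b r x| ≤ pq ω x ∧
      (ψ * ef ω b r x) ^ 2 ≤ pq ω (x - sg b * r / 2) * Y ^ 2 * pq ω x := by
  have R := ramp_proof.2 ω h0 h8
  obtain ⟨m1, -⟩ := hU.1 ω h0 h8
  set x0 := x - sg b * r / 2 with hx0
  have q0 := R.pq_nonneg x0
  have q4 := R.pq_le x0
  have q1 := R.pq_nonneg x
  have s1 : ψ ^ 2 ≤ (pq ω x0 * Y) ^ 2 := by
    rw [← sq_abs]; exact pow_le_pow_left₀ (abs_nonneg _) hψ 2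
  have key : pq ω x0 * |ef ω b r x| ≤ pq ω x ∧ |ef ω b r x| ≤ 1 := by
    unfold ef
    rw [← hx0]
    have a0 := R.pr_nonneg x
    have a1 := R.pr_le x
    have b0 := R.pr_nonneg x0
    have b1 := R.pr_le x0
    split_ifs with hf
    · cases b
      · have : pr ω x ≤ pr ω x0 := m1 x x0 hf.symm (by simp [hx0, sg]; linarith)
        simp only [kb, Bool.false_eq_true, if_false, Int.cast_zero, zero_sub, abs_neg,
          abs_of_nonneg a0, pq]
        refine ⟨?_, a1⟩
        nlinarith [mul_nonneg a0 (sub_nonneg.2 this),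
          mul_nonneg (mul_nonneg a0 (sub_nonneg.2 b1)) (sub_nonneg.2 b1)]
      · have : pr ω x0 ≤ pr ω x := m1 x0 x hf (by simp [hx0, sg]; linarith)
        simp only [kb, if_true, Int.cast_one, abs_of_nonneg (sub_nonneg.2 a1), pq]
        refine ⟨?_, by linarith⟩
        nlinarith [mul_nonneg (sub_nonneg.2 a1) (sub_nonneg.2 this),
          mul_nonneg (mul_nonneg b0 b0) (sub_nonneg.2 a1)]
    · simp [q1]
  obtain ⟨k1, k2⟩ := key
  have e0 := abs_nonneg (ef ω b r x)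
  refine ⟨?_, ?_, ?_⟩
  · refine s1.trans ?_
    rw [mul_pow]
    exact mul_le_mul_of_nonneg_right (by nlinarith) (sq_nonneg Y)
  · rw [abs_mul]
    calc |ψ| * |ef ω b r x| ≤ pq ω x0 * Y * |ef ω b r x| := mul_le_mul_of_nonneg_right hψ e0
      _ = pq ω x0 * |ef ω b r x| * Y := by ring
      _ ≤ pq ω x * 1 := mul_le_mul k1 Y1 Y0 q1
      _ = pq ω x := mul_one _
  · rw [mul_pow, ← sq_abs (ef ω b r x)]
    calc ψ ^ 2 * |ef ω b r x| ^ 2 ≤ (pq ω x0 * Y) ^ 2 * |ef ω b r x| ^ 2 :=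
          mul_le_mul_of_nonneg_right s1 (sq_nonneg _)
      _ = pq ω x0 * Y ^ 2 * (pq ω x0 * |ef ω b r x| * |ef ω b r x|) := by ring
      _ ≤ pq ω x0 * Y ^ 2 * (pq ω x * 1) :=
          mul_le_mul_of_nonneg_left (mul_le_mul k1 k2 e0 q1) (mul_nonneg q0 (sq_nonneg Y))
      _ = _ := by ring

theorem bm_ef (h0 : 0 < ω) (h8 : ω ≤ 1 / 8) (b : Bool) :
    BM fun p : ℝ × ℝ => ef ω b p.1 p.2 := by
  have R := ramp_proof.2 ω h0 h8
  refine ⟨Measurable.ite ?_ (measurable_const.sub (R.pr_meas.comp measurable_snd))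
    measurable_const, 1, fun p => ?_⟩
  · exact measurableSet_eq_fun (Int.measurable_floor.comp (by fun_prop))
      (Int.measurable_floor.comp measurable_snd)
  · have a0 := R.pr_nonneg p.2
    have a1 := R.pr_le p.2
    show |ef ω b p.1 p.2| ≤ 1
    unfold ef
    split_ifs
    · cases b <;> simp only [kb, Bool.false_eq_true, if_false, if_true, Int.cast_zero,
        Int.cast_one] <;> rw [abs_le] <;> constructor <;> linarith
    · simp

theorem bm_Hh (h0 : 0 < ω) (h8 : ω ≤ 1 / 8) (hh : U01 h) (b : Bool) (l : ι) :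
    BM fun p : ℝ × (ι → ℝ) => Hh ω J s h b l p.1 p.2 := by
  have R := ramp_proof.2 ω h0 h8
  obtain ⟨-, d2, d3, -⟩ := deriv_proof ramp_proof bit_proof ι ω h h0 h8 hh
  unfold Hh
  refine bm_sum _ fun j _ => bm_mul (bm_const _) (bm_mul ?_ (bm_add ?_ (bm_mul ?_ ?_)))
  · exact bm_comp (bm_dpr R) (g := fun p : ℝ × (ι → ℝ) => p.2 j) (by fun_prop)
  · exact bm_comp (F := c1 ω h j)
      ⟨(d2 j).1, 1, fun y => ((d2 j).2.2 y).1.trans ((d2 j).2.2 y).2⟩ measurable_snd
  · exact bm_comp (bm_ef h0 h8 b) (g := fun p : ℝ × (ι → ℝ) => (p.1, p.2 l)) (by fun_prop)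
  · exact bm_comp (F := c2 ω h j l) ⟨(d3 j l).1, 2, (d3 j l).2⟩ measurable_snd

omit [Fintype ι] [DecidableEq ι] in
theorem meas_lin (s : ι → κ → ℤ) : Measurable (lin s) :=
  measurable_pi_lambda _ fun j => meas_ip (s j)

theorem per_Hh {Γ : AddSubgroup (κ → ℝ)} (hint : ∀ n : κ → ℤ, (fun k => (n k : ℝ)) ∈ Γ)
    (h0 : 0 < ω) (h8 : ω ≤ 1 / 8) (hh : U01 h) (hI : Inv Γ s h) (t : ι → ℝ) (b : Bool) (l : ι)
    (r : ℝ) : Per fun η => Hh ω J s h b l r (t + lin s η) := by
  have R := ramp_proof.2 ω h0 h8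
  obtain ⟨-, -, -, -, d5, -⟩ := deriv_proof ramp_proof bit_proof ι ω h h0 h8 hh
  intro η n
  set z : ι → ℤ := fun j => ∑ k, s j k * n k with hz
  have hzc : ∀ j, (z j : ℝ) = lin s (fun k => (n k : ℝ)) j := fun j => by
    simp [hz, lin, ip]
  have e : t + lin s (η + fun k => (n k : ℝ)) = (t + lin s η) + fun i => (z i : ℝ) := by
    rw [lin_add, add_assoc]
    congr 2
    funext j; rw [hzc]
  obtain ⟨-, i1, i2, -⟩ := d5 z (hI _ (hint n) z hzc) (t + lin s η)
  simp only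
  rw [e]
  unfold Hh
  refine sum_congr rfl fun j _ => ?_
  rw [(i1 j).1, i2 j l]
  have a1 : ∀ i, ((t + lin s η) + fun i => (z i : ℝ)) i = (t + lin s η) i + z i := fun _ => rfl
  rw [a1, a1, R.dpr_per]
  congr 4
  unfold ef
  rw [R.pr_per, add_sub_right_comm, Int.floor_add_intCast, Int.floor_add_intCast]
  simp only [add_left_inj]

theorem tm_swap {Φ : (κ → ℝ) → ℝ → ℝ} (hΦ : BM fun p : (κ → ℝ) × ℝ => Φ p.1 p.2) :
    tm (fun η => ∫ r in (0 : ℝ)..1, Φ η r) = ∫ r in (0 : ℝ)..1, tm fun η => Φ η r := by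
  simp only [intervalIntegral.integral_of_le zero_le_one, tm]
  exact integral_integral_swap (bm_int hΦ _)

theorem bm_ii {f : ℝ → ℝ} (hf : BM f) : IntervalIntegrable f volume 0 1 := by
  rw [intervalIntegrable_iff_integrableOn_Ioc_of_le zero_le_one]
  exact bm_int hf _

/-- One direction. -/
theorem half (hU : UpdStmt) (hR : RegStmt) {Γ : AddSubgroup (κ → ℝ)} {a0 aV aU aI : ℝ}
    (hint : ∀ n : κ → ℤ, (fun k => (n k : ℝ)) ∈ Γ) (hz : ∀ j, j ∉ J → s j = 0)
    (hg : ∀ l ∈ J, 0 < gram s l l) (h0 : 0 < ω) (h8 : ω ≤ 1 / 8) (hV : 0 ≤ aV) (hUU : 0 ≤ aU)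
    (hII : 0 ≤ aI) (hP : PointAt ω J s a0 aV aU aI) (t : ι → ℝ) (hh : U01 h) (hI : Inv Γ s h)
    (ψ Y : ι → (κ → ℝ) → ℝ) (I0 : ℝ)
    (hb : ∀ l, BM (ψ l) ∧ Per (ψ l) ∧ BM (Y l) ∧ Per (Y l))
    (hψ : ∀ l η, 0 ≤ Y l η ∧ Y l η ≤ 1 ∧ |ψ l η| ≤ pq ω ((t + lin s η) l) * Y l η)
    (h2 : ∑ l ∈ J, tm (fun η => pq ω ((t + lin s η) l) * Y l η ^ 2) ≤ 1)
    (h1 : ∑ l ∈ J, tm (fun η => pq ω ((t + lin s η) l) * Y l η) ≤ I0)
    (h3 : tm (fun η => Inf ω J h (t + lin s η)) ≤ I0) (b : Bool) :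
    (∀ l ∈ J, BM fun η => ψ l η * Gg ω s h b l (t + lin s η)) ∧
    |∑ l ∈ J, tm fun η => ψ l η * Gg ω s h b l (t + lin s η)| ≤
      ((aU + aI) * I0 + (a0 + aV)) / 2 := by
  obtain ⟨-, r2, r3, -⟩ := hR ι κ Γ s ω t h hint h0 h8 hh hI
  have ml := meas_lin s
  set Φ : ι → (κ → ℝ) → ℝ → ℝ := fun l η r =>
    ψ l η * (sg b / 2 * Hh ω J s h b l r (t + lin s (η + (sg b * r / 2) • dir s l))) with hΦ
  have bΦ : ∀ l, BM fun p : (κ → ℝ) × ℝ => Φ l p.1 p.2 := fun l =>
    bm_mul (bm_comp (hb l).1 measurable_fst) (bm_mul (bm_const _)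
      (bm_comp (bm_Hh h0 h8 hh b l)
        (g := fun p : (κ → ℝ) × ℝ => (p.2, t + lin s (p.1 + (sg b * p.2 / 2) • dir s l)))
        (by fun_prop)))
  have eΦ : ∀ l ∈ J, (fun η => ψ l η * Gg ω s h b l (t + lin s η)) =
      fun η => ∫ r in (0 : ℝ)..1, Φ l η r := by
    intro l hl
    funext η
    simp only [hΦ]
    rw [intervalIntegral.integral_const_mul]
    by_cases hx : pq ω ((t + lin s η) l) = 0
    · have : ψ l η = 0 := by
        have := (hψ l η).2.2
        rw [hx, zero_mul] at this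
        exact abs_nonpos_iff.1 this
      rw [this, zero_mul, zero_mul]
    · rw [claim2 hU h0 h8 hh hz (hg l hl) b _ hx]
      simp only [move]
  have bT : ∀ l, BM fun r => tm fun η => Φ l η r := fun l =>
    bm_tm (H := fun r η => Φ l η r) (bm_comp (bΦ l) measurable_swap)
  refine ⟨fun l hl => ?_, ?_⟩
  · rw [eΦ l hl]
    obtain ⟨m, C, hC⟩ := bΦ l
    simp only [intervalIntegral.integral_of_le zero_le_one]
    refine ⟨(m.stronglyMeasurable.integral_prod_right'
      (ν := volume.restrict (Set.Ioc (0 : ℝ) 1))).measurable, C, fun η => ?_⟩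
    have := norm_integral_le_of_norm_le_const (μ := volume.restrict (Set.Ioc (0 : ℝ) 1))
      (f := fun r => Φ l η r) (C := C) (Filter.Eventually.of_forall fun r => hC (η, r))
    simpa using this
  rw [sum_congr rfl fun l hl => by rw [eΦ l hl, tm_swap (bΦ l)],
    ← intervalIntegral.integral_finsetSum fun l _ => bm_ii (bT l)]
  have := intervalIntegral.norm_integral_le_of_norm_le_const (a := 0) (b := 1)
    (f := fun r => ∑ l ∈ J, tm fun η => Φ l η r) (C := ((aU + aI) * I0 + (a0 + aV)) / 2) ?_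
  · simpa using this
  intro r hr
  rw [Set.uIoc_of_le zero_le_one] at hr
  have r0 : 0 ≤ r := hr.1.le
  set ξ : ι → κ → ℝ := fun l => (sg b * r / 2) • dir s l with hξ
  have bH : ∀ l, BM fun η => Hh ω J s h b l r (t + lin s η) := fun l =>
    bm_comp (bm_Hh h0 h8 hh b l) (g := fun η : κ → ℝ => (r, t + lin s η)) (by fun_prop)
  have bs : ∀ {F : (κ → ℝ) → ℝ}, BM F → ∀ l, BM fun η => F (η - ξ l) := fun hF l =>
    bm_comp hF (g := fun η : κ → ℝ => η - ξ l) (by fun_prop)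
  have sh : ∀ {F : (κ → ℝ) → ℝ}, Per F → ∀ l, tm (fun η => F (η - ξ l)) = tm F := fun hF l => by
    simp only [sub_eq_add_neg]
    exact Torus.int_shift hF (-ξ l)
  have e1 : ∀ l, tm (fun η => Φ l η r) =
      sg b / 2 * tm fun η => ψ l (η - ξ l) * Hh ω J s h b l r (t + lin s η) := by
    intro l
    have hper : Per fun η => ψ l (η - ξ l) * Hh ω J s h b l r (t + lin s η) := fun η n => by
      have a := per_Hh (J := J) hint h0 h8 hh hI t b l r η n
      have a' := (hb l).2.1 (η - ξ l) n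
      simp only at a ⊢
      rw [a, add_sub_right_comm, a']
    have := Torus.int_shift (H := fun η => ψ l (η - ξ l) * Hh ω J s h b l r (t + lin s η))
      hper (ξ l)
    rw [← tm_cmul, show (tm fun η => sg b / 2 * (ψ l (η - ξ l) *
      Hh ω J s h b l r (t + lin s η))) = sg b / 2 * tm fun η => ψ l (η - ξ l) *
      Hh ω J s h b l r (t + lin s η) from tm_cmul _ _]
    unfold tm
    rw [← this, ← integral_const_mul]
    refine integral_congr_ae (Filter.Eventually.of_forall fun η => ?_)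
    simp only [hΦ, hξ, add_sub_cancel_right]
    ring
  simp only [e1]
  rw [← mul_sum, ← tm_sum J fun l _ => bm_mul (bs (hb l).1 l) (bH l), Real.norm_eq_abs, abs_mul]
  have s1 : |sg b / 2| = 1 / 2 := by cases b <;> simp [sg, abs_div]
  rw [s1]
  set V : ι → (κ → ℝ) → ℝ := fun l η => pq ω ((t + lin s η) l) * Y l η ^ 2 with hVd
  have bV : ∀ l, BM (V l) := fun l => bm_mul (r2 l).2.2.2.2.2.2.2.2.2.2.1 (bm_sq (hb l).2.2.1)
  have pV : ∀ l, Per (V l) := fun l η n => by
    have a := (r2 l).2.2.2.2.2.2.2.2.2.2.2.1 η n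
    have a' := (hb l).2.2.2 η n
    simp only [hVd] at a ⊢
    rw [a, a']
  have pt : ∀ η, |∑ l ∈ J, ψ l (η - ξ l) * Hh ω J s h b l r (t + lin s η)| ≤
      a0 + aV * ∑ l ∈ J, V l (η - ξ l) + aU * ∑ l ∈ J, |ψ l (η - ξ l)| +
        aI * Inf ω J h (t + lin s η) := by
    intro η
    refine hP h hh (t + lin s η) (fun l => ψ l (η - ξ l)) (fun l => V l (η - ξ l))
      (fun l => ef ω b r ((t + lin s η) l)) fun l hl => ?_
    have e2 : (t + lin s (η - ξ l)) l = (t + lin s η) l - sg b * r / 2 := by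
      rw [sub_eq_add_neg η, hξ]
      simp only
      rw [← neg_smul, move]
      simp only [Pi.add_apply, Pi.smul_apply, lin_dir, div_self (hg l hl).ne', smul_eq_mul]
      ring
    obtain ⟨y0, y1, y2⟩ := hψ l (η - ξ l)
    simp only [hVd]
    rw [e2] at y2 ⊢
    exact coef_le hU h0 h8 b r0 _ _ _ y0 y1 y2
  have bS1 : BM fun η => ∑ l ∈ J, V l (η - ξ l) := bm_sum J fun l _ => bs (bV l) l
  have bS2 : BM fun η => ∑ l ∈ J, |ψ l (η - ξ l)| := bm_sum J fun l _ => bm_abs (bs (hb l).1 l)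
  have bI := (r3 J).2.2.2.2.1
  have t1 : tm (fun η => ∑ l ∈ J, V l (η - ξ l)) ≤ 1 := by
    rw [tm_sum J fun l _ => bs (bV l) l]
    simp only [sh (pV _)]
    exact h2
  have t2 : tm (fun η => ∑ l ∈ J, |ψ l (η - ξ l)|) ≤ I0 := by
    rw [tm_sum J fun l _ => bm_abs (bs (hb l).1 l)]
    refine le_trans (sum_le_sum fun l _ => ?_) h1
    rw [sh (F := fun η => |ψ l η|) (fun η n => by simp only [(hb l).2.1 η n]) l]
    exact tm_mono (bm_abs (hb l).1) (bm_mul (r2 l).2.2.2.2.2.2.2.2.2.2.1 (hb l).2.2.1)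
      fun η => (hψ l η).2.2
  have t3 := (abs_tm_le _).trans (tm_mono
    (bm_abs (bm_sum J fun l _ => bm_mul (bs (hb l).1 l) (bH l)))
    (bm_add (bm_add (bm_add (bm_const a0) (bm_mul (bm_const aV) bS1))
      (bm_mul (bm_const aU) bS2)) (bm_mul (bm_const aI) bI)) pt)
  rw [tm_add (bm_add (bm_add (bm_const a0) (bm_mul (bm_const aV) bS1))
      (bm_mul (bm_const aU) bS2)) (bm_mul (bm_const aI) bI),
    tm_add (bm_add (bm_const a0) (bm_mul (bm_const aV) bS1)) (bm_mul (bm_const aU) bS2),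
    tm_add (bm_const a0) (bm_mul (bm_const aV) bS1), tm_const, tm_cmul, tm_cmul, tm_cmul] at t3
  nlinarith [mul_le_mul_of_nonneg_left t1 hV, mul_le_mul_of_nonneg_left t2 hUU,
    mul_le_mul_of_nonneg_left h3 hII]

end

end Flat

theorem flat_proof (hU : UpdStmt) (hR : RegStmt) : FlatStmt := by
  intro ι κ _ _ _ Γ J s ω a0 aV aU aI hint hz hg h0 h8 hV hUU hII hP t h hh hI ψ Y I0 hb hψ h2 h1 h3
  obtain ⟨b1, k1⟩ := Flat.half hU hR hint hz hg h0 h8 hV hUU hII hP t hh hI ψ Y I0 hb hψ h2 h1 h3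
    true
  obtain ⟨b2, k2⟩ := Flat.half hU hR hint hz hg h0 h8 hV hUU hII hP t hh hI ψ Y I0 hb hψ h2 h1 h3
    false
  have e : ∀ l ∈ J, (tm fun η => ψ l η * (del ω h t s l η - c1 ω h l (t + lin s η))) =
      (tm fun η => ψ l η * Flat.Gg ω s h true l (t + lin s η)) -
        tm fun η => ψ l η * Flat.Gg ω s h false l (t + lin s η) := by
    intro l hl
    rw [← tm_sub (b1 l hl) (b2 l hl)]
    congr 1
    funext η
    by_cases hx : pq ω ((t + lin s η) l) = 0
    · have : ψ l η = 0 := by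
        have := (hψ l η).2.2
        rw [hx, zero_mul] at this
        exact abs_nonpos_iff.1 this
      simp [this]
    · rw [Flat.claim1 hU h0 h8 hh (hg l hl) t η hx]; ring
  rw [sum_congr rfl e, sum_sub_distrib]
  refine (abs_sub _ _).trans ?_
  linarith

end Vale.Agent.P318.B
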