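import Vale.Agent.P318.B.Stmt
import Vale.Agent.P318.M.Noised
import Vale.Agent.P318.M.Ramp
import Vale.Agent.P318.M.Torus
import Vale.Agent.P318.M.Bit
import Vale.Agent.P318.M.Deriv
import Vale.Agent.P318.M.Fourier

/-!
The block theorem with frozen coordinates, and the variance of the fibre mean on the torus.
-/

namespace Vale.Agent.P318.B

open Finset MeasureTheory Vale.Agent.P318.M

open Noised in
theorem freeze_proof : FreezeStmt := by
  intro ι K κ _ _ _ _ Γ Γt J s S emb c f ω A ε h0 h1 hA hBl hs hemb hlin hZ hf hinv hinvt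
  have hT := torus_proof
  have hB := bit_proof
  have hD := deriv_proof ramp_proof bit_proof
  have hF := fourier_proof ramp_proof bit_proof
  have hRω := ramp_proof.2 ω h0 h1
  obtain ⟨-, -, -, -, -, fper, fno⟩ := hF ι ω f h0 h1 hf
  obtain ⟨-, -, -, dbm, dper, -⟩ := hD ι ω f h0 h1 hf
  have bQ1 : BM (Q1 ω 1 J f) := by rw [Q1_eq]; exact bm_fsum hF h0 h1 hf _
  have bI : BM (Inf ω J f) := (dbm J).2.2.1
  have key : ∀ y : ι → ℝ, tm (fun η => Q1 ω 1 J f (y + lin s η)) ≤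
      A * tm (fun η => Inf ω J f (y + lin s η)) + ε := by
    intro y
    obtain ⟨nU, nI, nF⟩ := fno 1 J y zero_le_one le_rfl
    obtain ⟨w0, w1, -⟩ := hB ι (py ω y) fun i => ⟨hRω.pr_nonneg _, hRω.pr_le _⟩
    have hy : ∀ η i, i ∉ J → (y + lin s η) i = y i := by
      intro η i hi
      simp [lin, ip, hs i hi]
    have hI : ∀ b, Inv Γ s (noised ω 1 J f y b) := by
      intro b r hr z hz
      refine nI z b (fun i hi => ?_) (hinv r hr z hz)
      have := hz i
      simp only [lin, ip, hs i hi, Pi.zero_apply, Int.cast_zero, zero_mul,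
        Finset.sum_const_zero] at this
      exact_mod_cast this
    have hb := fun b => hBl y (noised ω 1 J f y b) (nU b) (hI b)
    have bm := fun b => (hD ι ω (noised ω 1 J f y b) h0 h1 (nU b)).2.2.2.1 J
    have e1 : tm (fun η => Q1 ω 1 J f (y + lin s η)) =
        ∑ b, wt (py ω y) b * tm (fun η => W1 ω J (noised ω 1 J f y b) (y + lin s η)) := by
      simp only [← tm_mul]
      rw [← tm_sum _ fun b _ => bm_mul (bm_const _) (bm_comp (bm b).1 (meas_lin s y))]
      congr 1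
      funext η
      exact ((nF _ (hy η)).1).symm
    have e3 : ∑ b, wt (py ω y) b * tm (fun η => Inf ω J (noised ω 1 J f y b) (y + lin s η)) ≤
        tm (fun η => Inf ω J f (y + lin s η)) := by
      simp only [← tm_mul]
      rw [← tm_sum _ fun b _ => bm_mul (bm_const _) (bm_comp (bm b).2.2.1 (meas_lin s y))]
      refine tm_mono (bm_sum _ fun b _ => bm_mul (bm_const _)
        (bm_comp (bm b).2.2.1 (meas_lin s y))) (bm_comp bI (meas_lin s y)) fun η => ?_
      exact (nF _ (hy η)).2.2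
    rw [e1]
    calc ∑ b, wt (py ω y) b * tm (fun η => W1 ω J (noised ω 1 J f y b) (y + lin s η))
        ≤ ∑ b, wt (py ω y) b *
            (A * tm (fun η => Inf ω J (noised ω 1 J f y b) (y + lin s η)) + ε) :=
          Finset.sum_le_sum fun b _ => mul_le_mul_of_nonneg_left (hb b) (w0 b)
      _ = A * ∑ b, wt (py ω y) b * tm (fun η => Inf ω J (noised ω 1 J f y b) (y + lin s η)) +
            (∑ b, wt (py ω y) b) * ε := by
          rw [Finset.mul_sum, Finset.sum_mul, ← Finset.sum_add_distrib]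
          exact Finset.sum_congr rfl fun b _ => by ring
      _ ≤ _ := by
          rw [w1, one_mul]
          have := mul_le_mul_of_nonneg_left e3 hA
          linarith
  have pQ1 : Per fun β => Q1 ω 1 J f (c + lin S β) := by
    refine per_of_inv hZ hinvt c (Φ := Q1 ω 1 J f) fun r hr y => ?_
    simp only [Q1, fper r hr]
  have pI : Per fun β => Inf ω J f (c + lin S β) :=
    per_of_inv hZ hinvt c (Φ := Inf ω J f) fun r hr y => ((dper r hr y).2.2.2 J).2.2
  obtain ⟨b1, t1⟩ := tm_tm hT pQ1 (bm_comp bQ1 (meas_lin S c)) hemb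
  obtain ⟨b3, t3⟩ := tm_tm hT pI (bm_comp bI (meas_lin S c)) hemb
  have hsh : ∀ β η, c + lin S (β + emb η) = (c + lin S β) + lin s η := by
    intro β η
    rw [lin_add, hlin, add_assoc]
  simp only [hsh] at b1 b3 t1 t3
  rw [← t1, ← t3, ← tm_mul, ← tm_const (κ := κ) ε,
    ← tm_add (bm_mul (bm_const _) b3) (bm_const _)]
  exact tm_mono b1 (bm_add (bm_mul (bm_const _) b3) (bm_const _)) fun β => key _

namespace Freeze

variable {B : Type} [Fintype B] [DecidableEq B] {M : B → ℕ}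

omit [DecidableEq B] in
theorem ip_sigma (m : Kt M → ℤ) (ρ : Kt M → ℝ) :
    ip m ρ = ∑ J, ip (fun k => m ⟨J, k⟩) (res ρ J) := by
  simp only [ip, res]
  exact Fintype.sum_sigma _

/-- A dual vector of the product lattice is dual on every block. -/
theorem dual_block {Γ : (J : B) → AddSubgroup (Fin (M J) → ℝ)} {m : Kt M → ℤ}
    (h : Dual (tl Γ) m) (J : B) : Dual (Γ J) fun k => m ⟨J, k⟩ := by
  intro ρ hρ
  let P : (J' : B) → Fin (M J') → ℝ := Pi.single J ρ
  have hm : (fun x : Kt M => P x.1 x.2) ∈ tl Γ := by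
    intro J'
    change P J' ∈ Γ J'
    by_cases e : J' = J
    · subst e
      simpa [P] using hρ
    · simp only [P, Pi.single_eq_of_ne e]
      exact (Γ J').zero_mem
  obtain ⟨n, hn⟩ := h _ hm
  refine ⟨n, ?_⟩
  rw [← hn, ip_sigma, Finset.sum_eq_single J]
  · congr 1
    funext k
    simp [res, P]
  · intro J' _ e
    have : res (fun x : Kt M => P x.1 x.2) J' = 0 := by
      funext k
      simp [res, P, Pi.single_eq_of_ne e]
    simp [this, ip]
  · simp

omit [DecidableEq B] in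
theorem dual_tc {ι : Type} {Γ : (J : B) → AddSubgroup (Fin (M J) → ℝ)}
    {s : (J : B) → ι → Fin (M J) → ℤ} (h : ∀ J j, Dual (Γ J) (s J j)) (j : ι) :
    Dual (tl Γ) (tc s j) := by
  intro ρ hρ
  choose n hn using fun J => h J j (res ρ J) (hρ J)
  refine ⟨∑ J, n J, ?_⟩
  rw [ip_sigma, Int.cast_sum]
  exact Finset.sum_congr rfl fun J _ => hn J

/-- The transposed operator bound for complex vectors. -/
theorem cx {ι κ : Type} [Fintype κ] {J : Finset ι} {s : ι → κ → ℤ} {Bn : ℝ}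
    (h : ∀ z : ι → ℝ, ∑ k, (∑ j ∈ J, z j * s j k) ^ 2 ≤ Bn * ∑ j ∈ J, z j ^ 2) (q : ι → ℂ) :
    ∑ k, ‖∑ j ∈ J, (s j k : ℂ) * q j‖ ^ 2 ≤ Bn * ∑ j ∈ J, ‖q j‖ ^ 2 := by
  have e : ∀ z : ℂ, ‖z‖ ^ 2 = z.re ^ 2 + z.im ^ 2 := fun z => by
    rw [Complex.sq_norm, Complex.normSq_apply]
    ring
  simp only [e, Finset.sum_add_distrib, mul_add]
  refine add_le_add (le_of_eq_of_le ?_ (h fun j => (q j).re))
    (le_of_eq_of_le ?_ (h fun j => (q j).im))
  · refine Finset.sum_congr rfl fun k _ => ?_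
    rw [Complex.re_sum]
    congr 1
    exact Finset.sum_congr rfl fun j _ => by simp [mul_comm]
  · refine Finset.sum_congr rfl fun k _ => ?_
    rw [Complex.im_sum]
    congr 1
    exact Finset.sum_congr rfl fun j _ => by simp [mul_comm]

omit [DecidableEq B] in
theorem deg_sum {ι : Type} [Fintype ι] [DecidableEq ι] {blk : B → Finset ι} {F : ℝ}
    (hdeg : ∀ i, ((univ.filter fun J => i ∈ blk J).card : ℝ) ≤ F) {a : ι → ℝ}
    (ha : ∀ i, 0 ≤ a i) : ∑ J, ∑ j ∈ blk J, a j ≤ F * ∑ j, a j := by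
  have e : ∀ J, ∑ j ∈ blk J, a j = ∑ j, if j ∈ blk J then a j else 0 := fun J => by
    rw [← Finset.sum_filter]
    congr 1
    ext j
    simp
  simp only [e]
  rw [Finset.sum_comm, Finset.mul_sum]
  refine Finset.sum_le_sum fun j _ => ?_
  rw [← Finset.sum_filter, Finset.sum_const, nsmul_eq_mul]
  exact mul_le_mul_of_nonneg_right (hdeg j) (ha j)

end Freeze

open Freeze Noised in
theorem tvB_proof (hF : FcStmt) (hR : RegStmt) (hC : ChunkStmt) : TVBStmt := by
  intro ι B _ _ _ _ M blk s Γ F β c2 ω c f h0 h1 hc2 hβ hz hdeg hop hlat hdual hf hinv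
  have R := ramp_proof.2 ω h0 h1
  have hZ : ∀ n : Kt M → ℤ, (fun k => (n k : ℝ)) ∈ tl Γ := fun n J =>
    (hlat J).1 fun k => n ⟨J, k⟩
  obtain ⟨⟨Gb, Gp, -⟩, hq, hW, hgrad, hsup⟩ := hR ι (Kt M) (tl Γ) (tc s) ω c f hZ h0 h1 hf hinv
  obtain ⟨-, -, hfc0, hbes, -⟩ := hF (Kt M)
  have hpar := (torus_proof (Kt M)).2.2.1 _ Gp Gb
  set G := mE ω f c (tc s) with hG
  change tm (fun η => G η ^ 2) - tm G ^ 2 ≤ _
  -- one frequency
  have one : ∀ m : Kt M → ℤ, m ≠ 0 → ‖fc G m‖ ^ 2 ≤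
      β / (4 * c2) * ∑ J, ∑ j ∈ blk J, ‖fc (qq ω f c (tc s) j) m‖ ^ 2 := by
    intro m hm
    have nn : ∀ J, 0 ≤ ∑ j ∈ blk J, ‖fc (qq ω f c (tc s) j) m‖ ^ 2 := fun J =>
      Finset.sum_nonneg fun j _ => sq_nonneg _
    by_cases hd : Dual (tl Γ) m
    · obtain ⟨⟨J, k0⟩, hx⟩ := Function.ne_iff.1 hm
      have hMJ : (0 : ℝ) < M J := by exact_mod_cast (Nat.zero_le _).trans_lt k0.2
      have h2 : c2 * M J ≤ ∑ k, ((m ⟨J, k⟩ : ℤ) : ℝ) ^ 2 := by
        rcases (hlat J).2 _ (dual_block hd J) with e | e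
        · exact absurd (congrFun e k0) hx
        · exact e
      have h3 := cx (((hC ι (Fin (M J)) (blk J) (s J)).2.2.2 _ (mul_nonneg hβ hMJ.le)).1 (hop J))
        fun j => fc (qq ω f c (tc s) j) m
      have h4 : ∀ k, ‖∑ j ∈ blk J, (s J j k : ℂ) * fc (qq ω f c (tc s) j) m‖ ^ 2 =
          4 * Real.pi ^ 2 * ‖fc G m‖ ^ 2 * ((m ⟨J, k⟩ : ℤ) : ℝ) ^ 2 := fun k => by
        have e : ∑ j ∈ blk J, (s J j k : ℂ) * fc (qq ω f c (tc s) j) m =
            ∑ j, (tc s j ⟨J, k⟩ : ℂ) * fc (qq ω f c (tc s) j) m :=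
          Finset.sum_subset (Finset.subset_univ _) fun j _ hj => by simp [hz J j hj]
        rw [e, hgrad]
        simp only [norm_mul, Complex.norm_I, Complex.norm_real, Complex.norm_intCast,
          Complex.norm_ofNat, mul_pow, Real.norm_eq_abs, sq_abs]
        ring
      simp only [h4, ← Finset.mul_sum] at h3
      have h5 : 1 ≤ Real.pi ^ 2 := one_le_pow₀ (by linarith [Real.two_le_pi])
      have h6 : 4 * ‖fc G m‖ ^ 2 * (c2 * M J) ≤
          β * M J * ∑ j ∈ blk J, ‖fc (qq ω f c (tc s) j) m‖ ^ 2 := by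
        refine le_trans ?_ h3
        refine mul_le_mul ?_ h2 (by positivity) (by positivity)
        nlinarith [sq_nonneg ‖fc G m‖]
      have h7 : ∑ j ∈ blk J, ‖fc (qq ω f c (tc s) j) m‖ ^ 2 ≤
          ∑ J, ∑ j ∈ blk J, ‖fc (qq ω f c (tc s) j) m‖ ^ 2 :=
        Finset.single_le_sum (fun J _ => nn J) (Finset.mem_univ J)
      refine le_trans ?_ (mul_le_mul_of_nonneg_left h7 (by positivity))
      rw [div_mul_eq_mul_div, le_div_iff₀ (by positivity)]
      refine le_of_mul_le_mul_right ?_ hMJ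
      linarith
    · rw [hsup (dual_tc hdual) m hd]
      have := Finset.sum_nonneg fun J (_ : J ∈ (univ : Finset B)) => nn J
      simp only [norm_zero, ne_eq, OfNat.ofNat_ne_zero, not_false_eq_true, zero_pow]
      positivity
  let a : ι → ℝ := fun j => tm fun η => pq ω ((c + lin (tc s) η) j) * c1 ω f j (c + lin (tc s) η) ^ 2
  have bsq : ∀ {H : (Kt M → ℝ) → ℝ}, BM H → BM fun η => H η ^ 2 := fun h => by
    simpa only [sq] using bm_mul h h
  have ba : ∀ j, BM fun η => pq ω ((c + lin (tc s) η) j) * c1 ω f j (c + lin (tc s) η) ^ 2 :=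
    fun j => bm_mul (hq j).2.2.2.2.2.2.2.2.2.2.1 (bsq (hq j).2.2.2.2.2.2.1)
  have a0 : ∀ j, 0 ≤ a j := fun j => tm_nonneg fun η => mul_nonneg (R.pq_nonneg _) (sq_nonneg _)
  have hqa : ∀ j, tm (fun η => qq ω f c (tc s) j η ^ 2) ≤ 4 / ω ^ 2 * a j := fun j => by
    rw [← tm_mul]
    refine tm_mono (bsq (hq j).1) (bm_mul (bm_const _) (ba j)) fun η => ?_
    rw [qq, mul_pow, ← mul_assoc]
    exact mul_le_mul_of_nonneg_right (R.dpr_sq_le _) (sq_nonneg _)
  have hWa : tm (fun η => W1 ω univ f (c + lin (tc s) η)) = ∑ j, a j :=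
    tm_sum univ fun j _ => ba j
  have fin : ∀ S : Finset (Kt M → ℤ), (∀ m ∈ S, m ≠ 0) →
      ∑ m ∈ S, ‖fc G m‖ ^ 2 ≤ F * β / (c2 * ω ^ 2) * ∑ j, a j := by
    intro S hS
    calc ∑ m ∈ S, ‖fc G m‖ ^ 2
        ≤ ∑ m ∈ S, β / (4 * c2) * ∑ J, ∑ j ∈ blk J, ‖fc (qq ω f c (tc s) j) m‖ ^ 2 :=
          Finset.sum_le_sum fun m hm => one m (hS m hm)
      _ = β / (4 * c2) * ∑ J, ∑ j ∈ blk J, ∑ m ∈ S, ‖fc (qq ω f c (tc s) j) m‖ ^ 2 := by
          rw [← Finset.mul_sum, Finset.sum_comm]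
          congr 1
          exact Finset.sum_congr rfl fun J _ => Finset.sum_comm
      _ ≤ β / (4 * c2) * ∑ J, ∑ j ∈ blk J, 4 / ω ^ 2 * a j :=
          mul_le_mul_of_nonneg_left (Finset.sum_le_sum fun J _ => Finset.sum_le_sum fun j _ =>
            (hbes _ (hq j).2.1 (hq j).1 S).trans (hqa j)) (by positivity)
      _ ≤ β / (4 * c2) * (F * ∑ j, 4 / ω ^ 2 * a j) :=
          mul_le_mul_of_nonneg_left (deg_sum hdeg fun j => mul_nonneg (by positivity) (a0 j))
            (by positivity)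
      _ = _ := by
          rw [← Finset.mul_sum]
          field_simp
  rw [hWa, sub_le_iff_le_add]
  refine hasSum_le_of_sum_le hpar fun S => ?_
  have e0 : ‖fc G 0‖ ^ 2 = tm G ^ 2 := by
    rw [hfc0 G Gb, Complex.norm_real, Real.norm_eq_abs, sq_abs]
  have h8 := fin (S.erase 0) fun m hm => Finset.ne_of_mem_erase hm
  have h9 : ∑ m ∈ S, ‖fc G m‖ ^ 2 ≤ ∑ m ∈ S.erase 0, ‖fc G m‖ ^ 2 + ‖fc G 0‖ ^ 2 := by
    by_cases h : (0 : Kt M → ℤ) ∈ S
    · exact (Finset.sum_erase_add S _ h).ge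
    · rw [Finset.erase_eq_of_notMem h]
      exact le_add_of_nonneg_right (sq_nonneg _)
  linarith

end Vale.Agent.P318.B
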