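import Vale.Agent.P318.B.Stmt

/-!
Drifts of reduced vectors are far from the integer points.
-/

namespace Vale.Agent.P318.B

open Finset MeasureTheory Vale.Agent.P318.M

namespace Gamma

theorem dyad (e m : ℝ) (h0 : 0 ≤ e) (hm : e ≤ m) (n : ℕ) :
    e ≤ (∑ k ∈ range n, if m / 2 ^ k ≤ e then 2 * (m / 2 ^ k) else 0) ∨ e ≤ 2 * (m / 2 ^ n) := by
  have hm0 : 0 ≤ m := h0.trans hm
  induction n with
  | zero => right; simp only [pow_zero, div_one]; linarith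
  | succ n ih =>
    have hp : 0 ≤ m / 2 ^ n := by positivity
    have hS : 0 ≤ ∑ k ∈ range n, if m / 2 ^ k ≤ e then 2 * (m / 2 ^ k) else 0 :=
      sum_nonneg fun k _ => by split_ifs <;> positivity
    rw [sum_range_succ]
    rcases ih with h | h
    · left
      have : 0 ≤ if m / 2 ^ n ≤ e then 2 * (m / 2 ^ n) else 0 := by split_ifs <;> positivity
      linarith
    · by_cases hc : m / 2 ^ n ≤ e
      · left
        rw [if_pos hc]
        linarith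
      · right
        have : 2 * (m / 2 ^ (n + 1)) = m / 2 ^ n := by rw [pow_succ]; field_simp
        rw [this]
        exact (not_le.mp hc).le

theorem best {B : Type} [Fintype B] (w e : B → ℝ) (J0 : B) (k0 : ℕ) (hw : ∀ J, 1 ≤ w J)
    (he : ∀ J, 0 ≤ e J) (hm : ∀ J, e J ≤ e J0) (hs : ∑ J, w J ≤ 2 ^ k0) :
    ∃ k ≤ k0, ∑ J, w J * e J ≤
      2 * (k0 + 2) * (e J0 / 2 ^ k * ∑ J ∈ univ.filter (fun J => e J0 / 2 ^ k ≤ e J), w J) := by
  set m := e J0 with hmdef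
  have hm0 : 0 ≤ m := he J0
  set A : ℕ → ℝ := fun k => m / 2 ^ k * ∑ J ∈ univ.filter (fun J => m / 2 ^ k ≤ e J), w J with hA
  obtain ⟨k, hk, hkm⟩ := exists_max_image (range (k0 + 1)) A ⟨0, by simp⟩
  refine ⟨k, Nat.lt_succ_iff.mp (mem_range.mp hk), ?_⟩
  have hw0 : ∀ J, 0 ≤ w J := fun J => zero_le_one.trans (hw J)
  have h0 : m ≤ A k := by
    refine le_trans ?_ (hkm 0 (by simp))
    simp only [hA, pow_zero, div_one]
    have : 1 ≤ ∑ J ∈ univ.filter (fun J => m ≤ e J), w J :=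
      (hw J0).trans (single_le_sum (f := w) (fun J _ => hw0 J) (by simp [hmdef]))
    nlinarith
  have h1 : ∀ J, w J * e J ≤ m / 2 ^ k0 * w J +
      ∑ k ∈ range (k0 + 1), if m / 2 ^ k ≤ e J then 2 * (m / 2 ^ k * w J) else 0 := by
    intro J
    have hS : 0 ≤ ∑ k ∈ range (k0 + 1), if m / 2 ^ k ≤ e J then 2 * (m / 2 ^ k) else 0 :=
      sum_nonneg fun k _ => by split_ifs <;> positivity
    have hp : 0 ≤ m / 2 ^ k0 := by positivity
    have he2 : e J ≤ m / 2 ^ k0 +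
        ∑ k ∈ range (k0 + 1), if m / 2 ^ k ≤ e J then 2 * (m / 2 ^ k) else 0 := by
      rcases dyad (e J) m (he J) (hm J) (k0 + 1) with h | h
      · linarith
      · have : 2 * (m / 2 ^ (k0 + 1)) = m / 2 ^ k0 := by rw [pow_succ]; field_simp
        linarith
    have := mul_le_mul_of_nonneg_left he2 (hw0 J)
    refine this.trans (le_of_eq ?_)
    rw [mul_add, mul_sum, mul_comm (w J)]
    congr 1
    refine sum_congr rfl fun k _ => ?_
    split_ifs <;> ring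
  have h2 : ∑ J, w J * e J ≤ m / 2 ^ k0 * ∑ J, w J + ∑ k ∈ range (k0 + 1), 2 * A k := by
    refine (sum_le_sum fun J _ => h1 J).trans (le_of_eq ?_)
    rw [sum_add_distrib, ← mul_sum, sum_comm]
    congr 1
    refine sum_congr rfl fun k _ => ?_
    simp only [hA]
    rw [sum_filter, mul_sum, mul_sum]
    refine sum_congr rfl fun J _ => ?_
    split_ifs <;> ring
  have h3 : m / 2 ^ k0 * ∑ J, w J ≤ m := by
    have hp : 0 ≤ m / 2 ^ k0 := by positivity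
    refine (mul_le_mul_of_nonneg_left hs hp).trans (le_of_eq ?_)
    field_simp
  have h4 : ∑ k' ∈ range (k0 + 1), 2 * A k' ≤ (k0 + 1) * (2 * A k) := by
    have := sum_le_card_nsmul (range (k0 + 1)) (fun k' => 2 * A k') (2 * A k)
      (fun k' hk' => by have := hkm k' hk'; linarith)
    simpa using this
  change _ ≤ 2 * (k0 + 2) * A k
  nlinarith

theorem nsq_nonneg {κ : Type} [Fintype κ] (V : κ → ℝ) : 0 ≤ nsq V :=
  sum_nonneg fun _ _ => sq_nonneg _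

theorem nsq_le {κ : Type} [Fintype κ] (U V : κ → ℝ) : nsq U ≤ 2 * nsq (V - U) + 2 * nsq V := by
  unfold nsq
  rw [mul_sum, mul_sum, ← sum_add_distrib]
  refine sum_le_sum fun k _ => ?_
  simp only [Pi.sub_apply]
  nlinarith [sq_nonneg (V k - U k + V k)]

theorem nsq_le' {κ : Type} [Fintype κ] (U V W : κ → ℝ) :
    nsq (U - W) ≤ 2 * nsq (V - W) + 2 * nsq (V - U) := by
  unfold nsq
  rw [mul_sum, mul_sum, ← sum_add_distrib]
  refine sum_le_sum fun k _ => ?_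
  simp only [Pi.sub_apply]
  nlinarith [sq_nonneg (V k - W k + (V k - U k))]

theorem sq_le_nsq {κ : Type} [Fintype κ] (V : κ → ℝ) (k : κ) : V k ^ 2 ≤ nsq V :=
  single_le_sum (f := fun k => V k ^ 2) (fun _ _ => sq_nonneg _) (mem_univ k)

theorem nsq_smul {κ : Type} [Fintype κ] (c : ℝ) (V : κ → ℝ) : nsq (c • V) = c ^ 2 * nsq V := by
  unfold nsq
  rw [mul_sum]
  refine sum_congr rfl fun k _ => ?_
  simp only [Pi.smul_apply, smul_eq_mul]
  ring

theorem lin_sub {ι κ : Type} [Fintype κ] (S : ι → κ → ℤ) (U V : κ → ℝ) (i : ι) :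
    lin S (U - V) i = lin S U i - lin S V i := by
  simp only [lin, ip, Pi.sub_apply, mul_sub, sum_sub_distrib]

theorem lin_smul {ι κ : Type} [Fintype κ] (S : ι → κ → ℤ) (c : ℝ) (V : κ → ℝ) (i : ι) :
    lin S (c • V) i = c * lin S V i := by
  simp only [lin, ip, Pi.smul_apply, smul_eq_mul, mul_sum]
  exact sum_congr rfl fun k _ => by ring

theorem grid_le {Cn g t : ℝ} {k0 : ℕ} (hCn : 1 ≤ Cn) (hg : 320 * Cn ^ 2 * 2 ^ k0 ≤ g)
    (htl : 1 / (16 * Cn ^ 2 * 2 ^ k0) ≤ t) : 320 ≤ g ∧ Cn / g ≤ Real.sqrt t / 80 := by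
  have h2k0 : (1 : ℝ) ≤ 2 ^ k0 := one_le_pow₀ (by norm_num)
  have hC2 : 1 ≤ Cn ^ 2 := one_le_pow₀ hCn
  have hg0 : (320 : ℝ) ≤ g := by nlinarith
  refine ⟨hg0, ?_⟩
  have h1 : Cn / g ≤ 1 / (320 * Cn * 2 ^ k0) := by
    rw [div_le_div_iff₀ (by linarith) (by positivity)]
    nlinarith
  have h2 : 1 / (4 * Cn * 2 ^ k0) ≤ Real.sqrt t := by
    apply Real.le_sqrt_of_sq_le
    refine le_trans ?_ htl
    rw [div_pow, one_pow]
    apply one_div_le_one_div_of_le (by positivity)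
    have : (0 : ℝ) ≤ Cn ^ 2 * 2 ^ k0 := by positivity
    nlinarith
  have h3 : 1 / (320 * Cn * 2 ^ k0) = 1 / (4 * Cn * 2 ^ k0) / 80 := by
    field_simp; norm_num
  linarith

theorem far_num {Cn g η a b c : ℝ} (hCn : 1 ≤ Cn) (hg : 0 < g) (hgrid : Cn / g ≤ η / 80)
    (h1 : η ^ 2 ≤ a) (h2 : a ≤ 2 * b + 2 * c) (h3 : c ≤ Cn * (1 / g) ^ 2) : (η / 2) ^ 2 ≤ b := by
  have h4 : Cn * (1 / g) ^ 2 ≤ (Cn / g) ^ 2 := by
    have : (Cn / g) ^ 2 = Cn ^ 2 * (1 / g) ^ 2 := by ring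
    rw [this]
    exact mul_le_mul_of_nonneg_right (by nlinarith) (sq_nonneg _)
  have h5 : (Cn / g) ^ 2 ≤ (η / 80) ^ 2 := pow_le_pow_left₀ (by positivity) hgrid 2
  nlinarith [sq_nonneg η]

theorem pt_num {η p x l m : ℝ} (hη : 0 ≤ η) (h1 : η / 2 / 10 ≤ |p - x|)
    (h2 : |l - m - p| ≤ η / 80) : 9 * η ^ 2 / 6400 ≤ 2 * (x - l) ^ 2 + 2 * m ^ 2 := by
  have h3 : 3 * η / 80 ≤ |x - l + m| := by
    have h4 : p - x = -(x - l + m) - (l - m - p) := by ring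
    have h5 := abs_sub (-(x - l + m)) (l - m - p)
    rw [abs_neg, ← h4] at h5
    linarith
  have h6 : (3 * η / 80) ^ 2 ≤ (x - l + m) ^ 2 := by
    rw [← sq_abs (x - l + m)]
    exact pow_le_pow_left₀ (by positivity) h3 2
  nlinarith [sq_nonneg (x - l - m)]

variable {ι B : Type} [Fintype ι] [DecidableEq ι] [Fintype B] [DecidableEq B] {M : B → ℕ}
  {blk : B → Finset ι} {s : (J : B) → ι → Fin (M J) → ℤ}
  {Γ : (J : B) → AddSubgroup (Fin (M J) → ℝ)} {F Kb Lm Cn Υ : ℝ} {g k0 : ℕ}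

theorem dec (hB : BasicStmt) (hG : GSys blk s Γ F Kb Lm Cn) (Δ : Kt M → ℝ) (SS : Finset B)
    (π : Pat M g) (hπ1 : ∀ x : Kt M, x.1 ∈ SS → |pD π x - Δ x| ≤ 1 / g)
    (hπ2 : ∀ x : Kt M, x.1 ∉ SS → pD π x = 0) (i : ι) :
    |lin (tc s) Δ i - ∑ J ∈ SSᶜ, ip (s J i) (res Δ J) - pw s π i| ≤ Cn / g := by
  obtain ⟨hb1, -, hb3, -⟩ := hB ι B M blk s Γ F Kb Lm Cn hG
  have h1 := hb3 ((fun y => if y.1 ∈ SS then Δ y else 0) - pD π) (1 / g) (by positivity) (fun y => by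
    by_cases hy : y.1 ∈ SS
    · simp only [Pi.sub_apply, if_pos hy]
      rw [abs_sub_comm]
      exact hπ1 y hy
    · simp only [Pi.sub_apply, if_neg hy, hπ2 y hy, sub_self, abs_zero]
      positivity) i
  rw [lin_sub, hb1 (fun y => if y.1 ∈ SS then Δ y else 0)] at h1
  have h2 : ∑ J, ip (s J i) (res (fun y : Kt M => if y.1 ∈ SS then Δ y else 0) J) =
      lin (tc s) Δ i - ∑ J ∈ SSᶜ, ip (s J i) (res Δ J) := by
    rw [hb1 Δ, ← sum_add_sum_compl SS, ← sum_add_sum_compl SS (fun J => ip (s J i) (res Δ J))]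
    have h3 : ∑ J ∈ SSᶜ, ip (s J i) (res (fun y : Kt M => if y.1 ∈ SS then Δ y else 0) J) = 0 :=
      sum_eq_zero fun J hJ => by
        have : J ∉ SS := mem_compl.mp hJ
        simp [ip, res, this]
    rw [h3, add_zero, add_sub_cancel_right]
    refine sum_congr rfl fun J hJ => ?_
    simp [ip, res, hJ]
  rw [h2] at h1
  have h3 : Cn * (1 / g) = Cn / g := by ring
  exact h1.trans h3.le

theorem est (hB : BasicStmt) (hG : GSys blk s Γ F Kb Lm Cn)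
    (hL : 2048000 * (k0 + 2) * F ^ 2 * Kb ≤ Lm) (Δ : Kt M → ℝ) (S : Finset B) (T : Finset ι)
    {t : ℝ} (ht0 : 0 < t) (h1 : ∀ J ∈ S, nsq (res Δ J) ≤ t / (1024000 * F ^ 2 * Kb))
    (h2 : ∑ J ∈ S, ((blk J).card : ℝ) * nsq (res Δ J) ≤ 2 * (k0 + 2) * (t * (F * T.card))) :
    ∑ i ∈ T, (∑ J ∈ S, ip (s J i) (res Δ J)) ^ 2 ≤ t * T.card / 512000 := by
  have hF := hG.one_le_F
  have hKb := hG.one_le_Kb
  have hLm := hG.one_le_Lm
  have h0 := (hB ι B M blk s Γ F Kb Lm Cn hG).2.2.2.2.2 Δ S T _ (by positivity) h1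
  have h3 : F * Kb / Lm ≤ 1 / (2048000 * (k0 + 2) * F) := by
    rw [div_le_div_iff₀ (by linarith) (by positivity)]
    linarith
  have h4 : F * Kb / Lm * ∑ J ∈ S, ((blk J).card : ℝ) * nsq (res Δ J) ≤
      1 / (2048000 * (k0 + 2) * F) * (2 * (k0 + 2) * (t * (F * T.card))) :=
    mul_le_mul h3 h2
      (sum_nonneg fun J _ => mul_nonneg (Nat.cast_nonneg _) (nsq_nonneg _)) (by positivity)
  have h5 : 1 / (2048000 * (k0 + 2) * F) * (2 * (k0 + 2) * (t * (F * T.card))) =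
      t * T.card / 1024000 := by field_simp; ring
  have h6 : F ^ 2 * Kb * (t / (1024000 * F ^ 2 * Kb)) * T.card = t * T.card / 1024000 := by
    field_simp
  linarith

theorem core (hP : PatStmt) (hB : BasicStmt) (hG : GSys blk s Γ F Kb Lm Cn)
    (hC : C1 blk s Γ g Υ) (hU : 2048000 * (k0 + 2) * F ^ 3 * Kb ≤ Υ)
    (hL : 2048000 * (k0 + 2) * F ^ 2 * Kb ≤ Lm) (Δ : Kt M → ℝ) (hR : ∀ J, Red (Γ J) (res Δ J))
    {η : ℝ} (hη0 : 0 < η) (hη1 : η ≤ 1 / 2) (hg0 : (320 : ℝ) ≤ g) (hgrid : Cn / g ≤ η / 80)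
    (JJ : Finset B) (hJJ : ∀ J ∈ JJ, η ^ 2 ≤ min (1 / 4) (nsq (res Δ J)))
    (hS1 : ∑ J, ((blk J).card : ℝ) * min (1 / 4) (nsq (res Δ J)) ≤
      2 * (k0 + 2) * (η ^ 2 * (F * (zone blk JJ).card))) (x : ι → ℤ) :
    η ^ 2 * (zone blk JJ).card / 128000 ≤ ∑ i, ((x i : ℝ) - lin (tc s) Δ i) ^ 2 := by
  obtain ⟨-, hp2, -⟩ := hP B M g
  have hF := hG.one_le_F
  have hKb := hG.one_le_Kb
  have hCn := hG.one_le_Cn
  have he0 : ∀ J, 0 ≤ min (1 / 4) (nsq (res Δ J)) := fun J => le_min (by norm_num) (nsq_nonneg _)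
  have hZ0 : (0 : ℝ) ≤ (zone blk JJ).card := Nat.cast_nonneg _
  have ht0 : 0 < η ^ 2 := by positivity
  have ht4 : η ^ 2 ≤ (1 / 2) ^ 2 := pow_le_pow_left₀ hη0.le hη1 2
  obtain ⟨θ, hθ⟩ : ∃ θ, θ = η ^ 2 / (1024000 * F ^ 2 * Kb) := ⟨_, rfl⟩
  have hFK : 1 ≤ 1024000 * F ^ 2 * Kb :=
    one_le_mul_of_one_le_of_one_le
      (one_le_mul_of_one_le_of_one_le (by norm_num) (one_le_pow₀ hF)) hKb
  have hθ0 : 0 < θ := by rw [hθ]; positivity
  have hθt : θ ≤ η ^ 2 := by rw [hθ]; exact div_le_self ht0.le hFK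
  obtain ⟨SS, hSS⟩ : ∃ SS : Finset B, ∀ J, J ∈ SS ↔ θ ≤ min (1 / 4) (nsq (res Δ J)) :=
    ⟨univ.filter fun J => θ ≤ min (1 / 4) (nsq (res Δ J)), fun J => by
      simp only [mem_filter, mem_univ, true_and]⟩
  have hsub : JJ ⊆ SS := fun J hJ => (hSS J).mpr (hθt.trans (hJJ J hJ))
  have hwS : wsz blk SS ≤ Υ * (zone blk JJ).card := by
    have h1 : θ * wsz blk SS ≤ ∑ J, ((blk J).card : ℝ) * min (1 / 4) (nsq (res Δ J)) := by
      unfold wsz
      rw [mul_sum]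
      refine le_trans (sum_le_sum fun J hJ => ?_)
        (sum_le_univ_sum_of_nonneg fun J => mul_nonneg (Nat.cast_nonneg _) (he0 J))
      rw [mul_comm]
      exact mul_le_mul_of_nonneg_left ((hSS J).mp hJ) (Nat.cast_nonneg _)
    have h2 : 2 * (k0 + 2) * (η ^ 2 * (F * (zone blk JJ).card)) =
        θ * (2048000 * (k0 + 2) * F ^ 3 * Kb * (zone blk JJ).card) := by
      rw [hθ]; field_simp; ring
    exact (le_of_mul_le_mul_left (h1.trans (hS1.trans h2.le)) hθ0).trans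
      (mul_le_mul_of_nonneg_right hU hZ0)
  have hg1 : 1 ≤ g := by
    have : (1 : ℝ) ≤ g := by linarith
    exact_mod_cast this
  have hΔ : ∀ y, |Δ y| ≤ 1 := fun y => ((hR y.1).1 y.2).trans (by norm_num)
  obtain ⟨π, hπS, hπJ, hπ1, hπ2⟩ := hp2 Δ SS JJ hg1 hΔ hsub
  have hfar : ∀ J ∈ pJ π, ∀ γ ∈ Γ J, (η / 2) ^ 2 ≤ nsq (res (pD π) J - γ) := by
    intro J hJ γ hγ
    rw [hπJ] at hJ
    refine far_num hCn (by linarith) hgrid ((hJJ J hJ).trans ((hR J).2 γ hγ))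
      (nsq_le' (res Δ J) (res (pD π) J) γ) ?_
    have := sum_le_card_nsmul univ (fun k => (res (pD π) J - res Δ J) k ^ 2) ((1 / g : ℝ) ^ 2)
      (fun k _ => by
        have := hπ1 ⟨J, k⟩ (hsub hJ)
        exact sq_le_sq' (abs_le.mp this).1 (abs_le.mp this).2)
    rw [card_univ, Fintype.card_fin, nsmul_eq_mul] at this
    exact this.trans (mul_le_mul_of_nonneg_right (hG.dim_le J) (sq_nonneg _))
  have hc1 := hC π (η / 2) (by positivity) (by linarith) (by rw [hπS, hπJ]; exact hwS) hfar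
  rw [hπJ] at hc1
  have hsmall : ∀ J ∈ SSᶜ, nsq (res Δ J) ≤ min (1 / 4) (nsq (res Δ J)) ∧
      min (1 / 4) (nsq (res Δ J)) ≤ θ := by
    intro J hJ
    have h1 := not_le.mp (mt (hSS J).mpr (mem_compl.mp hJ))
    refine ⟨?_, h1.le⟩
    rcases min_cases (1 / 4 : ℝ) (nsq (res Δ J)) with h | h
    · exfalso
      linarith [h.1]
    · exact h.1.ge
  have hest := est hB hG hL Δ SSᶜ (zone blk JJ) ht0
    (fun J hJ => hθ ▸ (hsmall J hJ).1.trans (hsmall J hJ).2)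
    (le_trans (le_trans (sum_le_sum fun J hJ =>
        mul_le_mul_of_nonneg_left (hsmall J hJ).1 (Nat.cast_nonneg _))
      (sum_le_univ_sum_of_nonneg fun J => mul_nonneg (Nat.cast_nonneg _) (he0 J))) hS1)
  have h1 := card_nsmul_le_sum ((zone blk JJ).filter fun i => η / 2 / 10 ≤ nd (pw s π i)) _ _
    fun i hi => pt_num hη0.le ((mem_filter.mp hi).2.trans (round_le _ (x i)))
      ((dec hB hG Δ SS π hπ1 hπ2 i).trans hgrid)
  rw [nsmul_eq_mul, sum_add_distrib, ← mul_sum, ← mul_sum] at h1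
  have h2 := sum_le_univ_sum_of_nonneg
    (s := (zone blk JJ).filter fun i => η / 2 / 10 ≤ nd (pw s π i))
    fun i => sq_nonneg ((x i : ℝ) - lin (tc s) Δ i)
  have h3 := sum_le_sum_of_subset_of_nonneg
    (filter_subset (fun i => η / 2 / 10 ≤ nd (pw s π i)) (zone blk JJ))
    fun i _ _ => sq_nonneg (∑ J ∈ SSᶜ, ip (s J i) (res Δ J))
  have h7 := mul_le_mul_of_nonneg_right hc1 (by positivity : 0 ≤ 9 * η ^ 2 / 6400)
  have h8 := mul_nonneg ht0.le hZ0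
  linarith

theorem main (hP : PatStmt) (hB : BasicStmt) (hG : GSys blk s Γ F Kb Lm Cn)
    (hC : C1 blk s Γ g Υ) (hk : F * cd ι ≤ 2 ^ k0) (hU : 2048000 * (k0 + 2) * F ^ 3 * Kb ≤ Υ)
    (hL : 2048000 * (k0 + 2) * F ^ 2 * Kb ≤ Lm) (hg : 320 * Cn ^ 2 * 2 ^ k0 ≤ g)
    (Δ : Kt M → ℝ) (hR : ∀ J, Red (Γ J) (res Δ J)) (J0 : B)
    (hm : ∀ J, min (1 / 4) (nsq (res Δ J)) ≤ min (1 / 4) (nsq (res Δ J0)))
    (hlow : 1 / (16 * Cn ^ 2) ≤ min (1 / 4) (nsq (res Δ J0))) (x : ι → ℤ) :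
    1 / (256000 * (k0 + 2) * F) * ∑ J, ((blk J).card : ℝ) * min (1 / 4) (nsq (res Δ J)) ≤
      ∑ i, ((x i : ℝ) - lin (tc s) Δ i) ^ 2 := by
  obtain ⟨-, -, -, hb4, -⟩ := hB ι B M blk s Γ F Kb Lm Cn hG
  have hF := hG.one_le_F
  have hCn := hG.one_le_Cn
  have he0 : ∀ J, 0 ≤ min (1 / 4) (nsq (res Δ J)) := fun J => le_min (by norm_num) (nsq_nonneg _)
  have hw : ∀ J, (1 : ℝ) ≤ (blk J).card := fun J => by
    exact_mod_cast (hG.ne J).card_pos
  have hs : ∑ J, ((blk J).card : ℝ) ≤ 2 ^ k0 := by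
    refine le_trans ?_ hk
    refine (hb4 univ).1.trans (mul_le_mul_of_nonneg_left ?_ (by linarith))
    unfold cd
    exact_mod_cast card_le_univ _
  obtain ⟨k, hkk, hbest⟩ := best (fun J => ((blk J).card : ℝ))
    (fun J => min (1 / 4) (nsq (res Δ J))) J0 k0 hw he0 hm hs
  have h2k : (1 : ℝ) ≤ 2 ^ k := one_le_pow₀ (by norm_num)
  have hkk0 : (2 : ℝ) ^ k ≤ 2 ^ k0 := pow_le_pow_right₀ (by norm_num) hkk
  have hm0 : 0 < min (1 / 4) (nsq (res Δ J0)) := lt_of_lt_of_le (by positivity) hlow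
  have ht0 : 0 < min (1 / 4) (nsq (res Δ J0)) / 2 ^ k := by positivity
  have ht4 : min (1 / 4) (nsq (res Δ J0)) / 2 ^ k ≤ 1 / 4 :=
    (div_le_self hm0.le h2k).trans (min_le_left _ _)
  have htl : 1 / (16 * Cn ^ 2 * 2 ^ k0) ≤ min (1 / 4) (nsq (res Δ J0)) / 2 ^ k := by
    rw [← div_div]
    exact div_le_div₀ hm0.le hlow (by positivity) hkk0
  generalize min (1 / 4) (nsq (res Δ J0)) / 2 ^ k = t at hbest ht0 ht4 htl
  obtain ⟨hg0, hgrid⟩ := grid_le hCn hg htl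
  have hη2 : Real.sqrt t ^ 2 = t := Real.sq_sqrt ht0.le
  have hη1 : Real.sqrt t ≤ 1 / 2 := Real.sqrt_le_iff.mpr ⟨by norm_num, by linarith⟩
  have hS1 := hbest.trans (mul_le_mul_of_nonneg_left
    (mul_le_mul_of_nonneg_left (hb4 _).1 ht0.le) (by positivity))
  have hc := core hP hB hG hC hU hL Δ hR (Real.sqrt_pos.mpr ht0) hη1 hg0 hgrid
    (univ.filter fun J => t ≤ min (1 / 4) (nsq (res Δ J)))
    (fun J hJ => by rw [hη2]; exact (mem_filter.mp hJ).2) (by rw [hη2]; exact hS1) x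
  rw [hη2] at hc
  refine le_trans ((mul_le_mul_of_nonneg_left hS1 (by positivity)).trans (le_of_eq ?_)) hc
  field_simp; ring

end Gamma

theorem gamma_proof (hP : PatStmt) (hB : BasicStmt) : GammaStmt := by
  intro ι B _ _ _ _ M blk s Γ F Kb Lm Cn Υ g k0 hG hC hk hU hL hg Δ hR x
  rcases isEmpty_or_nonempty B with hE | hE
  · simp only [univ_eq_empty, sum_empty, mul_zero]
    exact sum_nonneg fun _ _ => sq_nonneg _
  obtain ⟨J0, -, hm⟩ :=
    exists_max_image univ (fun J => min (1 / 4) (nsq (res Δ J))) univ_nonempty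
  have hm' := fun J => hm J (mem_univ J)
  by_cases hlow : 1 / (16 * Cn ^ 2) ≤ min (1 / 4) (nsq (res Δ J0))
  · exact Gamma.main hP hB hG hC hk hU hL hg Δ hR J0 hm' hlow x
  have hCn := hG.one_le_Cn
  have hF := hG.one_le_F
  have hC2 : 1 ≤ Cn ^ 2 := one_le_pow₀ hCn
  have h16 : 1 / (16 * Cn ^ 2) ≤ 1 / 16 := one_div_le_one_div_of_le (by norm_num) (by linarith)
  have hmin : ∀ J, min (1 / 4) (nsq (res Δ J)) = nsq (res Δ J) := by
    intro J
    rcases min_cases (1 / 4 : ℝ) (nsq (res Δ J)) with h | h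
    · exfalso
      have := hm' J
      rw [h.1] at this
      linarith [not_le.mp hlow]
    · exact h.1
  simp only [hmin] at hm' hlow ⊢
  rcases (Gamma.nsq_nonneg (res Δ J0)).eq_or_lt with h0 | h0
  · have : ∑ J, ((blk J).card : ℝ) * nsq (res Δ J) = 0 := sum_eq_zero fun J _ => by
      rw [le_antisymm ((hm' J).trans h0.ge) (Gamma.nsq_nonneg _), mul_zero]
    rw [this, mul_zero]
    exact sum_nonneg fun _ _ => sq_nonneg _
  set c := Real.sqrt (1 / (16 * Cn ^ 2) / nsq (res Δ J0)) with hc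
  have hc2 : c ^ 2 = 1 / (16 * Cn ^ 2) / nsq (res Δ J0) := Real.sq_sqrt (by positivity)
  have hc0 : 0 < c ^ 2 := by rw [hc2]; positivity
  have hres : ∀ J, nsq (res (c • Δ) J) = c ^ 2 * nsq (res Δ J) := fun J =>
    Gamma.nsq_smul c (res Δ J)
  have hJ0 : nsq (res (c • Δ) J0) = 1 / (16 * Cn ^ 2) := by
    rw [hres, hc2]; field_simp
  have hle : ∀ J, nsq (res (c • Δ) J) ≤ nsq (res (c • Δ) J0) := fun J => by
    rw [hres, hres]
    exact mul_le_mul_of_nonneg_left (hm' J) hc0.le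
  have hmin' : ∀ J, min (1 / 4) (nsq (res (c • Δ) J)) = nsq (res (c • Δ) J) := fun J =>
    min_eq_right (by linarith [hle J])
  have hR' : ∀ J, Red (Γ J) (res (c • Δ) J) := by
    intro J
    refine ⟨fun k => ?_, fun γ hγ => ?_⟩
    · have := Gamma.sq_le_nsq (res (c • Δ) J) k
      apply abs_le_of_sq_le_sq' _ (by norm_num) |> abs_le.mpr
      linarith [hle J]
    · by_cases h : γ = 0
      · rw [h, sub_zero]; exact min_le_right _ _
      · have h1 := hG.min J γ hγ h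
        have h2 := Gamma.nsq_le γ (res (c • Δ) J)
        refine (min_le_left _ _).trans ?_
        linarith [hle J]
  have hmain := Gamma.main hP hB hG hC hk hU hL hg (c • Δ) hR' J0
    (fun J => by rw [hmin', hmin']; exact hle J) (by rw [hmin', hJ0]) 0
  simp only [hmin'] at hmain
  simp only [hres, Gamma.lin_smul, Pi.zero_apply, Int.cast_zero, zero_sub, neg_sq,
    mul_pow] at hmain
  have h1 : ∑ J, ((blk J).card : ℝ) * (c ^ 2 * nsq (res Δ J)) =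
      c ^ 2 * ∑ J, ((blk J).card : ℝ) * nsq (res Δ J) := by
    rw [mul_sum]; exact sum_congr rfl fun J _ => by ring
  rw [h1, ← mul_sum, mul_left_comm] at hmain
  refine (le_of_mul_le_mul_left hmain hc0).trans (sum_le_sum fun i _ => ?_)
  have h2 : |lin (tc s) Δ i| ≤ Cn * (1 / (4 * Cn)) := by
    refine (hB ι B M blk s Γ F Kb Lm Cn hG).2.2.1 Δ _ (by positivity) (fun y => ?_) i
    have h3 := Gamma.sq_le_nsq (res Δ y.1) y.2
    have h4 : (1 / (4 * Cn)) ^ 2 = 1 / (16 * Cn ^ 2) := by field_simp; norm_num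
    apply abs_le_of_sq_le_sq' _ (by positivity) |> abs_le.mpr
    change res Δ y.1 y.2 ^ 2 ≤ _
    linarith [hm' y.1, not_le.mp hlow]
  have h5 : Cn * (1 / (4 * Cn)) = 1 / 4 := by field_simp
  rw [h5, abs_le] at h2
  rcases lt_trichotomy (x i) 0 with h | h | h
  · have : (x i : ℝ) ≤ -1 := by exact_mod_cast Int.le_sub_one_of_lt h
    nlinarith
  · simp [h]
  · have : (1 : ℝ) ≤ x i := by exact_mod_cast h
    nlinarith

end Vale.Agent.P318.B
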