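import Vale.Agent.P318.B.Stmt
import Vale.Agent.P318.M.Bit
import Vale.Agent.P318.M.Block0
import Vale.Agent.P318.M.Deriv
import Vale.Agent.P318.M.Ramp

/-!
The geometry with all parameters expressed by `X`.
-/

namespace Vale.Agent.P318.B

open Finset MeasureTheory Vale.Agent.P318.M Vale.Agent.P318.M.Block

namespace GeoNum

theorem pwx {x : ℝ} (h0 : 0 < x) (h1 : 10 ^ 7 * x ≤ 1) (c : ℝ) {a b : ℕ} (hc : c ≤ 10 ^ 7)
    (hab : b < a) : c * x ^ a ≤ x ^ b := by
  obtain ⟨a, rfl⟩ : ∃ a', a = a' + 1 := ⟨a - 1, by omega⟩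
  have e := pow_le_pow_of_le_one h0.le (by linarith : x ≤ 1) (Nat.le_of_lt_succ hab)
  have p := pow_pos h0 a
  calc c * x ^ (a + 1) = c * x * x ^ a := by ring
    _ ≤ 1 * x ^ a := mul_le_mul_of_nonneg_right (by nlinarith) p.le
    _ ≤ _ := by linarith

theorem mono {ι κ : Type} [Fintype ι] [DecidableEq ι] [Fintype κ] {ω D1 D2 D2' : ℝ}
    {Γ : AddSubgroup (κ → ℝ)} {s : ι → κ → ℤ} {c : ι → ℝ} {dd : (ι → ℤ) → (ι → ℤ) → ℝ}
    (h0 : 0 < ω) (h8 : ω ≤ 1 / 8) (h : MetricAt ω D1 D2 Γ s c dd) (e : D2' ≤ D2) :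
    MetricAt ω D1 D2' Γ s c dd := by
  refine ⟨h.cnd, h.tri, h.inv, h.bdd, h.edge, fun x' => le_trans ?_ (h.spread x')⟩
  have R := ramp_proof.2 ω h0 h8
  have b : ∀ P : (ι → ℤ) → Prop, BM fun β => Ey ω (fun x => ind (P x)) (c + lin s β) := fun P => by
    obtain ⟨⟨a, b⟩, -⟩ := deriv_proof ramp_proof bit_proof ι ω (fun x => ind (P x)) h0 h8
      fun x => by simp only [ind]; split_ifs <;> norm_num
    exact bm_comp (bm_of_mem a (fun y => (b y).1) fun y => (b y).2)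
      (measurable_const.add (measurable_pi_lambda _ fun j => meas_ip (s j)))
  refine tm_mono (b _) (b _) fun β => Deriv.eb_mono
    (bit_proof ι _ fun i => ⟨R.pr_nonneg _, R.pr_le _⟩).1 fun b => ?_
  simp only [ind]
  split_ifs with h1 h2
  exacts [le_rfl, absurd (h1.trans_le e) h2, zero_le_one, le_rfl]

theorem alpha {K : ℝ} (h : 0 ≤ K) : (2 + K) ^ (1 / (1 + K)) ≤ 2 := by
  have e : 2 + K ≤ 2 ^ (1 + K) := by
    rw [Real.rpow_add two_pos, Real.rpow_one, Real.rpow_def_of_pos two_pos]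
    nlinarith [Real.add_one_le_exp (Real.log 2 * K), Real.log_two_gt_d9]
  refine (Real.rpow_le_rpow (by positivity) e (by positivity)).trans_eq ?_
  rw [← Real.rpow_mul zero_le_two, mul_one_div_cancel (by positivity), Real.rpow_one]

theorem snow {N K : ℝ} (hN : 51200 ≤ N) (h : 0 ≤ K) (e : K * Real.log N ≤ 1) :
    N / 200000 ≤ (N / 51200) ^ (1 / (1 + K)) := by
  have p : 0 < N / 51200 := by positivity
  have l0 : 0 ≤ Real.log (N / 51200) := Real.log_nonneg (by rw [le_div_iff₀ (by norm_num)]; linarith)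
  have l1 : Real.log (N / 51200) ≤ Real.log N := Real.log_le_log p (by linarith)
  have a : Real.log (N / 51200) - 1 ≤ Real.log (N / 51200) * (1 / (1 + K)) := by
    rw [mul_one_div, le_div_iff₀ (by positivity)]
    nlinarith [mul_le_mul_of_nonneg_left l1 h]
  rw [Real.rpow_def_of_pos p]
  refine le_trans ?_ (Real.exp_le_exp.2 a)
  rw [Real.exp_sub, Real.exp_log p, le_div_iff₀ (Real.exp_pos 1)]
  nlinarith [Real.exp_one_lt_d9]

variable {X N x : ℝ}

theorem up (hX : 10 ^ 7 ≤ X) (c : ℝ) {a b : ℕ} (hc : c ≤ 10 ^ 7) (hab : a < b) :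
    c * X ^ a ≤ X ^ b :=
  (mul_le_mul_of_nonneg_right (hc.trans hX) (pow_nonneg (by linarith) _)).trans (by
    rw [← pow_succ']
    exact pow_le_pow_right₀ (by linarith) hab)

theorem le_N (hX : 10 ^ 7 ≤ X) (hN : X ^ 100 ≤ N) : X ≤ N :=
  le_trans (by simpa using pow_le_pow_right₀ (by linarith : 1 ≤ X) (by norm_num : 1 ≤ 100)) hN

theorem ex_k (hX : 10 ^ 7 ≤ X) (hl : 20 * Real.log N ≤ X) (hN : X ^ 100 ≤ N) :
    ∃ k : ℕ, X ^ 2 * N ≤ 2 ^ k ∧ 320 * (N ^ 2) ^ 2 * 2 ^ k ≤ N ^ 8 ∧ (k : ℝ) + 2 ≤ X := by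
  have NX := le_N hX hN
  have N0 : 0 < N := by linarith
  obtain ⟨k, k1, k2⟩ := exists_nat_pow_near (x := X ^ 2 * N) (y := 2)
    (one_le_mul_of_one_le_of_one_le (one_le_pow₀ (by linarith)) (by linarith)) one_lt_two
  have k3 : (2 : ℝ) ^ (k + 1) ≤ N ^ 2 := by
    have := mul_le_mul_of_nonneg_right
      ((up hX 2 (by norm_num) (by norm_num : 2 < 100)).trans hN) N0.le
    rw [pow_succ]
    nlinarith
  refine ⟨k + 1, k2.le, ?_, ?_⟩
  · have : 320 * 1 ≤ N * N := mul_le_mul (by linarith) (by linarith) zero_le_one N0.le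
    calc _ ≤ N * N * (N ^ 2) ^ 2 * N ^ 2 := by gcongr; linarith
      _ = _ := by ring
  · have := Real.log_le_log (by positivity) k3
    rw [Real.log_pow, Real.log_pow] at this
    have h2 := mul_le_mul_of_nonneg_left Real.log_two_gt_d9.le (Nat.cast_nonneg (α := ℝ) (k + 1))
    push_cast at this h2 ⊢
    linarith

theorem pars (hX : 10 ^ 7 ≤ X) (hN : X ^ 100 ≤ N) (hx : x = X⁻¹) {g : ℕ} (eg : (g : ℝ) = N ^ 8) :
    APar (X ^ 2) X (X ^ 57) (N ^ 2) (x ^ 4) (x ^ 13 + x ^ 13) (X ^ 36) (x ^ 16) (x ^ 9)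
      (2 * x ^ 13 + 2 * x ^ 13 + x ^ 9) (x ^ 9) (x ^ 8) g ∧
    TPar (X ^ 2) X (X ^ 57) (N ^ 2) (x ^ 4) (x ^ 13 + x ^ 13)
      (x ^ 13 + 2 * x ^ 13 + 3 * x ^ 13) (x ^ 8) x g := by
  have X0 : 0 < X := by linarith
  have N1 : 1 ≤ N := by linarith [le_N hX hN]
  have x0 : 0 < x := hx ▸ inv_pos.2 X0
  have xX : x * X = 1 := hx ▸ inv_mul_cancel₀ X0.ne'
  have x1 : 10 ^ 7 * x ≤ 1 := by nlinarith
  have P := fun (c : ℝ) (a b : ℕ) => pwx x0 x1 c (a := a) (b := b)
  have q1 : X ^ 2 * X / (X ^ 57 * x ^ 4) = x ^ 50 := by rw [hx]; field_simp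
  have q2 : N ^ 2 / (g : ℝ) ≤ x ^ 100 := by
    rw [eg, hx, inv_pow, ← one_div, div_le_div_iff₀ (by positivity) (by positivity)]
    calc _ ≤ N ^ 2 * N := by gcongr
      _ ≤ _ := by rw [one_mul, ← pow_succ]; exact pow_le_pow_right₀ N1 (by norm_num)
  exact ⟨{
      g_pos := by exact_mod_cast eg ▸ one_le_pow₀ N1
      gam_pos := by positivity
      tau_nonneg := by positivity
      th_pos := by positivity
      th_le := by linarith [P 1 16 8 (by norm_num) (by norm_num)]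
      eta_le := by linarith [P 2 8 0 (by norm_num) (by norm_num)]
      ups := le_of_eq (by rw [hx]; field_simp)
      th1_pos := by positivity
      th1_le := by linarith [P 4 9 0 (by norm_num) (by norm_num)]
      grid1 := by linarith [P 2 100 9 (by norm_num) (by norm_num)]
      grid2 := by linarith [P 2 100 8 (by norm_num) (by norm_num)]
      th2_le := by
        linarith [P 320 13 8 (by norm_num) (by norm_num), P 80 9 8 (by norm_num) (by norm_num)]
      d3_le := by linarith [P 3200 9 8 (by norm_num) (by norm_num)]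
      eps1 := by linarith [P 1 50 18 (by norm_num) (by norm_num)]
      small := by
        rw [show 51200 * (X ^ 2) ^ 2 * X * (x ^ 16) ^ 2 = 51200 * x ^ 27 by rw [hx]; field_simp]
        linarith [P 51200 27 26 (by norm_num) (by norm_num)] }, {
      d_pos := x0
      d_le := by linarith
      eps1 := by linarith [P 1 50 2 (by norm_num) (by norm_num)]
      eta := by
        rw [show 102400 * (X ^ 2) ^ 2 * X * x ^ 8 = 102400 * x ^ 3 by rw [hx]; field_simp]
        exact P 102400 3 2 (by norm_num) (by norm_num)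
      tau := by linarith [P 4 13 1 (by norm_num) (by norm_num)]
      d1_nonneg := by positivity
      d1 := by
        rw [show (x ^ 13 + 2 * x ^ 13 + 3 * x ^ 13) * X ^ 2 = 6 * x ^ 11 by
          rw [hx]; field_simp; norm_num]
        linarith [P 1228800 11 9 (by norm_num) (by norm_num),
          P 204800 100 9 (by norm_num) (by norm_num), pow_pos x0 9] }⟩

theorem pow_le_exp (hl : 20 * Real.log N ≤ X) (N0 : 0 < N) (k : ℕ) :
    N ^ k ≤ Real.exp (k * X / 20) := by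
  rw [← Real.exp_log (pow_pos N0 k), Real.log_pow]
  exact Real.exp_le_exp.2 (by nlinarith [Nat.cast_nonneg (α := ℝ) k])

theorem term (hX : 10 ^ 7 ≤ X) (hl : 20 * Real.log N ≤ X) (hN : X ^ 100 ≤ N) (hx : x = X⁻¹)
    {m : ℕ} {n : ℝ} (hm : X ≤ m) (hn : X ^ 57 * m ≤ n) :
    2 * (2 * N ^ 8 + 1) ^ m * Real.exp (-(x ^ 55 * n)) ≤ 2 * Real.exp (-X ^ 2) := by
  have X0 : 0 < X := by linarith
  have NX := le_N hX hN
  have N0 : 0 < N := by linarith
  have a : 2 * N ^ 8 + 1 ≤ Real.exp X := by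
    have := mul_le_mul_of_nonneg_left (show 3 ≤ N by linarith) (pow_pos N0 8).le
    exact le_trans (by linarith [one_le_pow₀ (n := 8) (show 1 ≤ N by linarith), pow_succ N 8])
      ((pow_le_exp hl N0 9).trans (Real.exp_le_exp.2 (by push_cast; linarith)))
  have b := mul_le_mul_of_nonneg_left hn (pow_pos (hx ▸ inv_pos.2 X0 : 0 < x) 55).le
  rw [show x ^ 55 * (X ^ 57 * (m : ℝ)) = X ^ 2 * m by rw [hx]; field_simp] at b
  rw [mul_assoc]
  refine mul_le_mul_of_nonneg_left ((mul_le_mul_of_nonneg_right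
    (pow_le_pow_left₀ (by positivity) a _) (Real.exp_pos _).le).trans ?_) zero_le_two
  rw [← Real.exp_nat_mul, ← Real.exp_add]
  refine Real.exp_le_exp.2 ?_
  have := mul_le_mul hm (show X ≤ X ^ 2 - X by nlinarith) X0.le (X0.le.trans hm)
  nlinarith

theorem prob (hX : 10 ^ 7 ≤ X) (hl : 20 * Real.log N ≤ X) (hN : X ^ 100 ≤ N) (hx : x = X⁻¹)
    {S : ℝ} (sm : S ≤ N ^ 2 * (2 * Real.exp (-X ^ 2))) :
    2 * N * Real.exp (1 - x ^ 13 / (2 * Real.sqrt ((x ^ 25) ^ 2))) + 2 * (Real.exp S - 1) ≤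
      (x ^ 13 / (16 * N)) ^ 2 := by
  have X0 : 0 < X := by linarith
  have X1 : 1 ≤ X := by linarith
  have N1 : 1 ≤ N := X1.trans (le_N hX hN)
  have N0 : 0 < N := by linarith
  have x0 : 0 < x := hx ▸ inv_pos.2 X0
  have ex : 2560 * N ^ 4 * X ^ 26 * Real.exp (-X ^ 2) ≤ 1 := by
    rw [Real.exp_neg, mul_inv_le_iff₀ (Real.exp_pos _), one_mul]
    calc _ = 2560 * X ^ 26 * N ^ 4 := by ring
      _ ≤ N * N ^ 4 := by gcongr; exact (up hX 2560 (by norm_num) (by norm_num)).trans hN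
      _ ≤ _ := by
        rw [← pow_succ']
        exact (pow_le_exp hl N0 5).trans (Real.exp_le_exp.2 (by push_cast; nlinarith))
  have E0 := Real.exp_pos (-X ^ 2)
  have NN : N ^ 2 * 1 ≤ N ^ 4 * X ^ 26 :=
    mul_le_mul (pow_le_pow_right₀ N1 (by norm_num)) (one_le_pow₀ X1) zero_le_one (by positivity)
  have s1 : N ^ 2 * (2 * Real.exp (-X ^ 2)) ≤ 1 := by
    linarith [mul_le_mul_of_nonneg_right NN E0.le, mul_pos (pow_pos N0 2) E0]
  have s0 : 0 ≤ N ^ 2 * (2 * Real.exp (-X ^ 2)) := by positivity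
  have s2 := (le_abs_self _).trans (Real.abs_exp_sub_one_le ((abs_of_nonneg s0).trans_le s1))
  rw [abs_of_nonneg s0] at s2
  have s3 : Real.exp (1 - x ^ 13 / (2 * Real.sqrt ((x ^ 25) ^ 2))) ≤ Real.exp (-X ^ 2) := by
    rw [Real.sqrt_sq (by positivity), show x ^ 13 / (2 * x ^ 25) = X ^ 12 / 2 by
      rw [hx]; field_simp]
    exact Real.exp_le_exp.2 (by
      linarith [up hX 4 (by norm_num) (by norm_num : 2 < 12), one_le_pow₀ (n := 2) X1])
  have a := Real.exp_le_exp.2 sm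
  have b := mul_le_mul_of_nonneg_left s3 (show 0 ≤ 2 * N by positivity)
  have c := mul_le_mul_of_nonneg_right (show N ≤ N ^ 2 by nlinarith) E0.le
  rw [show (x ^ 13 / (16 * N)) ^ 2 = 1 / (256 * N ^ 2 * X ^ 26) by
    rw [hx]; field_simp; norm_num, le_div_iff₀ (by positivity)]
  exact le_trans (mul_le_mul_of_nonneg_right (show _ ≤ 10 * N ^ 2 * Real.exp (-X ^ 2) by
    linarith) (by positivity)) (le_trans (le_of_eq (by ring)) ex)

end GeoNum

open GeoNum

theorem geoNum_proof (hG : GammaStmt) (hPr : ProjStmt) (hT : TriBStmt) (hTy : TypStmt)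
    (hM : MetricBStmt) : GeoNumStmt := by
  intro ι B _ _ _ _ M blk s Γ X hX hl hN gs c1 hB hMX un
  have eg : ((Fintype.card ι ^ 8 : ℕ) : ℝ) = cd ι ^ 8 := Nat.cast_pow _ _
  have X0 : 0 < X := by linarith
  have NX := le_N hX hN
  have N0 : 0 < cd ι := by linarith
  obtain ⟨k, k1, k2, k4⟩ := ex_k hX hl hN
  have k5 := fun a : ℕ => mul_le_mul_of_nonneg_right k4 (pow_pos X0 a).le
  have gam := hG ι B M blk s Γ _ _ _ _ _ _ k gs c1 k1
    (by linarith [k5 7, up hX 2048000 (by norm_num) (by norm_num : 8 < 36)])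
    (by linarith [k5 5, up hX 2048000 (by norm_num) (by norm_num : 6 < 57)]) (eg ▸ k2)
  obtain ⟨x, hx⟩ : ∃ x, x = X⁻¹ := ⟨_, rfl⟩
  have x0 : 0 < x := hx ▸ inv_pos.2 X0
  have xX : x * X = 1 := hx ▸ inv_mul_cancel₀ X0.ne'
  have x1 : 10 ^ 7 * x ≤ 1 := by nlinarith
  have P := fun (c : ℝ) (a b : ℕ) => pwx x0 x1 c (a := a) (b := b)
  have gam' : Gam blk s Γ (x ^ 4) := fun Δ hΔ z => by
    refine le_trans (mul_le_mul_of_nonneg_right ?_ (sum_nonneg fun J _ => mul_nonneg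
      (Nat.cast_nonneg _) (le_min (by norm_num) (sum_nonneg fun _ _ => sq_nonneg _))))
      (gam Δ hΔ z)
    rw [hx, inv_pow, ← one_div]
    exact one_div_le_one_div_of_le (by positivity)
      (by linarith [k5 2, up hX 256000 (by norm_num) (by norm_num : 3 < 4)])
  obtain ⟨⟨Sp, hSp⟩, -⟩ := hPr.1 ι (Kt M) (tc s)
  have pm : ∀ i, ∑ j, lin (tc s) (Sp (Pi.single j 1)) i ^ 2 ≤ (x ^ 25) ^ 2 := fun i =>
    (hPr.2 ι B M blk s Γ _ _ _ _ _ Sp gs (by positivity) gam' hSp i).trans (by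
      rw [show X ^ 2 / (X ^ 57 * x ^ 4) = x ^ 51 by rw [hx]; field_simp]
      linarith [P 1 51 50 (by norm_num) (by norm_num)])
  have w8 : x ^ 13 ≤ 1 / 8 := by linarith [P 8 13 0 (by norm_num) (by norm_num)]
  obtain ⟨bm, c, hc, hp⟩ := hTy ι B M blk s Sp (x ^ 13) _ (x ^ 13) (x ^ 13) (X ^ 36) (x ^ 9)
    (x ^ 9) (x ^ 55) (Fintype.card ι ^ 8) (by positivity) w8 (by positivity) (by positivity)
    (by linarith [P 160 13 0 (by norm_num) (by norm_num)]) (by positivity) (by linarith)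
    (by positivity) (by positivity) (by positivity)
    (by linarith [P 1 9 0 (by norm_num) (by norm_num)])
    (by linarith [P 16 55 26 (by norm_num) (by norm_num)]) (by
      rw [show (x ^ 9) ^ 2 / (16 * X ^ 36) = x ^ 54 / 16 by rw [hx]; field_simp]
      linarith [P 16 55 54 (by norm_num) (by norm_num)]) pm
  obtain ⟨ap, tp⟩ := pars hX hN hx eg
  have ne : Nonempty ι := Fintype.card_pos_iff.1 (Nat.cast_pos.1 N0)
  have y0 : 0 < x ^ 13 / (16 * cd ι) := by positivity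
  have y1 : x ^ 13 / (16 * cd ι) ≤ 1 / 8 := (div_le_self (by positivity) (by linarith)).trans w8
  rw [eg] at hp
  obtain ⟨dd, hd⟩ := hM ι (Kt M) (tl Γ) (tc s) Sp c _ (x ^ 13) (20 * x) (1 / (1 + 20 * x))
    ((x ^ 13 / (16 * cd ι)) ^ 2) hSp un (by positivity) w8
    (fun u hu i => (hu.1 i).trans (by linarith))
    (hT ι B M blk s Γ _ _ _ _ _ _ _ _ _ _ _ _ _ _ _ Sp c gs c1 gam' ap tp hSp) (by positivity)
    (by positivity) (div_le_one_of_le₀ (by linarith) (by positivity)) (alpha (by positivity))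
    (by positivity) ((pow_le_pow_left₀ y0.le y1 2).trans (by norm_num)) bm (hp.trans
      (prob hX hl hN hx ((sum_le_card_nsmul _ _ _ fun J _ =>
        term hX hl hN hx (hMX J) (gs.dim J)).trans (by
          rw [nsmul_eq_mul]
          exact mul_le_mul_of_nonneg_right hB (by positivity)))))
  rw [Real.sqrt_sq y0.le, show cd ι + 16 * cd ι ^ 2 * (x ^ 13 / (16 * cd ι)) / x ^ 13 = 2 * cd ι by
    field_simp; norm_num] at hd
  rw [one_div, ← inv_pow, ← hx]
  refine ⟨c, dd, hc, mono (by positivity) w8 hd (snow (by linarith) (by positivity) ?_)⟩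
  nlinarith [mul_le_mul_of_nonneg_left hl x0.le]

end Vale.Agent.P318.B
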