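import Vale.Agent.P318.B.Stmt
import Vale.Agent.P318.RCode
import Vale.Agent.P318.M.LatCnt

/-! Choice of the parity checks by double counting. -/

namespace Vale.Agent.P318.B

open Finset Vale.Agent.P318.M

namespace HCode

open LatCnt

variable {M r p : ℕ}

theorem ind_le {P : Prop} {c : ℝ} (h0 : 0 ≤ c) (h : P → 1 ≤ c) : ind P ≤ c := by
  by_cases hP : P
  · rw [ind_pos hP]; exact h hP
  · rw [ind_neg hP]; exact h0

theorem ind_le_sum {α : Type} {P : Prop} (s : Finset α) (Q : α → Prop)
    (h : P → ∃ a ∈ s, Q a) : ind P ≤ ∑ a ∈ s, ind (Q a) := by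
  refine ind_le (sum_nonneg fun _ _ => ind_nonneg _) fun hP => ?_
  obtain ⟨a, ha, hQ⟩ := h hP
  rw [← ind_pos hQ]
  exact single_le_sum (f := fun a => ind (Q a)) (fun _ _ => ind_nonneg _) ha

/-- few matrices have a short dual word -/
theorem notMinD [Fact p.Prime] (hM : 256 ≤ M) (hp : (p : ℝ) ^ r ≤ Real.exp (M / 64)) :
    ∑ H : Fin r → Fin M → ZMod p, ind (¬ MinD H) ≤
      (Fintype.card (Fin r → Fin M → ZMod p) : ℝ) / 4 := by
  classical
  have : Nonempty (Fin M) := ⟨⟨0, by omega⟩⟩
  have hM' : (256 : ℝ) ≤ M := by exact_mod_cast hM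
  have h1 : R.pr (fun H : Fin r → Fin M → ZMod p => ¬ MinD H) ≤ 1 / 4 := by
    refine (R.pr_mono (F := fun H => ∃ y ∈ (univ : Finset (Fin r → ZMod p)).erase 0,
      (Fintype.card (Fin M) : ℝ) / 2 ≤ ∑ j, Real.cos (R.ang (R.dualv H y j))) fun H hH => ?_).trans ?_
    · simp only [MinD, not_forall, not_le] at hH
      obtain ⟨y, hy, h⟩ := hH
      refine ⟨y, mem_erase.2 ⟨hy, mem_univ _⟩, ?_⟩
      have e : ∀ j, Real.cos (R.ang (R.dualv H y j)) =
          1 - 2 * Real.sin (Real.pi * (((∑ a, y a * H a j).val : ℝ) / p)) ^ 2 := fun j => by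
        rw [← Real.cos_two_mul_eq_one_sub]
        congr 1
        unfold R.ang R.dualv
        ring
      simp only [e, sum_sub_distrib, ← mul_sum, sum_const, card_univ, Fintype.card_fin,
        nsmul_eq_mul, mul_one]
      linarith
    · refine (R.pr_exists_mem_le_card_mul _ _ fun y hy =>
        R.pr_dual_bad (mem_erase.1 hy).1).trans ?_
      have h2 : (((univ : Finset (Fin r → ZMod p)).erase 0).card : ℝ) ≤ Real.exp (M / 64) := by
        refine le_trans ?_ hp
        have h3 := card_erase_le (s := (univ : Finset (Fin r → ZMod p))) (a := 0)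
        rw [card_univ, Fintype.card_fun, ZMod.card, Fintype.card_fin] at h3
        exact_mod_cast h3
      refine (mul_le_mul_of_nonneg_right h2 (Real.exp_pos _).le).trans ?_
      rw [← Real.exp_add, Fintype.card_fin]
      have h4 : Real.exp (M / 64 + -(M / 8)) ≤ Real.exp (-3) := Real.exp_le_exp.2 (by linarith)
      refine h4.trans ?_
      rw [Real.exp_neg, one_div]
      exact inv_anti₀ (by norm_num) (by linarith [Real.add_one_le_exp (3 : ℝ)])
  rw [R.pr_eq_card, card_filter_eq, div_le_iff₀ (Nat.cast_pos.2 Fintype.card_pos)] at h1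
  linarith

/-- the number of matrices which kill an independent family -/
theorem count [Fact p.Prime] {τ : Type} [Fintype τ] [DecidableEq τ] (v : τ → Fin M → ZMod p)
    (hv : LinearIndependent (ZMod p) v) :
    ∑ H : Fin r → Fin M → ZMod p, ind (∀ l a, ∑ k, H a k * v l k = 0) =
      (Fintype.card (Fin r → Fin M → ZMod p) : ℝ) / ((p : ℝ) ^ Fintype.card τ) ^ r := by
  have h1 : (Matrix.of v).rank = Fintype.card τ := LinearIndependent.rank_matrix hv
  have h2 : Function.Surjective (Matrix.of v).mulVecLin := by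
    rw [← LinearMap.range_eq_top]
    refine Submodule.eq_top_of_finrank_eq ?_
    rw [Module.finrank_fintype_fun_eq_card]
    exact h1
  have h3 := sum_rows (Matrix.of v).mulVecLin.toAddMonoidHom h2 r
  rw [Fintype.card_fun (α := τ), ZMod.card, Nat.cast_pow] at h3
  rw [← h3]
  refine sum_congr rfl fun H _ => congrArg ind (propext ?_)
  rw [forall_comm]
  refine forall_congr' fun a => ?_
  rw [funext_iff]
  refine forall_congr' fun l => ?_
  simp [Matrix.mulVec, dotProduct, mul_comm]

/-- integer points near a point -/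
theorem near (c : Fin M → ℝ) : ∃ D : Finset (Fin M → ℤ), (D.card : ℝ) ≤ Real.exp (M / 512) ∧
    ∀ m : Fin M → ℤ, ∑ k, ((m k : ℝ) - c k) ^ 2 ≤ M / 400000 → m ∈ D := by
  by_cases h : ∃ m₀ : Fin M → ℤ, ∑ k, ((m₀ k : ℝ) - c k) ^ 2 ≤ M / 400000
  · obtain ⟨m₀, h₀⟩ := h
    refine ⟨(R.ballZ (Fin M) ⌊(M : ℝ) / 100000⌋₊).image (· + m₀), ?_, fun m hm => ?_⟩
    · refine (Nat.cast_le.2 card_image_le).trans
        ((R.card_ballZ_le _ _ (t := 8) (by norm_num)).trans ?_)
      have h1 : Real.exp (-8) ≤ 1 / 2801 := by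
        have h2 := Real.exp_one_gt_d9
        have h3 : Real.exp 8 = Real.exp 1 ^ 8 := by rw [← Real.exp_nat_mul]; norm_num
        have h4 : (2801 : ℝ) ≤ Real.exp 8 := by
          rw [h3]
          calc (2801 : ℝ) ≤ 2.7182818283 ^ 8 := by norm_num
            _ ≤ _ := pow_le_pow_left₀ (by norm_num) h2.le _
        rw [Real.exp_neg, one_div]
        exact inv_anti₀ (by norm_num) h4
      have h2 := Real.exp_pos (-8)
      have h5 : 0 < 1 - Real.exp (-8) := by linarith
      have h3 : 1 + 2 * Real.exp (-8) / (1 - Real.exp (-8)) ≤ Real.exp (1 / 1400) := by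
        have : 2 * Real.exp (-8) / (1 - Real.exp (-8)) ≤ 1 / 1400 := by
          rw [div_le_iff₀ h5]; linarith
        linarith [Real.add_one_le_exp (1 / 1400 : ℝ)]
      refine (mul_le_mul_of_nonneg_left (pow_le_pow_left₀ (by positivity) h3 _)
        (Real.exp_pos _).le).trans ?_
      rw [← Real.exp_nat_mul, ← Real.exp_add, Fintype.card_fin]
      have h6 : (⌊(M : ℝ) / 100000⌋₊ : ℝ) ≤ M / 100000 := Nat.floor_le (by positivity)
      have h7 : (0 : ℝ) ≤ M := Nat.cast_nonneg _
      exact Real.exp_le_exp.2 (by linarith)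
    · refine mem_image.2 ⟨m - m₀, R.mem_ballZ.2 ?_, sub_add_cancel _ _⟩
      have h1 : ∑ k, (((m - m₀) k : ℤ) : ℝ) ^ 2 ≤ M / 100000 := by
        calc _ ≤ ∑ k, (2 * ((m k : ℝ) - c k) ^ 2 + 2 * ((m₀ k : ℝ) - c k) ^ 2) :=
              sum_le_sum fun k _ => by
                rw [Pi.sub_apply, Int.cast_sub]
                nlinarith [sq_nonneg ((m k : ℝ) + m₀ k - 2 * c k)]
          _ ≤ _ := by
              rw [sum_add_distrib, ← mul_sum, ← mul_sum]
              linarith
      have h2 : ((∑ k, (m - m₀) k ^ 2 : ℤ) : ℝ) ≤ M / 100000 := by push_cast; exact_mod_cast h1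
      rw [← Int.le_floor, ← Int.natCast_floor_eq_floor (by positivity)] at h2
      exact h2
  · exact ⟨∅, by simpa using (Real.exp_pos _).le, fun m hm => absurd ⟨m, hm⟩ h⟩

/-- integer points near small combinations of few rows -/
theorem cand {τ : Type} [Fintype τ] [DecidableEq τ] {sp : ℕ} (hτ : Fintype.card τ ≤ sp) {a : ℝ}
    (ha : 0 ≤ a) (s : τ → Fin M → ℤ) (hs : ∀ l k, |(s l k : ℝ)| ≤ 1) :
    ∃ C : Finset (Fin M → ℤ), (C.card : ℝ) ≤ (2000 * a * sp + 3) ^ sp * Real.exp (M / 512) ∧
      ∀ (m : Fin M → ℤ) (α : τ → ℝ), (∀ l, |α l| ≤ a) →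
        ∑ k, ((m k : ℝ) - ∑ l, α l * s l k) ^ 2 < M / 10 ^ 6 → m ∈ C := by
  classical
  set g : ℝ := 1000 * sp with hg
  have hg0 : 0 ≤ g := by positivity
  set A : ℕ := ⌊a * g + 1 / 2⌋₊ with hA
  choose D hD1 hD2 using fun n : τ → ℤ => near (M := M) fun k => ∑ l, (n l : ℝ) / g * s l k
  refine ⟨(Fintype.piFinset fun _ : τ => Icc (-(A : ℤ)) A).biUnion D, ?_, fun m α hα hm => ?_⟩
  · refine (Nat.cast_le.2 card_biUnion_le).trans ?_
    rw [Nat.cast_sum]
    refine (sum_le_card_nsmul _ _ _ fun n _ => hD1 n).trans ?_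
    rw [nsmul_eq_mul, Fintype.card_piFinset, prod_const, card_univ, Nat.cast_pow]
    refine mul_le_mul_of_nonneg_right ?_ (Real.exp_pos _).le
    have h1 : ((Icc (-(A : ℤ)) A).card : ℝ) ≤ 2000 * a * sp + 3 := by
      have h2 : (Icc (-(A : ℤ)) A).card = 2 * A + 1 := by
        rw [Int.card_Icc]; omega
      have h3 : (A : ℝ) ≤ a * g + 1 / 2 := Nat.floor_le (by positivity)
      rw [h2]
      push_cast
      rw [hg] at h3
      linarith
    have h4 : 0 ≤ 2000 * a * sp := by positivity
    exact (pow_le_pow_left₀ (Nat.cast_nonneg _) h1 _).trans (pow_le_pow_right₀ (by linarith) hτ)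
  · refine mem_biUnion.2 ⟨fun l => round (α l * g), Fintype.mem_piFinset.2 fun l => ?_,
      hD2 _ _ ?_⟩
    · have h1 := abs_sub_round (α l * g)
      have h2 : |α l * g| ≤ a * g := by
        rw [abs_mul, abs_of_nonneg hg0]
        exact mul_le_mul_of_nonneg_right (hα l) hg0
      have h3 : ((|round (α l * g)| : ℤ) : ℝ) ≤ a * g + 1 / 2 := by
        rw [Int.cast_abs]
        have := abs_sub_abs_le_abs_sub (round (α l * g) : ℝ) (α l * g)
        rw [abs_sub_comm] at this
        linarith
      rw [← Int.le_floor, ← Int.natCast_floor_eq_floor (by positivity)] at h3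
      exact mem_Icc.2 (abs_le.1 h3)
    · have h1 : ∀ k, |∑ l, α l * s l k - ∑ l, (round (α l * g) : ℝ) / g * s l k| ≤ 1 / 2000 := by
        intro k
        rw [← sum_sub_distrib]
        refine (abs_sum_le_sum_abs _ _).trans ?_
        rcases Nat.eq_zero_or_pos sp with h0 | h0
        · have : IsEmpty τ := Fintype.card_eq_zero_iff.1 (by omega)
          simp
        · have h0' : (0 : ℝ) < sp := Nat.cast_pos.2 h0
          have hg1 : 0 < g := by positivity
          have h2 : ∀ l, |α l * s l k - (round (α l * g) : ℝ) / g * s l k| ≤ 1 / 2 / g := fun l => by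
            have e : α l * s l k - (round (α l * g) : ℝ) / g * s l k =
                (α l * g - round (α l * g)) * s l k / g := by field_simp
            rw [e, abs_div, abs_of_pos hg1, abs_mul]
            refine div_le_div_of_nonneg_right ?_ hg0
            nlinarith [abs_sub_round (α l * g), hs l k, abs_nonneg (s l k : ℝ),
              abs_nonneg (α l * g - round (α l * g))]
          refine (sum_le_card_nsmul _ _ _ fun l _ => h2 l).trans ?_
          have h3 : (Fintype.card τ : ℝ) ≤ sp := Nat.cast_le.2 hτ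
          rw [nsmul_eq_mul, card_univ, hg]
          calc _ ≤ (sp : ℝ) * (1 / 2 / (1000 * sp)) := by gcongr
            _ = 1 / 2000 := by field_simp; norm_num
      calc _ ≤ ∑ k, (2 * ((m k : ℝ) - ∑ l, α l * s l k) ^ 2 + 2 * (1 / 2000) ^ 2) :=
            sum_le_sum fun k _ => by
              have h2 := sq_le_sq' (abs_le.1 (h1 k)).1 (abs_le.1 (h1 k)).2
              nlinarith [sq_nonneg ((m k : ℝ) - ∑ l, α l * s l k -
                (∑ l, α l * s l k - ∑ l, (round (α l * g) : ℝ) / g * s l k))]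
        _ ≤ _ := by
            rw [sum_add_distrib, ← mul_sum, sum_const, card_univ, Fintype.card_fin, nsmul_eq_mul]
            linarith

/-- the mean of a function of the coordinates in `T` -/
theorem av_res {ι C : Type} [Fintype ι] [DecidableEq ι] [Fintype C] [Nonempty C] (T : Finset ι)
    (F : (T → C) → ℝ) :
    av (fun x : ι → C => F fun l => x l) = (∑ y, F y) / (Fintype.card C : ℝ) ^ T.card := by
  set e := Equiv.piEquivPiSubtypeProd (· ∈ T) fun _ : ι => C with he
  have h1 : ∑ x : ι → C, F (fun l => x l) = ∑ z, F (Prod.fst z) :=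
    Fintype.sum_equiv e _ _ fun x => rfl
  have h2 := Fintype.card_congr e
  have h3 : (0 : ℝ) < Fintype.card ({x // ¬ x ∈ T} → C) := Nat.cast_pos.2 Fintype.card_pos
  rw [av, h1, h2, Fintype.sum_prod_type, Fintype.card_prod, Fintype.card_fun (α := {x // x ∈ T}),
    Fintype.card_coe]
  simp only [sum_const, card_univ, nsmul_eq_mul, ← mul_sum]
  push_cast
  rw [mul_comm ((Fintype.card C : ℝ) ^ T.card), mul_div_mul_left _ _ h3.ne']

theorem abs_rw_le (e : Fin M → Bool × Bool) (k : Fin M) : |(rw e k : ℝ)| ≤ 1 := by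
  unfold rw
  rcases e k with ⟨_ | _, _ | _⟩ <;> simp

/-- the bad event for the rows `s` -/
def Ev {τ : Type} [Fintype τ] (H : Fin r → Fin M → ZMod p) (s : τ → Fin M → ℤ) (a : ℝ) : Prop :=
  LinearIndependent (ZMod p) (fun l k => (s l k : ZMod p)) ∧
    ∃ (m : Fin M → ℤ) (α : τ → ℝ), (∀ l, |α l| ≤ a) ∧
      ∑ k, ((m k : ℝ) - ∑ l, α l * s l k) ^ 2 < M / 10 ^ 6 ∧ inK H m ∧
      (fun k => (m k : ZMod p)) ∉ Submodule.span (ZMod p) (Set.range fun l k => (s l k : ZMod p))

theorem sum_H [Fact p.Prime] {τ : Type} [Fintype τ] [DecidableEq τ] {sp : ℕ}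
    (hτ : Fintype.card τ ≤ sp) {a : ℝ} (ha : 0 ≤ a) (s : τ → Fin M → ℤ)
    (hs : ∀ l k, |(s l k : ℝ)| ≤ 1) :
    ∑ H : Fin r → Fin M → ZMod p, ind ((∀ l, inK H (s l)) ∧ Ev H s a) ≤
      (2000 * a * sp + 3) ^ sp * Real.exp (M / 512) *
        (Fintype.card (Fin r → Fin M → ZMod p) / ((p : ℝ) ^ (Fintype.card τ + 1)) ^ r) := by
  obtain ⟨C, hC1, hC2⟩ := cand hτ ha s hs
  calc _ ≤ ∑ H : Fin r → Fin M → ZMod p, ∑ m ∈ C,
          ind (LinearIndependent (ZMod p) (fun o : Option τ =>
            Option.casesOn' o (fun k => (m k : ZMod p)) fun l k => (s l k : ZMod p)) ∧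
            ∀ (o : Option τ) a, ∑ k, H a k * (Option.casesOn' o (fun k => (m k : ZMod p))
              fun l k => (s l k : ZMod p)) k = 0) := by
        refine sum_le_sum fun H _ => ind_le_sum _ _ ?_
        rintro ⟨h1, h2, m, α, h3, h4, h5, h6⟩
        refine ⟨m, hC2 m α h3 h4, h2.option h6, ?_⟩
        rintro (_ | l)
        · exact h5
        · exact h1 l
    _ ≤ ∑ _m ∈ C, (Fintype.card (Fin r → Fin M → ZMod p) /
          ((p : ℝ) ^ (Fintype.card τ + 1)) ^ r) := by
        rw [sum_comm]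
        refine sum_le_sum fun m _ => ?_
        by_cases h : LinearIndependent (ZMod p) (fun o : Option τ =>
            Option.casesOn' o (fun k => (m k : ZMod p)) fun l k => (s l k : ZMod p))
        · rw [← Fintype.card_option, ← count _ h]
          exact sum_le_sum fun H _ => ind_le (ind_nonneg _) fun h' => (ind_pos h'.2).ge
        · rw [sum_eq_zero fun H _ => ind_neg fun h' => h h'.1]
          positivity
    _ ≤ _ := by
        rw [sum_const, nsmul_eq_mul]
        exact mul_le_mul_of_nonneg_right hC1 (by positivity)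

theorem code_ne (H : Fin r → Fin M → ZMod p) : Nonempty (code H) :=
  ⟨⟨fun _ => (false, false), by
    unfold code
    rw [@mem_filter _ _ (Classical.decPred _)]
    exact ⟨mem_univ _, fun a => by simp [rw]⟩⟩⟩

theorem sum_T [Fact p.Prime] (hC : CharStmt) {ι : Type} [Fintype ι] [DecidableEq ι] {sp : ℕ}
    {T : Finset ι} (hT : T.card ≤ sp) {a : ℝ} (ha : 0 ≤ a) :
    ∑ H : Fin r → Fin M → ZMod p,
        av (fun x : ι → code H => ind (Ev H (fun l : T => rw (x l).1) a)) ≤
      (2000 * a * sp + 3) ^ sp * Real.exp (M / 512) / (p : ℝ) ^ r *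
        Fintype.card (Fin r → Fin M → ZMod p) := by
  have hp : (0 : ℝ) < p := Nat.cast_pos.2 (Fact.out : p.Prime).pos
  have h1 : ∀ H : Fin r → Fin M → ZMod p,
      av (fun x : ι → code H => ind (Ev H (fun l : T => rw (x l).1) a)) ≤
        ((p : ℝ) ^ r / 4 ^ M) ^ T.card * ∑ b : T → Fin M → Bool × Bool,
          ind ((∀ l, inK H (rw (b l))) ∧ Ev H (fun l => rw (b l)) a) := by
    intro H
    have := code_ne H
    rw [av_res T fun y : T → code H => ind (Ev H (fun l => rw (y l).1) a), div_eq_inv_mul]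
    refine mul_le_mul ?_ ?_ (sum_nonneg fun _ _ => ind_nonneg _) (by positivity)
    · rw [← inv_pow]
      refine pow_le_pow_left₀ (by positivity) ?_ _
      have h2 : (0 : ℝ) < Fintype.card (code H) := Nat.cast_pos.2 Fintype.card_pos
      rw [inv_eq_one_div, div_le_div_iff₀ h2 (by positivity), one_mul, Fintype.card_coe]
      exact (hC M r p H).1
    · let e : (T → code H) ↪ (T → Fin M → Bool × Bool) :=
        ⟨fun y l => (y l).1, fun y y' h => funext fun l => Subtype.ext (congrFun h l)⟩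
      refine le_trans ?_ (sum_le_sum_of_subset_of_nonneg (subset_univ (univ.map e))
        fun _ _ _ => ind_nonneg _)
      rw [sum_map]
      refine sum_le_sum fun y _ => ind_le (ind_nonneg _) fun h => (ind_pos ⟨fun l => ?_, h⟩).ge
      exact ((@mem_filter _ _ (Classical.decPred _) _ _).1 (y l).2).2
  refine (sum_le_sum fun H _ => h1 H).trans ?_
  rw [← mul_sum, sum_comm]
  refine (mul_le_mul_of_nonneg_left (sum_le_card_nsmul _ _ _ fun b _ =>
    sum_H (sp := sp) (by simpa using hT) ha _ fun l k => abs_rw_le _ k) (by positivity)).trans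
    (le_of_eq ?_)
  rw [nsmul_eq_mul, card_univ, Fintype.card_fun (α := T), Fintype.card_fun (α := Fin M),
    Fintype.card_coe, Fintype.card_fin, Fintype.card_prod, Fintype.card_bool]
  push_cast
  rw [div_pow, ← pow_mul (p : ℝ) (T.card + 1), ← pow_mul (p : ℝ) r, add_mul, one_mul, pow_add,
    mul_comm r]
  field_simp

end HCode

open HCode LatCnt in
theorem h_proof (hC : CharStmt) (hB : BallStmt) : HStmt := by
  intro M r p _ ι _ _ sp a hM hp ha
  have hp0 : (0 : ℝ) < p := Nat.cast_pos.2 (Fact.out : p.Prime).pos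
  set B := ((cd ι + 1) * (2000 * a * sp + 3)) ^ sp * Real.exp (M / 512) / (p : ℝ) ^ r with hBd
  have hcd : 0 ≤ cd ι := Nat.cast_nonneg _
  have hB0 : 0 < B := by positivity
  set N := (Fintype.card (Fin r → Fin M → ZMod p) : ℝ) with hN
  have hN0 : 0 < N := Nat.cast_pos.2 Fintype.card_pos
  have h1 : ∑ H : Fin r → Fin M → ZMod p,
      av (fun x : ι → code H => ind (Bad1 H (fun i => rw (x i).1) sp a (M / 10 ^ 6))) ≤ B * N := by
    calc _ ≤ ∑ H : Fin r → Fin M → ZMod p, ∑ T ∈ univ.filter fun T : Finset ι => T.card ≤ sp,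
            av (fun x : ι → code H => ind (Ev H (fun l : T => rw (x l).1) a)) := by
          refine sum_le_sum fun H _ => ?_
          simp only [av]
          rw [← sum_div, sum_comm]
          refine div_le_div_of_nonneg_right (sum_le_sum fun x _ => ind_le_sum _ _ ?_)
            (Nat.cast_nonneg _)
          rintro ⟨T, h1, h2, m, α, h3, h4, h5, h6⟩
          refine ⟨T, mem_filter.2 ⟨mem_univ _, h1⟩, h2, m, fun l => α l, fun l => h3 l, ?_, h5, h6⟩
          simpa only [← sum_coe_sort T] using h4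
      _ ≤ (cd ι + 1) ^ sp * ((2000 * a * sp + 3) ^ sp * Real.exp (M / 512) / (p : ℝ) ^ r * N) := by
          rw [sum_comm]
          refine (sum_le_card_nsmul _ _ _ fun T hT => sum_T hC (mem_filter.1 hT).2 ha).trans ?_
          rw [nsmul_eq_mul]
          refine mul_le_mul_of_nonneg_right ?_ (by positivity)
          unfold cd
          exact_mod_cast hB.2.2 ι sp
      _ = B * N := by rw [hBd, mul_pow]; ring
  have h2 := notMinD (p := p) hM hp
  obtain ⟨H, -, hH⟩ := exists_lt_of_sum_lt (s := univ)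
    (f := fun H : Fin r → Fin M → ZMod p =>
      av (fun x : ι → code H => ind (Bad1 H (fun i => rw (x i).1) sp a (M / 10 ^ 6))) +
        2 * B * ind (¬ MinD H)) (g := fun _ => 2 * B) (by
      rw [sum_add_distrib, ← mul_sum, sum_const, card_univ, nsmul_eq_mul]
      nlinarith)
  have h3 : 0 ≤ av (fun x : ι → code H =>
      ind (Bad1 H (fun i => rw (x i).1) sp a (M / 10 ^ 6))) :=
    div_nonneg (sum_nonneg fun _ _ => ind_nonneg _) (Nat.cast_nonneg _)
  have h4 : MinD H := by
    by_contra h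
    rw [ind_pos h] at hH
    linarith
  rw [ind_neg (not_not.2 h4)] at hH
  refine ⟨H, h4, le_trans (by linarith : _ ≤ 2 * B) (le_of_eq ?_)⟩
  rw [hBd]; ring

end Vale.Agent.P318.B
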