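import Vale.Agent.P318.B.Stmt
import Vale.Agent.P318.M.Bit
import Vale.Agent.P318.M.Block0
import Vale.Agent.P318.M.Deriv
import Vale.Agent.P318.M.Ramp

/-!
Gradient bounds for the Fourier coefficients of `ps` and `mE`.
-/

set_option linter.unusedSectionVars false

namespace Vale.Agent.P318.B

open Finset MeasureTheory Filter Topology Vale.Agent.P318.M Vale.Agent.P318.M.Block

namespace High

variable {ι κ : Type} [Fintype ι] [DecidableEq ι] [Fintype κ]

/-- A gradient of the form `S Z` gives a bound for the second moment of the spectrum. -/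
theorem grad (hF : FcStmt) {J : Finset ι} {s : ι → κ → ℤ} {Bn : ℝ}
    (op : ∀ z : ι → ℝ, ∑ k, (∑ j ∈ J, z j * s j k) ^ 2 ≤ Bn * ∑ j ∈ J, z j ^ 2)
    {F : (κ → ℝ) → ℝ} {Z : ι → (κ → ℝ) → ℝ} (hZ : ∀ j, BM (Z j) ∧ Per (Z j))
    (e : ∀ k m, fc (fun η => ∑ j ∈ J, (s j k : ℝ) * Z j η) m =
      2 * Real.pi * Complex.I * (m k : ℂ) * fc F m) (S : Finset (κ → ℤ)) :
    4 * Real.pi ^ 2 * ∑ m ∈ S, msq m * ‖fc F m‖ ^ 2 ≤ Bn * tm fun η => ∑ j ∈ J, Z j η ^ 2 := by
  have b : ∀ k, BM fun η => ∑ j ∈ J, (s j k : ℝ) * Z j η := fun k =>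
    bm_sum J fun j _ => bm_mul (bm_const _) (hZ j).1
  have p : ∀ k, Per fun η => ∑ j ∈ J, (s j k : ℝ) * Z j η := fun k β n => by
    simp only [(hZ _).2 β n]
  have h1 := sum_le_sum fun k (_ : k ∈ univ) => (hF κ).2.2.2.1 _ (p k) (b k) S
  rw [← tm_sum _ fun k _ => bm_sq (b k), sum_comm] at h1
  rw [← tm_cmul]
  refine le_trans (le_of_eq ?_) (h1.trans (tm_mono (bm_sum _ fun k _ => bm_sq (b k))
    (bm_mul (bm_const _) (bm_sum J fun j _ => bm_sq (hZ j).1)) fun η => ?_))
  · rw [mul_sum]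
    refine sum_congr rfl fun m _ => ?_
    simp only [e, msq, sum_mul, mul_sum, norm_mul, Complex.norm_I, Complex.norm_intCast,
      Complex.norm_real, Complex.norm_ofNat, mul_pow, Real.norm_eq_abs, sq_abs]
    exact sum_congr rfl fun k _ => by ring
  · simpa only [mul_comm] using op fun j => Z j η

variable {ω : ℝ}

/-- The coefficients of the gradient of `pq * c1`. -/
noncomputable def zc (ω : ℝ) (h : (ι → ℤ) → ℝ) (l j : ι) (y : ι → ℝ) : ℝ :=
  if j = l then dpr ω (y l) * (1 - 2 * pr ω (y l)) * c1 ω h l y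
  else pq ω (y l) * (dpr ω (y j) * c2 ω h l j y)

theorem der_ps (h0 : 0 < ω) (h8 : ω ≤ 1 / 8) (h : (ι → ℤ) → ℝ) (l : ι) (y u : ι → ℝ) (r : ℝ) :
    HasDerivAt (fun r : ℝ => pq ω ((y + r • u) l) * c1 ω h l (y + r • u))
      (∑ j, u j * zc ω h l j (y + r • u)) r := by
  have R := ramp_proof.2 ω h0 h8
  set n : ℤ := ⌊y l + r * u l⌋ with hn
  set g : (ι → ℤ) → ℝ := fun x =>
    h (Function.update x l (-n - 1)) - h (Function.update x l (-n)) with hg
  have e : ∀ r' : ℝ, ⌊y l + r' * u l⌋ = n →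
      (Dd l fun b => h (pt (y + r' • u) b)) = fun b => g (pt (y + r' • u) b) :=
    fun r' k => Deriv.dd_pt h l k
  have dq : HasDerivAt (fun r : ℝ => ramp ((y l + r * u l - n - 1 / 2 + ω) / (2 * ω)))
      (u l * dpr ω (y l + r * u l)) r := by
    refine ((ramp_proof.1 _).comp r (((((((hasDerivAt_id r).mul_const (u l)).const_add
      (y l)).sub_const _).sub_const _).add_const ω).div_const (2 * ω))).congr_deriv ?_
    simp only [dpr, ee, pos, Int.fract, hn, id]
    field_simp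
    ring
  have d := (dq.fun_mul (dq.const_sub 1)).fun_mul (Deriv.der_ey ramp_proof h0 h8 g y u r)
  refine (d.congr_deriv ?_).congr_of_eventuallyEq ?_
  · have B := bit_proof ι (py ω (y + r • u)) fun i => ⟨R.pr_nonneg _, R.pr_le _⟩
    have k1 : Ey ω g (y + r • u) = c1 ω h l (y + r • u) := by rw [c1, e r rfl, Ey]
    have k2 : ∀ j, c1 ω g j (y + r • u) = c2 ω h l j (y + r • u) := fun j => by
      rw [c2, e r rfl, c1]
    have k3 : c2 ω h l l (y + r • u) = 0 := by rw [c2, Deriv.dd_dd, Deriv.eb_const B.2.1]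
    have k4 : ramp ((y l + r * u l - n - 1 / 2 + ω) / (2 * ω)) = pr ω (y l + r * u l) := rfl
    simp only [k1, k2, k4]
    rw [← add_sum_erase _ _ (mem_univ l), ← add_sum_erase _ _ (mem_univ l), k3, mul_zero, zero_add,
      mul_sum]
    congr 1
    · simp only [zc, if_true, Pi.add_apply, Pi.smul_apply, smul_eq_mul]
      ring
    · refine sum_congr rfl fun j hj => ?_
      simp only [zc, if_neg (ne_of_mem_erase hj), pq, Pi.add_apply, Pi.smul_apply, smul_eq_mul]
      ring
  · have c : ContinuousAt (fun s => y l + s * u l) r := by fun_prop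
    filter_upwards [c.eventually (Ioo_mem_nhds (a := (n : ℝ) - 1 / 4)
      (by linarith [Int.floor_le (y l + r * u l)]) (Int.lt_floor_add_one _))] with s hs
    simp only [Pi.add_apply, Pi.smul_apply, smul_eq_mul]
    by_cases k : (n : ℝ) ≤ y l + s * u l
    · have f : ⌊y l + s * u l⌋ = n := Int.floor_eq_iff.2 ⟨k, hs.2⟩
      rw [c1, e s f, pq, pr, pos, Int.fract, f, Ey]
    · have f : ⌊y l + s * u l⌋ = n - 1 := Int.floor_eq_iff.2
        ⟨by push_cast; linarith [hs.1], by push_cast; linarith [not_le.1 k]⟩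
      have p1 : pr ω (y l + s * u l) = 1 := by
        by_contra e
        have := R.pr_ne_one _ e
        rw [Int.fract, f] at this
        push_cast at this
        linarith [hs.1]
      rw [pq, p1, Deriv.ramp_neg (div_nonpos_of_nonpos_of_nonneg (by linarith [not_le.1 k])
        (by positivity))]
      ring

theorem zc_le (R : RampAt ω) (h : (ι → ℤ) → ℝ) (J : Finset ι) (y : ι → ℝ) :
    ∑ l ∈ J, ∑ j ∈ J, zc ω h l j y ^ 2 ≤ 4 / ω ^ 2 * W1 ω J h y + 1 / ω ^ 2 * W2 ω J h y := by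
  rw [W1, W2, mul_sum, mul_sum, ← sum_add_distrib]
  refine sum_le_sum fun l hl => ?_
  rw [← add_sum_erase _ _ hl, mul_sum]
  refine add_le_add ?_ (sum_le_sum fun j hj => ?_)
  · have a : (1 - 2 * pr ω (y l)) ^ 2 ≤ 1 := by nlinarith [R.pr_nonneg (y l), R.pr_le (y l)]
    simp only [zc, if_true, mul_pow, ← mul_assoc]
    exact mul_le_mul_of_nonneg_right ((mul_le_of_le_one_right (sq_nonneg _) a).trans
      (R.dpr_sq_le _)) (sq_nonneg _)
  · have a : pq ω (y l) ^ 2 ≤ 1 / 4 * pq ω (y l) := by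
      nlinarith [R.pq_nonneg (y l), R.pq_le (y l)]
    simp only [zc, if_neg (ne_of_mem_erase hj), mul_pow, ← mul_assoc]
    refine mul_le_mul_of_nonneg_right ((mul_le_mul a (R.dpr_sq_le _) (sq_nonneg _)
      ((sq_nonneg _).trans a)).trans_eq (by ring)) (sq_nonneg _)

end High

open High

theorem high_proof (hU : UpdStmt) (hF : FcStmt) (hR : RegStmt) (hC : ChunkStmt) : HighStmt := by
  classical
  intro ι κ _ _ _ Γ J s ω Bn t h hΓ hz _ hB _ hO h0 h8 hh hI S
  have R := ramp_proof.2 ω h0 h8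
  have op := ((hC ι κ J s).2.2.2 Bn hB.le).1 hO
  obtain ⟨-, r1, r2, r3, -⟩ := hR ι κ Γ s ω t h hΓ h0 h8 hh hI
  have w1 := fun y => ((deriv_proof ramp_proof bit_proof ι ω h h0 h8 hh).2.2.2.1 J).2.2.2 y
  have w2 := (hU.2 ι ω h h0 h8 hh).2.2.2.2 J
  have sj : ∀ (k : κ) {M : Type} [Field M] (f : ι → M),
      ∑ j ∈ J, (s j k : M) * f j = ∑ j, (s j k : M) * f j := fun k M _ f =>
    sum_subset (subset_univ J) fun j _ hj => by simp [hz j hj]
  have pi : 1 ≤ Real.pi ^ 2 := by nlinarith [Real.pi_gt_three]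
  constructor
  · have hZ : ∀ l j, BM (fun η => zc ω h l j (t + lin s η)) ∧
        Per fun η => zc ω h l j (t + lin s η) := fun l j => by
      obtain ⟨-, -, -, -, -, -, a1, a2, -, -, a3, a4, a5, a6, a7, a8, a9, -⟩ := r1 l
      obtain ⟨-, -, -, -, -, -, -, -, -, -, -, -, b5, b6, -⟩ := r1 j
      unfold zc
      split_ifs
      · exact ⟨bm_mul (bm_mul a5 (bm_sub (bm_const _) (bm_mul (bm_const _) a7))) a1,
          fun β n => by simp only [a2 β n, a6 β n, a8 β n]⟩
      · exact ⟨bm_mul a3 (bm_mul b5 (a9 j).1), fun β n => by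
          simp only [a4 β n, b6 β n, (a9 j).2 β n]⟩
    have k := sum_le_sum fun l (_ : l ∈ J) => grad hF op (F := ps ω h t s l) (hZ l) (fun k m => by
      have b : BM fun η => ∑ j ∈ J, (s j k : ℝ) * zc ω h l j (t + lin s η) :=
        bm_sum J fun j _ => bm_mul (bm_const _) (hZ l j).1
      rw [(hF κ).2.2.2.2 (ps ω h t s l) _ (Pi.single k 1) (r1 l).2.2.2.1 (r1 l).2.2.1
        (fun β n => by simp only [(hZ l _).2 β n]) b (fun β a => ?_) m, ip_single, mul_one,
        Complex.ofReal_intCast]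
      have e : ∀ r : ℝ, t + lin s (β + (r * a) • (Pi.single k 1 : κ → ℝ)) =
          t + lin s β + r • fun j => a * s j k := fun r => funext fun j => by
        simp only [lin, Pi.add_apply, ip_add, ip_smul, ip_single, Pi.smul_apply, smul_eq_mul]
        ring
      rw [intervalIntegral.integral_eq_sub_of_hasDerivAt
        (f := fun r => ps ω h t s l (β + (r * a) • (Pi.single k 1 : κ → ℝ))) (fun r _ => ?_)
        ((intervalIntegrable_iff_integrableOn_Ioc_of_le zero_le_one).2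
          (bm_int (bm_mul (bm_const a) (bm_comp b (by fun_prop))) _))]
      · simp
      · simp only [ps, e]
        refine (der_ps h0 h8 h l _ _ r).congr_deriv ?_
        rw [sj, mul_sum]
        exact sum_congr rfl fun j _ => by ring) S
    have bs := fun l => bm_sum J fun j _ => bm_sq (hZ l j).1
    rw [← mul_sum, ← mul_sum, ← tm_sum J fun l _ => bs l, sum_comm] at k
    have k2 : tm (fun η => ∑ l ∈ J, ∑ j ∈ J, zc ω h l j (t + lin s η) ^ 2) ≤ 6 / ω ^ 2 :=
      (tm_mono (bm_sum J fun l _ => bs l) (bm_const _) fun η => (zc_le R h J _).trans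
        ((add_le_add (mul_le_mul_of_nonneg_left (w1 _).2.1 (by positivity))
          (mul_le_mul_of_nonneg_left (w2 _) (by positivity))).trans_eq (by ring))).trans_eq
        (tm_const _)
    have k3 := k.trans (mul_le_mul_of_nonneg_left k2 hB.le)
    simp only [← mul_sum] at k3
    have k4 : 0 ≤ ∑ m ∈ S, msq m * ∑ l ∈ J, ‖fc (ps ω h t s l) m‖ ^ 2 :=
      sum_nonneg fun m _ => mul_nonneg (sum_nonneg fun _ _ => sq_nonneg _)
        (sum_nonneg fun _ _ => sq_nonneg _)
    have k5 : 0 ≤ Bn / ω ^ 2 := by positivity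
    rw [show Bn * (6 / ω ^ 2) = 6 * (Bn / ω ^ 2) by ring] at k3
    rw [mul_div_assoc]
    nlinarith
  · have k := grad hF op (F := mE ω h t s) (fun j => ⟨(r1 j).1, (r1 j).2.1⟩) (fun k m => by
      rw [((hF κ).2.1 ι J _ _ fun j _ => (r1 j).1).2.2 m, ← r3 k m, ← sj]
      simp only [Complex.ofReal_intCast]) S
    have k2 : tm (fun η => ∑ j ∈ J, qq ω h t s j η ^ 2) ≤ 4 / ω ^ 2 :=
      (tm_mono (bm_sum J fun j _ => bm_sq (r1 j).1) (bm_const _) fun η => by
        refine le_trans ?_ ((mul_le_mul_of_nonneg_left (w1 (t + lin s η)).2.1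
          (by positivity : 0 ≤ 4 / ω ^ 2)).trans_eq (mul_one _))
        rw [W1, mul_sum]
        refine sum_le_sum fun j _ => ?_
        rw [qq, mul_pow, ← mul_assoc]
        exact mul_le_mul_of_nonneg_right (R.dpr_sq_le _) (sq_nonneg _)).trans_eq (tm_const _)
    have k3 := k.trans (mul_le_mul_of_nonneg_left k2 hB.le)
    rw [le_div_iff₀ (by positivity)]
    rw [mul_div_assoc', le_div_iff₀ (by positivity)] at k3
    linarith

end Vale.Agent.P318.B
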