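import Vale.Agent.P318.B.FinalB
import Vale.Agent.P318.M.Model
import Vale.Agent.P318.M.Reduce
import Vale.Agent.P318.M.Ramp
import Vale.Agent.P318.M.Bit
import Vale.Agent.P318.M.Deriv

/-!
The instances of track B.
-/

namespace Vale.Agent.P318.B

open Finset Real MeasureTheory Vale.Agent.P318.M

namespace InstB

variable {ι κ : Type} [Fintype ι] [DecidableEq ι] [Fintype κ]

lemma cd_fin (n : ℕ) : cd (Fin n) = n := by simp [cd]

omit [Fintype ι] [DecidableEq ι] in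
lemma op_mono {J : Finset ι} {s : ι → κ → ℤ} {a b : ℝ} (h : Op J s a) (hab : a ≤ b) : Op J s b :=
  fun V => (h V).trans (mul_le_mul_of_nonneg_right hab (sum_nonneg fun _ _ => sq_nonneg _))

lemma blockB_mono {ω a b ε : ℝ} {Γ : AddSubgroup (κ → ℝ)} {J : Finset ι} {s : ι → κ → ℤ}
    (h0 : 0 < ω) (h8 : ω ≤ 1 / 8) (h : BlockB ω a ε Γ J s) (hab : a ≤ b) : BlockB ω b ε Γ J s :=
  fun t f f1 f2 => (h t f f1 f2).trans (by
    have : 0 ≤ tm fun η => Inf ω J f (t + lin s η) := integral_nonneg fun η =>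
      (((deriv_proof ramp_proof bit_proof ι ω f h0 h8 f1).2.2.2.1 J).2.2.2 _).2.2.2
    gcongr)

variable {X N : ℝ}

lemma dim_ge (hX : 1 ≤ X) (hN : X ^ 13000 ≤ N) {M : ℝ} {t : ℕ} (h1 : 4 ^ t ≤ N)
    (h2 : N ≤ X ^ 59 * 2 ^ t * M) : (X ^ 90) ^ 70 ≤ M := by
  have N0 : 0 < N := lt_of_lt_of_le (by positivity) hN
  have M0 : 0 ≤ M := nonneg_of_mul_nonneg_right (a := X ^ 59 * 2 ^ t) (N0.le.trans h2)
    (by positivity)
  have a : N * N ≤ N * (X ^ 59 * M) ^ 2 := by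
    calc N * N ≤ (X ^ 59 * 2 ^ t * M) ^ 2 := (sq N).symm.trans_le (pow_le_pow_left₀ N0.le h2 2)
      _ = 4 ^ t * (X ^ 59 * M) ^ 2 := by
        rw [show (4 : ℝ) = 2 ^ 2 by norm_num, ← pow_mul, mul_comm 2 t, pow_mul]
        ring
      _ ≤ _ := mul_le_mul_of_nonneg_right h1 (sq_nonneg _)
  have b : (X ^ 59 * (X ^ 90) ^ 70) ^ 2 ≤ (X ^ 59 * M) ^ 2 := by
    refine le_trans ?_ (hN.trans (le_of_mul_le_mul_left a N0))
    rw [← pow_mul, ← pow_add, ← pow_mul]
    exact pow_le_pow_right₀ hX (by norm_num)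
  have X0 : 0 < X ^ 59 := pow_pos (one_pos.trans_le hX) _
  exact le_of_mul_le_mul_left (le_of_sq_le_sq b (mul_nonneg X0.le M0)) X0

lemma A_ge (hX : 1 ≤ X) (N0 : 0 < N) {M : ℝ} (M0 : 0 < M) {t : ℕ} (h2 : N ≤ X ^ 59 * 2 ^ t * M) :
    (X ^ 90) ^ 50 / sqrt M ≤ X ^ 4530 * sqrt (2 ^ t) / sqrt N := by
  rw [div_le_div_iff₀ (by positivity) (by positivity)]
  calc _ ≤ (X ^ 90) ^ 50 * sqrt ((X ^ 30) ^ 2 * (2 ^ t * M)) := by
        gcongr
        refine h2.trans ?_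
        rw [mul_assoc, ← pow_mul]
        gcongr
        norm_num
    _ = _ := by
        rw [sqrt_mul (by positivity), sqrt_sq (by positivity), sqrt_mul (by positivity), ← pow_mul,
          show 4530 = 90 * 50 + 30 from rfl, pow_add]
        ac_rfl

lemma del_le (hX : 10 ^ 7 ≤ X) (N0 : 0 < N) {t0 : ℕ} (h1 : (t0 : ℝ) ≤ X) (h2 : N ≤ 4 * 4 ^ t0) :
    ∑ t ∈ range t0, 2 * (X ^ 4530 * sqrt (2 ^ t) / sqrt N) / 2 ^ t + 1 / 2 ^ t0 +
      2 * (X ^ 4530 * sqrt (2 ^ 0) / sqrt N) * (X ^ 2 * X ^ 60 / (1 / 10 ^ 6 * (1 / X ^ 13) ^ 2)) ≤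
      X ^ 4619 / sqrt N := by
  have X1 : 1 ≤ X := le_trans (by norm_num) hX
  have s0 : 0 < sqrt N := sqrt_pos.2 N0
  have a : ∑ t ∈ range t0, 2 * (X ^ 4530 * sqrt (2 ^ t) / sqrt N) / 2 ^ t ≤
      2 * X ^ 4618 / sqrt N := by
    calc _ ≤ ∑ _t ∈ range t0, 2 * (X ^ 4530 / sqrt N) := sum_le_sum fun t _ => by
          rw [div_le_iff₀ (by positivity), mul_assoc, div_mul_eq_mul_div]
          gcongr
          exact sqrt_le_iff.2 ⟨by positivity, le_self_pow₀ (one_le_pow₀ one_le_two) two_ne_zero⟩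
      _ = 2 * (X ^ 4530 * t0) / sqrt N := by
          rw [sum_const, card_range, nsmul_eq_mul]
          generalize X ^ 4530 = Z
          ring
      _ ≤ 2 * (X ^ 4530 * X) / sqrt N := by gcongr
      _ ≤ _ := by
          rw [← pow_succ]
          gcongr
          norm_num
  have b : 1 / 2 ^ t0 ≤ 2 * X ^ 4618 / sqrt N := by
    rw [div_le_div_iff₀ (by positivity) s0, one_mul]
    calc sqrt N ≤ 2 * 1 * 2 ^ t0 := by
          refine sqrt_le_iff.2 ⟨by positivity, h2.trans (le_of_eq ?_)⟩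
          rw [mul_pow, ← pow_mul, mul_comm t0, pow_mul]
          norm_num
      _ ≤ _ := by
          gcongr
          exact one_le_pow₀ X1
  have c : 2 * (X ^ 4530 * sqrt (2 ^ 0) / sqrt N) *
      (X ^ 2 * X ^ 60 / (1 / 10 ^ 6 * (1 / X ^ 13) ^ 2)) = 2 * 10 ^ 6 * X ^ 4618 / sqrt N := by
    rw [pow_zero, sqrt_one, show 4618 = 4530 + 88 from rfl, pow_add]
    generalize X ^ 4530 = Z
    field_simp
  rw [c]
  calc _ ≤ 10 ^ 7 * X ^ 4618 / sqrt N := by
        have : 0 < X ^ 4618 / sqrt N := by positivity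
        simp only [mul_div_assoc] at a b ⊢
        linarith
    _ ≤ X * X ^ 4618 / sqrt N := by gcongr
    _ = _ := by rw [← pow_succ']

lemma err_le (hX : 10 ^ 7 ≤ X) {t0 : ℕ} (h1 : (t0 : ℝ) ≤ X) :
    2 * 1024 * (1 / X ^ 90) * (t0 + X ^ 2 * X ^ 60 / (1 / 10 ^ 6 * (1 / X ^ 13) ^ 2)) ≤ 1 / 100 := by
  have X1 : 1 ≤ X := le_trans (by norm_num) hX
  have a : (t0 : ℝ) ≤ X ^ 88 := h1.trans (le_self_pow₀ X1 (by norm_num))
  calc _ ≤ 2 * 1024 * (1 / X ^ 90) *
        (X ^ 88 + X ^ 2 * X ^ 60 / (1 / 10 ^ 6 * (1 / X ^ 13) ^ 2)) := by gcongr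
    _ = 2048 * (1 + 10 ^ 6) / X ^ 2 := by field_simp; ring
    _ ≤ 2048 * (1 + 10 ^ 6) / (10 ^ 7) ^ 2 := by gcongr
    _ ≤ _ := by norm_num

lemma size {N : ℕ} (hN : (101 : ℝ) ≤ N) (h : 4 * log N ≤ X) :
    (101 : ℝ) * (2 * N ^ 2 + 6) ^ N ≤ exp (X * N) := by
  have N1 : 1 ≤ N := by exact_mod_cast le_trans (by norm_num : (1 : ℝ) ≤ 101) hN
  calc _ ≤ (N : ℝ) ^ N * (N ^ 3) ^ N := by
        gcongr
        · exact hN.trans (le_self_pow₀ (by linarith) (by omega))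
        · nlinarith
    _ = exp (4 * log N * N) := by
        rw [← mul_pow, mul_comm _ (N : ℝ), exp_nat_mul, ← pow_succ']
        congr 1
        rw [show (4 : ℝ) = (4 : ℕ) by norm_num, exp_nat_mul, exp_log (by linarith)]
    _ ≤ _ := by gcongr

lemma last (hX : 10 ^ 7 ≤ X) (N0 : 0 < N) {δ : ℝ} (d0 : 0 < δ) (h : δ ≤ X ^ 4619 / sqrt N) :
    sqrt N / X ^ 13000 ≤ N / 200000 / (200 * δ * (2 * N)) := by
  have X1 : 1 ≤ X := le_trans (by norm_num) hX
  have s0 : 0 < sqrt N := sqrt_pos.2 N0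
  calc _ ≤ sqrt N / (8 * 10 ^ 7 * X ^ 4619) := by
        gcongr
        calc _ ≤ X ^ 2 * X ^ 4619 := by gcongr; nlinarith
          _ ≤ _ := by rw [← pow_add]; exact pow_le_pow_right₀ X1 (by norm_num)
    _ = N / 200000 / (200 * (X ^ 4619 / sqrt N) * (2 * N)) := by
        have : 0 < X ^ 4619 := by positivity
        generalize X ^ 4619 = Z at this ⊢
        field_simp
        norm_num
    _ ≤ _ := by gcongr

end InstB

open InstB in
theorem instB_proof (hS : SysStmt) (hBN : BlockNumStmt) (hFa : FarStmt) (hI : IsoStmt)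
    (hG : GeoNumStmt) : InstBStmt := by
  obtain ⟨C, -, hS⟩ := hS
  refine ⟨max C (10 ^ 7), 13000, le_max_of_le_right (by norm_num), fun N X h1 h2 h3 n hn => ?_⟩
  have hX : 10 ^ 7 ≤ X := (le_max_right _ _).trans h1
  have X1 : 1 ≤ X := le_trans (by norm_num) hX
  have pw : ∀ {a b : ℕ}, a ≤ b → X ^ a ≤ X ^ b := pow_le_pow_right₀ X1
  have XN : X ≤ N := (le_self_pow₀ X1 (by norm_num)).trans h3
  have N0 : (0 : ℝ) < N := by linarith
  have lg : 0 ≤ log N := log_nonneg (X1.trans XN)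
  have l2 : 20 * log N ≤ X := le_trans (by gcongr; exact le_max_of_le_right (by norm_num)) h2
  obtain ⟨B, _, _, M, blk, s, Γ, lev, t0, D, x⟩ := hS N X ((le_max_left _ _).trans h1)
    (le_trans (by gcongr; exact le_max_left _ _) h2) h3
  have h4 : X ^ 100 ≤ N := (pw (by norm_num)).trans h3
  have g := x.gs
  have XY : X ≤ X ^ 90 := le_self_pow₀ X1 (by norm_num)
  have dm : ∀ J, (X ^ 90) ^ 70 ≤ M J := fun J =>
    dim_ge X1 h3 (cd_fin N ▸ x.lev_le J) (cd_fin N ▸ x.dim_ge J)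
  clear h3
  have XM : ∀ J, X ≤ M J := fun J => (XY.trans (le_self_pow₀ (X1.trans XY) (by norm_num))).trans (dm J)
  have o0 : 0 < 1 / X ^ 13 := by positivity
  have o8 : 1 / X ^ 13 ≤ 1 / 8 := one_div_le_one_div_of_le (by norm_num)
    (le_trans (by linarith) (le_self_pow₀ X1 (by norm_num)))
  have op : ∀ J, Op (blk J) (s J) (X ^ 60 * M J) := fun J => op_mono (g.op J _ subset_rfl) (by
    have a := x.size J
    have b : (M J : ℝ) ≤ X ^ 58 * M J := le_mul_of_one_le_left (by positivity) (one_le_pow₀ X1)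
    have c : 2 * (X ^ 58 * M J) ≤ X * (X ^ 58 * M J) :=
      mul_le_mul_of_nonneg_right (by linarith) ((Nat.cast_nonneg _).trans b)
    calc _ ≤ X * (X * (X ^ 58 * M J)) := mul_le_mul_of_nonneg_left (by linarith) (by linarith)
      _ = _ := by ring)
  have bl : ∀ J, BlockB (1 / X ^ 13) (X ^ 4530 * sqrt (2 ^ lev J) / sqrt N) (1 / X ^ 90) (Γ J)
      (blk J) (s J) := fun J => by
    obtain ⟨sp2, r1, r2⟩ := x.rip J
    have := hBN _ _ (Γ J) (blk J) (s J) (X ^ 90) X (X ^ 60) (1 / X ^ 13) sp2 (hX.trans XY)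
    rw [cd_fin] at this
    refine blockB_mono o0 o8 (this (dm J) (g.int J) (g.dual J) (g.zero J) (g.ent J) (x.nrm J)
      (by linarith) XY (r1.trans (by gcongr)) r2 (one_le_pow₀ X1) (pw (by norm_num)) (op J)
      ((x.size J).trans (by gcongr; norm_num)) ?_
      (one_div_le_one_div_of_le (by positivity) (pw (by norm_num))) o8 (x.span J))
      (A_ge X1 N0 (by linarith [XM J]) (cd_fin N ▸ x.dim_ge J))
    calc _ ≤ (N : ℝ) := by exact_mod_cast (card_le_univ _).trans (Fintype.card_fin N).le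
      _ = exp (log N) := (exp_log N0).symm
      _ ≤ _ := by gcongr; linarith
  obtain ⟨c, dd, c1, md⟩ := hG _ B M blk s Γ X hX (by rwa [cd_fin])
    (by rwa [cd_fin]) g x.c1 x.cardB XM x.unit
  rw [cd_fin] at md
  have key := model_proof ramp_proof bit_proof (deriv_proof ramp_proof bit_proof) reduce_proof'
    _ _ _ (tc s) c dd (N ^ 2) _ _ _ _ o0 o8 ?_ (by positivity) (by positivity) c1
    (fun j => by simpa [cd_fin] using g.row j) md (fun f f1 f2 =>
      (hI _ B M blk s Γ lev t0 D (fun t => X ^ 4530 * sqrt (2 ^ t) / sqrt N) (X ^ 2) (X ^ 60)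
        (1 / 10 ^ 6) (1 / X ^ 13) 1024 (1 / X ^ 90) c f o0 o8 (by positivity) (by positivity)
        (by positivity) (by positivity) (fun _ => by positivity) x.t0_pos x.D_pos g.zero g.deg op
        (fun J => by
          rw [one_div_mul_eq_div]
          exact (hFa _ _ _ _ _).1 _ _ _ (by positivity) (g.int J) (x.span J))
        g.dual x.hash x.degt x.cnt bl f1 f2).trans
        (add_le_add le_rfl (err_le hX x.t0_le))) n ?_
  · exact (last hX N0 (by positivity) (del_le hX N0 x.t0_le (cd_fin N ▸ x.t0_ge))).trans key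
  · positivity
  · rw [Fintype.card_fin]
    exact_mod_cast (size (by linarith) (by linarith)).trans hn

end Vale.Agent.P318.B
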