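import Vale.Agent.P318.B.Stmt
import Vale.Agent.P318.M.Noised
import Vale.Agent.P318.M.Fourier
import Vale.Agent.P318.M.Deriv
import Vale.Agent.P318.M.Ramp
import Vale.Agent.P318.M.Bit

/-!
The isoperimetric inequality of the multi-scale model.
-/

namespace Vale.Agent.P318.B

open Finset MeasureTheory Vale.Agent.P318.M

namespace Iso

open Noised

section Emb

variable {ι B : Type} [Fintype B] [DecidableEq B] {M : B → ℕ}

/-- The vector supported in the block `J`. -/
def emb (J : B) (η : Fin (M J) → ℝ) : Kt M → ℝ :=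
  fun x => (Pi.single J η : (J : B) → Fin (M J) → ℝ) x.1 x.2

omit [Fintype B] in
theorem meas_emb (J : B) : Measurable (emb (M := M) J) := by
  refine measurable_pi_lambda _ fun x => ?_
  obtain ⟨J', k⟩ := x
  by_cases h : J' = J
  · subst h
    simp only [emb, Pi.single_eq_same]
    exact measurable_pi_apply _
  · simp only [emb, Pi.single_eq_of_ne h]
    exact measurable_const

theorem lin_emb (s : (J : B) → ι → Fin (M J) → ℤ) (J : B) (η : Fin (M J) → ℝ) :
    lin (tc s) (emb J η) = lin (s J) η := by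
  funext j
  simp only [lin, ip, tc, emb]
  rw [Fintype.sum_sigma, Finset.sum_eq_single J]
  · simp
  · intro J' _ h
    simp [Pi.single_eq_of_ne h]
  · simp

omit [Fintype B] in
theorem emb_mem {Γ : (J : B) → AddSubgroup (Fin (M J) → ℝ)} (J : B) {η : Fin (M J) → ℝ}
    (h : η ∈ Γ J) : emb J η ∈ tl Γ := by
  intro J'
  change (Pi.single J η : (J : B) → Fin (M J) → ℝ) J' ∈ Γ J'
  by_cases hJ : J' = J
  · subst hJ
    rwa [Pi.single_eq_same]
  · rw [Pi.single_eq_of_ne hJ]
    exact (Γ J').zero_mem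

end Emb

/-- Indicator of the dyadic level `t`. -/
noncomputable def lv (t k : ℕ) : ℝ := if 2 ^ t ≤ k ∧ k < 2 * 2 ^ t then 1 else 0

theorem lv_nonneg (t k : ℕ) : 0 ≤ lv t k := by
  unfold lv
  split_ifs <;> norm_num

theorem one_le_lv (t0 : ℕ) {k : ℕ} (hk : k ≠ 0) :
    1 ≤ ∑ t ∈ range t0, lv t k + 1 / 2 ^ t0 * (k : ℝ) := by
  have h0 : 0 ≤ ∑ t ∈ range t0, lv t k := sum_nonneg fun t _ => lv_nonneg t k
  by_cases h : 2 ^ t0 ≤ k
  · have h1 : (2 : ℝ) ^ t0 ≤ k := by exact_mod_cast h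
    have h2 : 1 ≤ 1 / 2 ^ t0 * (k : ℝ) := by
      rw [one_div, inv_mul_eq_div, le_div_iff₀ (by positivity), one_mul]
      exact h1
    linarith
  · have h1 : Nat.log 2 k < t0 := Nat.log_lt_of_lt_pow hk (not_le.1 h)
    have h2 := single_le_sum (f := fun t => lv t k) (fun t _ => lv_nonneg t k) (mem_range.2 h1)
    have h3 : lv (Nat.log 2 k) k = 1 := by
      refine if_pos ⟨Nat.pow_log_le_self 2 hk, ?_⟩
      rw [← pow_succ']
      exact Nat.lt_pow_succ_log_self (by norm_num) k
    have h4 : 0 ≤ 1 / 2 ^ t0 * (k : ℝ) := by positivity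
    simp only [h3] at h2
    linarith

end Iso

open Noised Iso in
theorem iso_proof (hFr : FreezeStmt) (hT : TVBStmt) : IsoStmt := by
  intro ι B _ _ _ _ M blk s Γ lev t0 D A F β c2 ω Q ε c f h0 h1 hc2 hβ hF0 hε hA ht0 hD1 hz hdeg
    hop hlat hdual hhash hdt hcnt hblk hf01 hinv
  have hF := fourier_proof ramp_proof bit_proof
  have hD := deriv_proof ramp_proof bit_proof
  have R := ramp_proof.2 ω h0 h1
  have hf : U01 f := fun x => by rcases hf01 x with h | h <;> simp [h]
  have hff : (fun x => f x ^ 2) = f := funext fun x => by rcases hf01 x with h | h <;> simp [h]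
  have ml := meas_lin (tc s) c
  obtain ⟨f0, -, fvar, fI, fW, -⟩ := hF ι ω f h0 h1 hf
  obtain ⟨dE, d1, -, dbm, -⟩ := hD ι ω f h0 h1 hf
  rw [hff] at fvar
  have bE : BM fun η => Ey ω f (c + lin (tc s) η) := bm_comp (F := Ey ω f) ⟨dE.1, 1, fun y => by
    rw [abs_of_nonneg (dE.2 y).1]; exact (dE.2 y).2⟩ ml
  have bE2 : BM fun η => Ey ω f (c + lin (tc s) η) ^ 2 := by
    simpa only [sq] using bm_mul bE bE
  have bI : ∀ J, BM fun η => Inf ω J f (c + lin (tc s) η) := fun J => bm_comp (dbm J).2.2.1 ml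
  have bQ : ∀ J, BM fun η => Q1 ω 1 J f (c + lin (tc s) η) := fun J =>
    bm_comp (F := Q1 ω 1 J f) (by rw [Q1_eq]; exact bm_fsum hF h0 h1 hf _) ml
  have bW : ∀ t, BM fun η => ∑ S : Finset ι, lv t S.card * fw ω f S (c + lin (tc s) η) := fun t =>
    bm_comp (bm_fsum hF h0 h1 hf fun S => lv t S.card) ml
  set I := tm (fun η => Inf ω univ f (c + lin (tc s) η)) with hI
  have hJ : ∀ J, tm (fun η => Q1 ω 1 (blk J) f (c + lin (tc s) η)) ≤
      A (lev J) * tm (fun η => Inf ω (blk J) f (c + lin (tc s) η)) + ε := fun J =>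
    hFr ι (Fin (M J)) (Kt M) (Γ J) (tl Γ) (blk J) (s J) (tc s) (emb J) c f ω (A (lev J)) ε h0 h1
      (hA _) (hblk J) (hz J) (meas_emb J) (lin_emb s J)
      (fun n J' => (hlat J').1 fun k => n ⟨J', k⟩) hf
      (fun r hr z hz' => hinv (emb J r) (emb_mem J hr) z fun j => by rw [lin_emb]; exact hz' j)
      hinv
  have p1 : ∀ t < t0, ∀ y, (D : ℝ) * 2 ^ t / 2 * ∑ S : Finset ι, lv t S.card * fw ω f S y ≤
      ∑ J ∈ univ.filter fun J => lev J = t, Q1 ω 1 (blk J) f y := by
    intro t ht y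
    simp only [Q1_eq, one_pow]
    rw [sum_comm, mul_sum]
    refine sum_le_sum fun S _ => ?_
    rw [← sum_mul, ← mul_assoc]
    refine mul_le_mul_of_nonneg_right ?_ ((f0 S).2 y)
    rw [sum_boole, filter_filter]
    unfold lv
    split_ifs with h
    · rw [mul_one]
      exact hhash t ht S h.1 h.2
    · rw [mul_zero]
      positivity
  have p2 : ∀ t y, ∑ J ∈ univ.filter fun J => lev J = t, Inf ω (blk J) f y ≤
      D * Inf ω univ f y := by
    intro t y
    have e : ∀ J, Inf ω (blk J) f y =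
        ∑ j, (if j ∈ blk J then (1 : ℝ) else 0) * (dpr ω (y j) * inf1 ω f j y) := fun J => by
      simp only [Inf, ite_mul, one_mul, zero_mul, sum_ite_mem, univ_inter]
    simp only [e]
    rw [sum_comm, Inf, mul_sum]
    refine sum_le_sum fun j _ => ?_
    rw [← sum_mul]
    refine mul_le_mul_of_nonneg_right ?_
      (mul_nonneg (R.dpr_nonneg _) ((abs_nonneg _).trans ((d1 j).2.2 y).1))
    rw [sum_boole, filter_filter]
    exact_mod_cast hdt t j
  have hD0 : (0 : ℝ) < D := by exact_mod_cast hD1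
  have hW : ∀ t < t0, tm (fun η => ∑ S : Finset ι, lv t S.card * fw ω f S (c + lin (tc s) η)) ≤
      2 * A t / 2 ^ t * I + 2 * Q * ε := by
    intro t ht
    have a1 := tm_mono (bm_mul (bm_const _) (bW t)) (bm_sum _ fun J _ => bQ (blk J))
      fun η => p1 t ht (c + lin (tc s) η)
    have a2 := tm_mono (bm_sum _ fun J _ => bI (blk J)) (bm_mul (bm_const _) (bI univ))
      fun η => p2 t (c + lin (tc s) η)
    rw [tm_mul, tm_sum _ fun J _ => bQ (blk J)] at a1
    rw [tm_mul, tm_sum _ fun J _ => bI (blk J)] at a2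
    have a3 : ∑ J ∈ univ.filter fun J => lev J = t,
        tm (fun η => Q1 ω 1 (blk J) f (c + lin (tc s) η)) ≤
        A t * ∑ J ∈ univ.filter fun J => lev J = t,
          tm (fun η => Inf ω (blk J) f (c + lin (tc s) η)) +
        (univ.filter fun J => lev J = t).card * ε := by
      rw [mul_sum, ← nsmul_eq_mul, ← sum_const, ← sum_add_distrib]
      refine sum_le_sum fun J hJt => ?_
      rw [← (mem_filter.1 hJt).2]
      exact hJ J
    have a4 := mul_le_mul_of_nonneg_left a2 (hA t)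
    have a5 := mul_le_mul_of_nonneg_right (hcnt t) hε
    refine le_of_mul_le_mul_left ?_ (by positivity : 0 < (D : ℝ) * 2 ^ t / 2)
    rw [show (D : ℝ) * 2 ^ t / 2 * (2 * A t / 2 ^ t * I + 2 * Q * ε) =
      A t * (D * I) + D * Q * 2 ^ t * ε by field_simp]
    linarith
  have p3 : ∀ y, Ey ω f y - Ey ω f y ^ 2 ≤
      ∑ t ∈ range t0, ∑ S : Finset ι, lv t S.card * fw ω f S y + 1 / 2 ^ t0 * Inf ω univ f y := by
    intro y
    rw [fvar y, sum_comm]
    refine le_trans ?_ (add_le_add_right (mul_le_mul_of_nonneg_left (fI y) (by positivity)) _)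
    rw [mul_sum, ← sum_add_distrib]
    refine sum_le_sum fun S _ => ?_
    rw [← sum_mul, ← mul_assoc, ← add_mul]
    split_ifs with h
    · exact mul_nonneg (add_nonneg (sum_nonneg fun t _ => lv_nonneg _ _) (by positivity))
        ((f0 S).2 y)
    · exact le_mul_of_one_le_left ((f0 S).2 y) (one_le_lv t0 (card_ne_zero.2 (nonempty_iff_ne_empty.2 h)))
  have b1 := tm_mono (bm_add bE (bm_mul (bm_const (-1)) bE2))
    (bm_add (bm_sum (range t0) fun t _ => bW t) (bm_mul (bm_const (1 / 2 ^ t0)) (bI univ)))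
    fun η => by linarith [p3 (c + lin (tc s) η)]
  rw [tm_add bE (bm_mul (bm_const (-1)) bE2), tm_mul,
    tm_add (bm_sum (range t0) fun t _ => bW t) (bm_mul (bm_const _) (bI univ)), tm_mul,
    tm_sum _ fun t _ => bW t] at b1
  have b2 := sum_le_sum fun t (ht : t ∈ range t0) => hW t (mem_range.1 ht)
  rw [sum_add_distrib, ← sum_mul, sum_const, card_range, nsmul_eq_mul] at b2
  have b3 := hT ι B M blk s Γ F β c2 ω c f h0 h1 hc2 hβ hz hdeg hop hlat hdual hf hinv
  have e : (fun η => W1 ω univ f (c + lin (tc s) η)) =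
      fun η => ∑ S : Finset ι, lv 0 S.card * fw ω f S (c + lin (tc s) η) := by
    funext η
    rw [fW]
    refine sum_congr rfl fun S _ => ?_
    unfold lv
    by_cases h : S.card = 1
    · simp [h]
    · rw [if_neg h, if_neg (by omega), zero_mul]
  rw [e] at b3
  have b4 := mul_le_mul_of_nonneg_left (hW 0 ht0) (by positivity : 0 ≤ F * β / (c2 * ω ^ 2))
  rw [pow_zero, div_one] at b4
  linarith

end Vale.Agent.P318.B
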