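import Vale.Agent.P318.B.Stmt
import Vale.Agent.P318.M.Block0

/-! The low frequencies of the fibre mean. -/

namespace Vale.Agent.P318.B

open Finset MeasureTheory Vale.Agent.P318.M Vale.Agent.P318.M.Block

namespace Low

theorem re_ch {x : ℝ} {k L : ℕ} (hk : k < L) (hx : nd x ≤ 1 / (8 * L)) :
    1 / 2 ≤ (ch (k * x)).re := by
  have hL : (k : ℝ) ≤ L := by exact_mod_cast hk.le
  have hL0 : (0 : ℝ) < L := by exact_mod_cast (Nat.zero_le k).trans_lt hk
  rw [ch, show 2 * Real.pi * Complex.I * ((k * x : ℝ) : ℂ) = ((2 * Real.pi * (k * (x - round x)) +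
    ((k * round x : ℤ) : ℝ) * (2 * Real.pi) : ℝ) : ℂ) * Complex.I by push_cast; ring,
    Complex.exp_ofReal_mul_I_re, Real.cos_add_int_mul_two_pi]
  refine le_trans ?_ Real.one_sub_sq_div_two_le_cos
  have h1 : |2 * Real.pi * (k * (x - round x))| ≤ 1 := by
    rw [abs_mul, abs_mul (k : ℝ), abs_of_pos Real.two_pi_pos, Nat.abs_cast]
    calc _ ≤ 2 * 4 * (L * (1 / (8 * L : ℝ))) := by
          gcongr
          exacts [Real.pi_le_four, hx]
      _ = 1 := by field_simp; norm_num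
  have h2 := (sq_le_one_iff_abs_le_one _).2 h1
  linarith

variable {κ : Type} [Fintype κ]

theorem comb (hF : FcStmt) {F : (κ → ℝ) → ℝ} (hb : BM F) (hp : Per F) {L : ℕ} (hL : 1 ≤ L)
    (v : κ → ℝ) (m : κ → ℤ) (hx : nd (ip m v) ≤ 1 / (8 * L)) :
    ‖fc F m‖ ≤ 2 * ‖fc (fun η => (1 / L : ℝ) * ∑ k ∈ range L, F (η + (k : ℝ) • v)) m‖ := by
  have hL0 : (0 : ℝ) < L := by exact_mod_cast hL
  have h1 := ((hF κ).2.1 ℕ (range L) (fun _ => (1 / L : ℝ)) (fun k η => F (η + (k : ℝ) • v))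
    fun k _ => bm_comp hb (measurable_add_const _)).2.2 m
  simp only [(hF κ).1 F hp hb, ip_smul, ← mul_assoc, ← sum_mul] at h1
  simp only [mul_sum]
  rw [h1, norm_mul, ← mul_assoc]
  refine le_mul_of_one_le_left (norm_nonneg _) ?_
  have h2 : ∑ _k ∈ range L, (1 / L : ℝ) * (1 / 2) ≤
      (∑ k ∈ range L, ((1 / L : ℝ) : ℂ) * ch (k * ip m v)).re := by
    rw [Complex.re_sum]
    refine sum_le_sum fun k hk => ?_
    rw [Complex.re_ofReal_mul]
    exact mul_le_mul_of_nonneg_left (re_ch (mem_range.1 hk) hx) (by positivity)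
  rw [sum_const, card_range, nsmul_eq_mul, ← mul_assoc, mul_one_div_cancel hL0.ne'] at h2
  linarith [Complex.re_le_norm (∑ k ∈ range L, ((1 / L : ℝ) : ℂ) * ch (k * ip m v))]

end Low

theorem low_proof (hF : FcStmt) (hR : RegStmt) (hC : ChunkStmt) : LowStmt := by
  intro ι κ _ _ _ Γ J s ω Bn Λ2 c2 L t h hΓ hd hz hB hO hc hL hfar h0 h8 hU hi S hS
  obtain ⟨-, r2, -, r4, r5⟩ := hR ι κ Γ s ω t h hΓ h0 h8 hU hi
  have hπ := Real.pi_pos
  have key : ∀ m ∈ S, ‖fc (mE ω h t s) m‖ ^ 2 ≤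
      Bn / (Real.pi ^ 2 * c2) * ∑ l ∈ J, ‖fc (cq ω h t s L l) m‖ ^ 2 := fun m hm => by
    rcases eq_or_ne (fc (mE ω h t s) m) 0 with e | e
    · rw [e, norm_zero, zero_pow two_ne_zero]
      positivity
    have hD : Dual Γ m := by
      by_contra hn
      exact e (r5 hd m hn)
    set w := 2 * Real.pi * Complex.I * fc (mE ω h t s) m with hw
    have hw0 : w ≠ 0 := mul_ne_zero Complex.two_pi_I_ne_zero e
    have hn : ‖w‖ = 2 * Real.pi * ‖fc (mE ω h t s) m‖ := by
      rw [hw, norm_mul, norm_mul, Complex.norm_I, mul_one, norm_mul, Complex.norm_real,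
        Complex.norm_ofNat, Real.norm_of_nonneg hπ.le]
    set α : ι → ℝ := fun l => (fc (qq ω h t s l) m / w).re with hα
    have h1 : ∀ k, (m k : ℝ) = ∑ j ∈ J, α j * s j k := fun k => by
      have h2 : (m k : ℂ) = ∑ j, (s j k : ℂ) * (fc (qq ω h t s j) m / w) := by
        simp only [← mul_div_assoc, ← sum_div]
        rw [r4, eq_div_iff hw0, hw]
        ring
      have h3 := congrArg Complex.re h2
      rw [Complex.intCast_re, Complex.re_sum] at h3
      rw [h3, ← sum_subset (subset_univ J) fun j _ hj => by simp [hz j hj]]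
      refine sum_congr rfl fun j _ => ?_
      rw [← Complex.ofReal_intCast, Complex.re_ofReal_mul, mul_comm]
    set z : ι → ℝ := fun l => if l ∈ tset J s L m then 0 else α l with hzz
    have h2 : ∀ k, (m k : ℝ) - ∑ l ∈ tset J s L m, α l * s l k = ∑ j ∈ J, z j * s j k := fun k => by
      rw [h1, tset, sum_filter, ← sum_sub_distrib]
      refine sum_congr rfl fun j hj => ?_
      simp only [hzz, tset, mem_filter, hj, true_and]
      split_ifs <;> simp
    have h3 := hfar m hD (hS m hm).1 (hS m hm).2 α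
    simp only [h2] at h3
    have h4 := h3.trans (((hC ι κ J s).2.2.2 Bn hB).1 hO z)
    have hM : 0 < ‖fc (mE ω h t s) m‖ := norm_pos_iff.2 e
    have h5 : ∀ j ∈ J, z j ^ 2 ≤
        ‖fc (cq ω h t s L j) m‖ ^ 2 / (Real.pi * ‖fc (mE ω h t s) m‖) ^ 2 := fun j hj => by
      simp only [hzz, tset, mem_filter, hj, true_and]
      split_ifs with hh
      · rw [zero_pow two_ne_zero]
        positivity
      rw [← div_pow, ← sq_abs]
      refine pow_le_pow_left₀ (abs_nonneg _) ((Complex.abs_re_le_norm _).trans ?_) 2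
      rw [norm_div, hn, mul_assoc, div_mul_eq_div_div]
      gcongr
      have h6 := Low.comb hF (r2 j).1 (r2 j).2.1 hL (dir s j) m (not_lt.1 hh)
      exact (div_le_iff₀' two_pos).2 h6
    have h6 := h4.trans (mul_le_mul_of_nonneg_left (sum_le_sum h5) hB)
    rw [← sum_div, ← mul_div_assoc, le_div_iff₀ (by positivity)] at h6
    rw [div_mul_eq_mul_div, le_div_iff₀ (by positivity)]
    linarith
  refine (sum_le_sum key).trans ?_
  rw [← mul_sum, sum_comm]
  refine mul_le_mul_of_nonneg_left (sum_le_sum fun l _ => ?_) (by positivity)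
  obtain ⟨-, -, -, -, -, -, -, -, -, -, -, -, -, -, -, -, -, hq⟩ := r2 l
  exact (hF κ).2.2.2.1 _ (hq L).2 (hq L).1 S

end Vale.Agent.P318.B
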