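import Vale.Agent.P318.B.Stmt
import Vale.Agent.P318.M.Metric
import Vale.Agent.P318.M.Ramp
import Vale.Agent.P318.M.Torus
import Vale.Agent.P318.M.Bit
import Vale.Agent.P318.M.Neg
import Vale.Agent.P318.M.Block0

/-!
Collapse of the bad vertices and snowflake, for the multi-scale construction.
-/

namespace Vale.Agent.P318.B

open Finset MeasureTheory Vale.Agent.P318.M

namespace MetricB

/-- A weight `d` with `d ^ 2 ≤ k ^ 2 p (1 - p)` times a conditional mean. -/
lemma cond_le {ι : Type} [Fintype ι] [DecidableEq ι] {p : ι → ℝ} (hp : ∀ i, 0 ≤ p i ∧ p i ≤ 1)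
    {F : (ι → Bool) → ℝ} (hF : ∀ b, 0 ≤ F b ∧ F b ≤ 1) (j : ι) {d k : ℝ} (hk : 0 ≤ k)
    (hd : d ^ 2 ≤ k ^ 2 * (p j * (1 - p j))) (e : Bool) :
    d * Eb p (fun b => F (Function.update b j e)) ≤ k * Real.sqrt (Eb p F) := by
  have h0 : ∀ e : Bool, 0 ≤ Eb p (fun b => F (Function.update b j e)) := fun e =>
    Bit.Eb_nonneg hp fun b => (hF _).1
  have h1 : ∀ e : Bool, Eb p (fun b => F (Function.update b j e)) ≤ 1 := fun e => by
    have := Bit.Eb_mono hp (F := fun b => F (Function.update b j e)) (G := fun _ => 1)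
      fun b => (hF _).2
    rwa [Bit.Eb_const] at this
  have h2 : Eb p F = p j * Eb p (fun b => F (Function.update b j true)) +
      (1 - p j) * Eb p (fun b => F (Function.update b j false)) := by
    rw [Bit.Eb_cond p j F, Bit.Eb_add, Bit.Eb_const_mul, Bit.Eb_const_mul]
  have hE : 0 ≤ Eb p F := Bit.Eb_nonneg hp fun b => (hF _).1
  have p0 := (hp j).1
  have p1 : 0 ≤ 1 - p j := sub_nonneg.2 (hp j).2
  have h3 : p j * (1 - p j) * Eb p (fun b => F (Function.update b j e)) ^ 2 ≤ Eb p F := by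
    have a := h0 true
    have a' := h1 true
    have b := h0 false
    have b' := h1 false
    cases e
    · set u := Eb p (fun b => F (Function.update b j true))
      set v := Eb p (fun b => F (Function.update b j false))
      have q1 : p j * v ≤ 1 := mul_le_one₀ (hp j).2 b b'
      have q2 : 0 ≤ (1 - p j) * v := mul_nonneg p1 b
      have q3 : 0 ≤ p j * u := mul_nonneg p0 a
      nlinarith [mul_le_mul_of_nonneg_left q1 q2]
    · set u := Eb p (fun b => F (Function.update b j true))
      set v := Eb p (fun b => F (Function.update b j false))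
      have q1 : (1 - p j) * u ≤ 1 := mul_le_one₀ (by linarith) a a'
      have q2 : 0 ≤ (1 - p j) * v := mul_nonneg p1 b
      have q3 : 0 ≤ p j * u := mul_nonneg p0 a
      nlinarith [mul_le_mul_of_nonneg_left q1 q3]
  refine (abs_le_of_sq_le_sq' ?_ (mul_nonneg hk (Real.sqrt_nonneg _))).2
  rw [mul_pow, mul_pow, Real.sq_sqrt hE]
  calc _ ≤ k ^ 2 * (p j * (1 - p j)) * Eb p (fun b => F (Function.update b j e)) ^ 2 :=
        mul_le_mul_of_nonneg_right hd (sq_nonneg _)
    _ ≤ _ := by
        rw [mul_assoc]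
        exact mul_le_mul_of_nonneg_left h3 (sq_nonneg _)

lemma bm_sqrt {α : Type} [MeasurableSpace α] {F : α → ℝ} (hF : BM F) :
    BM fun x => Real.sqrt (F x) := by
  obtain ⟨m, C, hC⟩ := hF
  refine ⟨m.sqrt, Real.sqrt C, fun x => ?_⟩
  rw [abs_of_nonneg (Real.sqrt_nonneg _)]
  exact Real.sqrt_le_sqrt ((le_abs_self _).trans (hC x))

lemma tm_sqrt_le {κ : Type} [Fintype κ] {F : (κ → ℝ) → ℝ} (hF : BM F) (h0 : ∀ β, 0 ≤ F β)
    {x : ℝ} (h : tm F ≤ x) : tm (fun β => Real.sqrt (F β)) ≤ Real.sqrt x := by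
  have h1 := Block.tm_sq_le (bm_sqrt hF)
  simp only [Real.sq_sqrt (h0 _)] at h1
  exact Real.le_sqrt_of_sq_le (h1.trans h)

end MetricB

open MetricB MetricAux

theorem metricB_proof (hPr : ProjStmt) : MetricBStmt := by
  classical
  intro ι κ _ _ _ _ Γ S Sp c G ω Kp α pb hP hs hω0 hω1 hG1 hTr hK0 hα0 hα1 hαK hpb0 hpb hBM htm
  have hRa : RampAt ω := ramp_proof.2 ω hω0 hω1
  obtain ⟨N1, N2, -, N4, -, -, N7, -, N9⟩ := neg_proof
  obtain ⟨-, P2, P3, P4, P5, -⟩ := (hPr.1 ι κ S).2 Sp hP
  have hp : ∀ (y : ι → ℝ) i, 0 ≤ py ω y i ∧ py ω y i ≤ 1 := fun y i =>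
    ⟨hRa.pr_nonneg _, hRa.pr_le _⟩
  have hw0 : ∀ (y : ι → ℝ) b, 0 ≤ wt (py ω y) b := fun y => Bit.wt_nonneg (hp y)
  have hw1 : ∀ y : ι → ℝ, ∑ b, wt (py ω y) b = 1 := fun y => Bit.sum_wt _
  set Gd : (ι → ℤ) → Prop := fun x => G (vv S Sp c x) with hGd
  set ρ := rr S Sp c with hρ
  have R1 : CND ρ := N4 _ _ (vv S Sp c)
  have hρ0 : ∀ x x', 0 ≤ ρ x x' := N1 _ _ R1
  have hn1 : (1 : ℝ) ≤ cd ι := by
    unfold cd
    exact_mod_cast Fintype.card_pos
  have hn : (0 : ℝ) < cd ι := by linarith
  have R2 : ∀ x j, ρ x (x + Pi.single j 1) ≤ 1 := by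
    intro x j
    have h1 : ∀ i, vv S Sp c x i - vv S Sp c (x + Pi.single j 1) i =
        perp S Sp (fun i => -((Pi.single j (1 : ℤ) : ι → ℤ) i : ℝ)) i := by
      intro i
      have h2 : (fun i => -((Pi.single j (1 : ℤ) : ι → ℤ) i : ℝ)) =
          (fun i => (x i : ℝ) + c i) -
            fun i => (((x + Pi.single j 1 : ι → ℤ) i : ℤ) : ℝ) + c i := by
        funext i
        simp only [Pi.sub_apply, Pi.add_apply, Int.cast_add]
        ring
      rw [h2, P2]
      rfl
    simp only [hρ, rr, h1]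
    refine (P3 _).trans (le_of_eq ?_)
    rw [Finset.sum_eq_single j]
    · simp
    · intro i _ hi
      simp [Pi.single_eq_of_ne hi]
    · intro h
      exact absurd (mem_univ j) h
  have hgood : ∀ (β : κ → ℝ) (b : ι → Bool), Nice S Sp G (zz (c + lin S β) b) →
      Gd (pt (c + lin S β) b) ∧
        ∀ j, |vv S Sp c (pt (c + lin S β) b) j - zz (c + lin S β) b j| ≤ 1 / 160 := by
    intro β b h1
    simp only [hGd]
    rw [P4 c β b]
    exact h1
  obtain ⟨x0, hx0⟩ : ∃ x0, Gd x0 := by
    by_contra hcon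
    push Not at hcon
    have h1 : ∀ β : κ → ℝ, (Eb (py ω (c + lin S β)) fun b =>
        ind (¬ Nice S Sp G (zz (c + lin S β) b))) = 1 := by
      intro β
      rw [← Bit.Eb_const (py ω (c + lin S β)) 1]
      congr 1
      funext b
      exact ind_pos fun hv => hcon _ (hgood β b hv).1
    simp only [h1] at htm
    rw [Block.tm_const] at htm
    linarith
  set φ : (ι → ℤ) → (ι → ℤ) := fun x => if Gd x then x else x0 with hφ
  have hφg : ∀ x, Gd (φ x) := by
    intro x
    by_cases h : Gd x
    · simp only [hφ, if_pos h]; exact h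
    · simp only [hφ, if_neg h]; exact hx0
  have hφi : ∀ x, Gd x → φ x = x := fun x h => by simp only [hφ, if_pos h]
  have hbd : ∀ x x', ρ (φ x) (φ x') ^ α ≤ 4 * cd ι := by
    intro x x'
    have h2 : ρ (φ x) (φ x') ≤ ∑ _j : ι, (4 : ℝ) := by
      refine Finset.sum_le_sum fun j _ => ?_
      have a1 := abs_le.1 (hG1 _ (hφg x) j)
      have a2 := abs_le.1 (hG1 _ (hφg x') j)
      nlinarith [a1.1, a1.2, a2.1, a2.2]
    simp only [sum_const, card_univ, nsmul_eq_mul] at h2
    have h3 : ρ (φ x) (φ x') ≤ 4 * cd ι := by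
      unfold cd
      linarith
    calc _ ≤ (4 * cd ι) ^ α := Real.rpow_le_rpow (hρ0 _ _) h3 hα0.le
      _ ≤ (4 * cd ι) ^ (1 : ℝ) := Real.rpow_le_rpow_of_exponent_le (by linarith) hα1
      _ = _ := Real.rpow_one _
  have hBE : BM (fun β : κ → ℝ => Eb (py ω (c + lin S β)) fun b =>
      ind (¬ Nice S Sp G (zz (c + lin S β) b))) := Block.bm_comp hBM (meas_aff S c)
  have hint := integrable_of_BM hBE
  refine ⟨fun x x' => ρ (φ x) (φ x') ^ α, ?_, ?_, ?_, ⟨_, hbd⟩, ?_, ?_⟩
  · exact N7 _ _ α (N2 _ _ ρ φ R1) hα0 hα1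
  · intro x y z
    refine N9 _ _ _ Kp α (hρ0 _ _) (hρ0 _ _) (hρ0 _ _) hK0 hα0 hα1 hαK ?_
    have t1 := hTr _ _ _ (hφg x) (hφg y) (hφg z)
    have t2 := hTr _ _ _ (hφg z) (hφg y) (hφg x)
    rw [R1.2.1 (φ z) (φ x), R1.2.1 (φ z) (φ y), R1.2.1 (φ y) (φ x)] at t2
    rcases le_total (ρ (φ x) (φ y)) (ρ (φ y) (φ z)) with h | h
    · rw [min_eq_left h]; exact t1
    · rw [min_eq_right h]; linarith
  · intro x' r0 _ r hr x
    have e1 := P5 c r0 r x hr
    by_cases h : Gd x
    · have h' : Gd (x + r) := by simp only [hGd]; rw [e1]; exact h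
      show ρ (φ (x + r)) (φ x') ^ α = ρ (φ x) (φ x') ^ α
      rw [hφi _ h, hφi _ h']
      simp only [hρ, rr, e1]
    · have h' : ¬ Gd (x + r) := by simp only [hGd]; rw [e1]; exact h
      show ρ (φ (x + r)) (φ x') ^ α = ρ (φ x) (φ x') ^ α
      simp only [hφ, if_neg h, if_neg h']
  · have hbd' : ∀ j, BM fun β : κ → ℝ => dpr ω ((c + lin S β) j) := fun j =>
      Block.bm_comp (Block.bm_dpr hRa) ((measurable_pi_apply j).comp (meas_aff S c))
    have hb1 := Block.bm_sum univ fun j (_ : j ∈ (univ : Finset ι)) => hbd' j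
    have hb2 := Block.bm_mul (Block.bm_const (16 * cd ι ^ 2 / ω)) (bm_sqrt hBE)
    refine (tm_mono (G := fun β : κ → ℝ => ∑ j, dpr ω ((c + lin S β) j) + 16 * cd ι ^ 2 / ω *
      Real.sqrt (Eb (py ω (c + lin S β)) fun b => ind (¬ Nice S Sp G (zz (c + lin S β) b))))
      (fun β => ?_) (integrable_of_BM (Block.bm_add hb1 hb2)) fun β => ?_).trans ?_
    · exact Finset.sum_nonneg fun j _ => mul_nonneg (hRa.dpr_nonneg _)
        (Eb_nonneg (hw0 _) fun b => Real.rpow_nonneg (hρ0 _ _) _)
    · have hg := hgood β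
      set y := c + lin S β with hy
      set I : (ι → Bool) → ℝ := fun b => ind (¬ Nice S Sp G (zz y b)) with hI
      have hI01 : ∀ b, 0 ≤ I b ∧ I b ≤ 1 := fun b => ⟨ind_nonneg _, ind_le_one _⟩
      have h1 : ∀ j, dpr ω (y j) * (Eb (py ω y) fun b =>
          ρ (φ (pt y (Function.update b j true))) (φ (pt y (Function.update b j false))) ^ α) ≤
          dpr ω (y j) + 16 * cd ι / ω * Real.sqrt (Eb (py ω y) I) := by
        intro j
        have h2 : (Eb (py ω y) fun b =>
            ρ (φ (pt y (Function.update b j true))) (φ (pt y (Function.update b j false))) ^ α) ≤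
            Eb (py ω y) fun b => 1 + 4 * cd ι *
              (I (Function.update b j true) + I (Function.update b j false)) := by
          refine Bit.Eb_mono (hp y) fun b => ?_
          have i1 := hI01 (Function.update b j true)
          have i2 := hI01 (Function.update b j false)
          have i3 := hbd (pt y (Function.update b j true)) (pt y (Function.update b j false))
          by_cases hv1 : Nice S Sp G (zz y (Function.update b j true))
          · by_cases hv2 : Nice S Sp G (zz y (Function.update b j false))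
            · rw [hφi _ (hg _ hv1).1, hφi _ (hg _ hv2).1, pt_upd]
              have i4 := Real.rpow_le_one (hρ0 _ _) (R2 (pt y (Function.update b j true)) j) hα0.le
              nlinarith [i1.1, i2.1]
            · have i4 : I (Function.update b j false) = 1 := ind_pos hv2
              nlinarith [i1.1]
          · have i4 : I (Function.update b j true) = 1 := ind_pos hv1
            nlinarith [i2.1]
        rw [Eb_aff (hw1 _), Bit.Eb_add] at h2
        have hd : dpr ω (y j) ^ 2 ≤ (2 / ω) ^ 2 * (py ω y j * (1 - py ω y j)) := by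
          refine (hRa.dpr_sq_le _).trans (le_of_eq ?_)
          simp only [pq, py]
          ring
        have h3 := cond_le (hp y) hI01 j (k := 2 / ω) (by positivity) hd true
        have h4 := cond_le (hp y) hI01 j (k := 2 / ω) (by positivity) hd false
        refine (mul_le_mul_of_nonneg_left h2 (hRa.dpr_nonneg _)).trans ?_
        have h5 := mul_le_mul_of_nonneg_left (add_le_add h3 h4) (show 0 ≤ 4 * cd ι by linarith)
        have h6 : 16 * cd ι / ω * Real.sqrt (Eb (py ω y) I) = 4 * cd ι *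
            (2 / ω * Real.sqrt (Eb (py ω y) I) + 2 / ω * Real.sqrt (Eb (py ω y) I)) := by ring
        rw [h6]
        linarith
      refine (Finset.sum_le_sum fun j _ => h1 j).trans (le_of_eq ?_)
      rw [Finset.sum_add_distrib]
      simp only [sum_const, card_univ, nsmul_eq_mul, cd]
      ring
    · rw [Block.tm_add hb1 hb2, Block.tm_cmul, Block.tm_sum univ fun j _ => hbd' j]
      have h1 : ∀ j, tm (fun β : κ → ℝ => dpr ω ((c + lin S β) j)) = 1 := by
        intro j
        obtain ⟨k, hk⟩ := hs j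
        rw [← hRa.int_dpr,
          ← (torus_proof κ).2.2.2.2 (dpr ω) (S j) k (c j) (Block.bm_dpr hRa) hRa.dpr_per hk]
        rfl
      simp only [h1, sum_const, card_univ, nsmul_eq_mul, mul_one]
      have h2 := tm_sqrt_le hBE (fun β => Eb_nonneg (hw0 _) fun b => ind_nonneg _) htm
      have h3 := mul_le_mul_of_nonneg_left h2 (show 0 ≤ 16 * cd ι ^ 2 / ω by positivity)
      have h4 : 16 * cd ι ^ 2 * Real.sqrt pb / ω = 16 * cd ι ^ 2 / ω * Real.sqrt pb := by ring
      rw [h4]
      exact add_le_add le_rfl h3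
  · intro x'
    set v' := vv S Sp c (φ x') with hv'
    have hai : ∀ j, Integrable (fun β : κ → ℝ => arc ((c + lin S β) j - v' j + 1 / 80))
        (cube κ) := by
      intro j
      obtain ⟨hm, C, hC⟩ := arc_BM
      refine integrable_of_BM ⟨hm.comp ?_, C, fun β => hC _⟩
      exact (((measurable_pi_apply j).comp (meas_aff S c)).sub_const _).add_const _
    have ham : ∀ j, ∫ β, arc ((c + lin S β) j - v' j + 1 / 80) ∂cube κ ≤ 1 / 40 := by
      intro j
      obtain ⟨k, hk⟩ := hs j
      have h1 := (torus_proof κ).2.2.2.2 arc (S j) k (c j - v' j + 1 / 80) arc_BM arc_per hk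
      refine le_trans (le_of_eq ?_) arc_int
      rw [← h1]
      unfold tm
      congr 1
      funext β
      congr 1
      simp only [Pi.add_apply, lin]
      ring
    have hsi : Integrable (fun β : κ → ℝ => 2 / (Fintype.card ι : ℝ) *
        ∑ j, arc ((c + lin S β) j - v' j + 1 / 80)) (cube κ) :=
      (integrable_finsetSum _ fun j _ => hai j).const_mul _
    refine (tm_mono (G := fun β : κ → ℝ => 2 / (Fintype.card ι : ℝ) *
        ∑ j, arc ((c + lin S β) j - v' j + 1 / 80) + 1 *
      Eb (py ω (c + lin S β)) fun b => ind (¬ Nice S Sp G (zz (c + lin S β) b)))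
      (fun β => ?_) ?_ fun β => ?_).trans ?_
    · exact Eb_nonneg (hw0 _) fun b => ind_nonneg _
    · exact hsi.add (hint.const_mul 1)
    · rw [← Eb_aff (hw1 _)]
      refine Eb_mono (hw0 _) fun b hb => ?_
      beta_reduce
      have ha0 : 0 ≤ 2 / (Fintype.card ι : ℝ) * ∑ j, arc ((c + lin S β) j - v' j + 1 / 80) :=
        mul_nonneg (by positivity) (Finset.sum_nonneg fun j _ => ind_nonneg _)
      by_cases hv : Nice S Sp G (zz (c + lin S β) b)
      · obtain ⟨g1, g2⟩ := hgood β b hv
        rw [ind_neg (not_not.2 hv), mul_zero, add_zero]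
        by_cases hd : ρ (φ (pt (c + lin S β) b)) (φ x') ^ α < (cd ι / 51200) ^ α
        · rw [ind_pos hd]
          rw [hφi _ g1] at hd
          have h2 : ρ (pt (c + lin S β) b) (φ x') < cd ι / 51200 :=
            lt_of_not_ge fun h3 => absurd (Real.rpow_le_rpow (by positivity) h3 hα0.le)
              (not_le.2 hd)
          exact count_arc (c + lin S β) (vv S Sp c (pt (c + lin S β) b)) v'
            (pt (c + lin S β) b) g2 h2
        · rw [ind_neg hd]
          exact ha0
      · rw [ind_pos hv]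
        linarith [ind_le_one (ρ (φ (pt (c + lin S β) b)) (φ x') ^ α < (cd ι / 51200) ^ α)]
    · unfold tm at htm ⊢
      rw [integral_add hsi (hint.const_mul 1), integral_const_mul, integral_const_mul,
        integral_finsetSum _ fun j _ => hai j]
      have h2 := Finset.sum_le_sum fun j (_ : j ∈ (univ : Finset ι)) => ham j
      simp only [sum_const, card_univ, nsmul_eq_mul] at h2
      have hn' : (0 : ℝ) < Fintype.card ι := hn
      have h3 : 2 / (Fintype.card ι : ℝ) *
          ∑ j, ∫ β, arc ((c + lin S β) j - v' j + 1 / 80) ∂cube κ ≤ 1 / 20 := by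
        refine (mul_le_mul_of_nonneg_left h2 (by positivity)).trans (le_of_eq ?_)
        field_simp
        norm_num
      linarith

end Vale.Agent.P318.B
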