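import Vale.Agent.P318.B.Stmt

/-!
Patterns (approximation, counting) and the basic facts on systems of blocks.
-/

namespace Vale.Agent.P318.B

open Finset Vale.Agent.P318.M

namespace PatBasic

lemma round_mono {x y : ℝ} (h : x ≤ y) : round x ≤ round y := by
  rw [round_eq, round_eq]
  exact Int.floor_le_floor (by linarith)

lemma digit_lt {g : ℕ} {x : ℝ} (hx : |x| ≤ 1) : (round ((x + 1) * g)).toNat < 2 * g + 1 := by
  have hg : (0 : ℝ) ≤ g := Nat.cast_nonneg g
  have h1 : (x + 1) * g ≤ ((2 * g : ℤ) : ℝ) := by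
    push_cast
    nlinarith [(abs_le.1 hx).2]
  have h2 : round ((x + 1) * g) ≤ (2 * g : ℤ) := by
    have := round_mono h1
    rwa [round_intCast] at this
  omega

lemma digit_cast {g : ℕ} {x : ℝ} (hx : |x| ≤ 1) :
    (((round ((x + 1) * g)).toNat : ℕ) : ℝ) = (round ((x + 1) * g) : ℝ) := by
  have hg : (0 : ℝ) ≤ g := Nat.cast_nonneg g
  have h1 : ((0 : ℤ) : ℝ) ≤ (x + 1) * g := by
    push_cast
    nlinarith [(abs_le.1 hx).1]
  have h2 : (0 : ℤ) ≤ round ((x + 1) * g) := by
    have := round_mono h1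
    rwa [round_intCast] at this
  have h3 : (((round ((x + 1) * g)).toNat : ℕ) : ℤ) = round ((x + 1) * g) := Int.toNat_of_nonneg h2
  exact_mod_cast h3

lemma digit_near {g : ℕ} (hg : 1 ≤ g) {x : ℝ} (hx : |x| ≤ 1) :
    |((((round ((x + 1) * g)).toNat : ℕ) : ℝ) - g) / g - x| ≤ 1 / g := by
  have hg0 : (0 : ℝ) < g := by exact_mod_cast hg
  rw [digit_cast hx]
  have h1 := abs_sub_round ((x + 1) * g)
  have h2 : ((round ((x + 1) * g) : ℝ) - g) / g - x = -((x + 1) * g - round ((x + 1) * g)) / g := by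
    field_simp
    ring
  rw [h2, abs_div, abs_neg, abs_of_pos hg0]
  exact div_le_div_of_nonneg_right (by linarith) hg0.le

lemma nsq_nonneg {κ : Type} [Fintype κ] (V : κ → ℝ) : 0 ≤ nsq V :=
  sum_nonneg fun _ _ => sq_nonneg _

lemma nsq_le_two {κ : Type} [Fintype κ] (D γ : κ → ℝ) :
    nsq γ ≤ 2 * nsq (D - γ) + 2 * nsq D := by
  simp only [nsq, mul_sum, ← sum_add_distrib]
  refine sum_le_sum fun k _ => ?_
  simp only [Pi.sub_apply]
  nlinarith [sq_nonneg (2 * D k - γ k)]

/-- Reduction of one block. -/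
lemma red_ex {κ : Type} [Fintype κ] (Γ : AddSubgroup (κ → ℝ))
    (hi : ∀ n : κ → ℤ, (fun k => (n k : ℝ)) ∈ Γ) (hm : ∀ γ ∈ Γ, γ ≠ 0 → 1 ≤ nsq γ) (D : κ → ℝ) :
    ∃ γ ∈ Γ, Red Γ (D - γ) := by
  by_cases h : ∃ γ ∈ Γ, nsq (D - γ) < 1 / 4
  · obtain ⟨γ, hγ, h4⟩ := h
    refine ⟨γ, hγ, fun k => ?_, fun γ' hγ' => ?_⟩
    · have h1 : (D - γ) k ^ 2 ≤ nsq (D - γ) :=
        single_le_sum (f := fun k => (D - γ) k ^ 2) (fun _ _ => sq_nonneg _) (mem_univ k)
      exact abs_le_of_sq_le_sq' (by nlinarith) (by norm_num) |> abs_le.2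
    · by_cases h0 : γ' = 0
      · rw [h0, sub_zero]
        exact min_le_right _ _
      · have h1 := hm γ' hγ' h0
        have h2 := nsq_le_two (D - γ) γ'
        exact (min_le_left _ _).trans (by linarith)
  · push Not at h
    refine ⟨fun k => (round (D k) : ℝ), hi _, fun k => abs_sub_round (D k), fun γ' hγ' => ?_⟩
    rw [sub_sub]
    exact (min_le_left _ _).trans (h _ (Γ.add_mem (hi _) hγ'))

lemma ip_sub {κ : Type} [Fintype κ] (m : κ → ℤ) (a b : κ → ℝ) :
    ip m (a - b) = ip m a - ip m b := by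
  simp only [ip, Pi.sub_apply, mul_sub, sum_sub_distrib]

lemma ip_zero {κ : Type} [Fintype κ] (a : κ → ℝ) : ip (0 : κ → ℤ) a = 0 := by
  simp [ip]

variable {ι B : Type} [Fintype ι] [DecidableEq ι] [Fintype B] [DecidableEq B] {M : B → ℕ}

omit [Fintype ι] [DecidableEq ι] [DecidableEq B] in
lemma lin_tc (s : (J : B) → ι → Fin (M J) → ℤ) (Δ : Kt M → ℝ) (i : ι) :
    lin (tc s) Δ i = ∑ J, ip (s J i) (res Δ J) := by
  simp only [lin, ip, tc, res]
  exact Fintype.sum_sigma _

omit [Fintype ι] [DecidableEq B] in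
/-- Double counting. -/
lemma sum_card_le (blk : B → Finset ι) {F : ℝ}
    (hd : ∀ i, ((univ.filter fun J => i ∈ blk J).card : ℝ) ≤ F) (S : Finset B) (T : Finset ι) :
    ∑ J ∈ S, ((T ∩ blk J).card : ℝ) ≤ F * T.card := by
  have h1 : ∀ J, ((T ∩ blk J).card : ℝ) = ∑ i ∈ T, if i ∈ blk J then (1 : ℝ) else 0 := by
    intro J
    rw [sum_boole, filter_mem_eq_inter]
  simp only [h1]
  rw [sum_comm]
  have h2 : ∀ i ∈ T, ∑ J ∈ S, (if i ∈ blk J then (1 : ℝ) else 0) ≤ F := by
    intro i _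
    rw [sum_boole]
    refine le_trans ?_ (hd i)
    exact_mod_cast card_le_card (filter_subset_filter _ (subset_univ S))
  refine (sum_le_sum h2).trans ?_
  rw [sum_const, nsmul_eq_mul, mul_comm]

end PatBasic

open PatBasic in
theorem pat_proof : PatStmt := by
  intro B _ _ M g
  refine ⟨fun π J hJ => ?_, fun Δ S S' hg hΔ hS => ?_, fun a => ?_⟩
  · simp only [pJ, pS, mem_filter, mem_univ, true_and] at hJ ⊢
    cases h : π J with
    | none => simp [h] at hJ
    | some v => rfl
  · refine ⟨fun J => if J ∈ S then some (decide (J ∈ S'),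
      fun k => ⟨(round ((Δ ⟨J, k⟩ + 1) * g)).toNat, digit_lt (hΔ _)⟩) else none, ?_, ?_, ?_, ?_⟩
    · ext J
      by_cases h : J ∈ S <;> simp [pS, h]
    · ext J
      by_cases h : J ∈ S
      · simp [pJ, h]
      · have h' : J ∉ S' := fun h' => h (hS h')
        simp [pJ, h, h']
    · intro x hx
      simp only [pD, hx, if_true, Option.elim]
      exact digit_near hg (hΔ x)
    · intro x hx
      simp only [pD, hx, if_false, Option.elim]
  · set w : (J : B) → Option (Bool × (Fin (M J) → Fin (2 * g + 1))) → ℝ :=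
      fun J o => if o.isSome = true then Real.exp (-a J) else 1 with hw
    have h1 : ∀ π : Pat M g, Real.exp (-∑ J ∈ pS π, a J) = ∏ J, w J (π J) := by
      intro π
      rw [← sum_neg_distrib, Real.exp_sum, pS, prod_filter]
    have h2 : ∑ π : Pat M g, ∏ J, w J (π J) = ∏ J, ∑ o, w J o :=
      (Fintype.prod_sum w).symm
    have h3 : ∀ J, ∑ o, w J o = 2 * (2 * g + 1 : ℝ) ^ M J * Real.exp (-a J) + 1 := by
      intro J
      rw [Fintype.sum_option]
      simp [hw]
      ring
    have h4 : ∏ J, ∑ o, w J o ≤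
        Real.exp (∑ J, 2 * (2 * g + 1 : ℝ) ^ M J * Real.exp (-a J)) := by
      rw [Real.exp_sum]
      refine prod_le_prod (fun J _ => ?_) fun J _ => ?_
      · rw [h3]; positivity
      · rw [h3]; exact Real.add_one_le_exp _
    have h5 : ∑ π : Pat M g, (if pS π = ∅ then 0 else Real.exp (-∑ J ∈ pS π, a J)) +
        ∑ π : Pat M g, (if pS π = ∅ then (1 : ℝ) else 0) = ∑ π : Pat M g, ∏ J, w J (π J) := by
      rw [← sum_add_distrib]
      refine sum_congr rfl fun π _ => ?_
      rw [← h1]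
      split_ifs with h
      · simp [h]
      · simp
    have h6 : (1 : ℝ) ≤ ∑ π : Pat M g, (if pS π = ∅ then (1 : ℝ) else 0) := by
      have h7 := single_le_sum (f := fun π : Pat M g => if pS π = ∅ then (1 : ℝ) else 0)
        (fun π _ => by split_ifs <;> norm_num) (mem_univ (fun _ => none : Pat M g))
      have h8 : pS (fun _ => none : Pat M g) = ∅ := by simp [pS]
      simpa only [h8, if_true] using h7
    linarith

open PatBasic in
theorem basic_proof : BasicStmt := by
  intro ι B _ _ _ _ M blk s Γ F Kb Lm Cn H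
  have hF := H.one_le_F
  have hK := H.one_le_Kb
  have hL := H.one_le_Lm
  refine ⟨lin_tc s, fun Δ => ?_, fun Δ e he hΔ i => ?_, fun S => ⟨?_, ?_⟩, fun Δ S i hi => ?_,
    fun Δ S T θ2 hθ hΔ => ?_⟩
  · choose γ hγ hr using fun J => red_ex (Γ J) (H.int J) (H.min J) (res Δ J)
    choose n hn using fun J i => H.dual J i (γ J) (hγ J)
    refine ⟨fun x => Δ x - γ x.1 x.2, fun i => ∑ J, n J i, fun J => hr J, fun i => ?_⟩
    rw [lin_tc, lin_tc]
    push_cast
    rw [← sum_add_distrib]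
    refine sum_congr rfl fun J _ => ?_
    have h1 : res (fun x : Kt M => Δ x - γ x.1 x.2) J = res Δ J - γ J := rfl
    rw [h1, ip_sub, hn]
    ring
  · refine le_trans ?_ (mul_le_mul_of_nonneg_right (H.row i) he)
    rw [sum_mul]
    refine (abs_sum_le_sum_abs _ _).trans (sum_le_sum fun x _ => ?_)
    rw [abs_mul]
    exact mul_le_mul_of_nonneg_left (hΔ x) (abs_nonneg _)
  · refine le_trans (le_of_eq ?_) (sum_card_le blk H.deg S (zone blk S))
    refine sum_congr rfl fun J hJ => ?_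
    rw [zone, inter_eq_right.2 (subset_biUnion_of_mem blk hJ)]
  · unfold wsz zone
    exact_mod_cast card_biUnion_le
  · refine sum_eq_zero fun J hJ => ?_
    rw [H.zero J i fun h => hi (mem_biUnion.2 ⟨J, hJ, h⟩), ip_zero]
  · have h1 : ∀ i ∈ T, (∑ J ∈ S, ip (s J i) (res Δ J)) ^ 2 ≤
        F * ∑ J ∈ S, if i ∈ blk J then ip (s J i) (res Δ J) ^ 2 else 0 := by
      intro i _
      have e1 : ∑ J ∈ S, ip (s J i) (res Δ J) =
          ∑ J ∈ S.filter (fun J => i ∈ blk J), ip (s J i) (res Δ J) := by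
        rw [sum_filter]
        refine sum_congr rfl fun J _ => ?_
        split_ifs with h
        · rfl
        · rw [H.zero J i h, ip_zero]
      rw [e1, ← sum_filter]
      refine (sq_sum_le_card_mul_sum_sq).trans
        (mul_le_mul_of_nonneg_right ?_ (sum_nonneg fun _ _ => sq_nonneg _))
      refine le_trans ?_ (H.deg i)
      exact_mod_cast card_le_card (filter_subset_filter _ (subset_univ S))
    refine (sum_le_sum h1).trans ?_
    rw [← mul_sum, sum_comm]
    have h2 : ∀ J ∈ S, ∑ i ∈ T, (if i ∈ blk J then ip (s J i) (res Δ J) ^ 2 else 0) ≤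
        Kb / Lm * (((blk J).card : ℝ) * nsq (res Δ J)) + Kb * θ2 * ((T ∩ blk J).card : ℝ) := by
      intro J hJ
      rw [← sum_filter, filter_mem_eq_inter]
      refine (H.op J _ inter_subset_right (res Δ J)).trans ?_
      have a1 : (M J : ℝ) ≤ (blk J).card / Lm := by
        rw [le_div_iff₀ (by linarith), mul_comm]
        exact H.dim J
      have a2 := nsq_nonneg (res Δ J)
      have a3 : (M J : ℝ) * nsq (res Δ J) ≤ (blk J).card / Lm * nsq (res Δ J) :=
        mul_le_mul_of_nonneg_right a1 a2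
      have a4 : ((T ∩ blk J).card : ℝ) * nsq (res Δ J) ≤ (T ∩ blk J).card * θ2 :=
        mul_le_mul_of_nonneg_left (hΔ J hJ) (Nat.cast_nonneg _)
      calc Kb * (M J + (T ∩ blk J).card) * nsq (res Δ J)
          = Kb * (M J * nsq (res Δ J) + (T ∩ blk J).card * nsq (res Δ J)) := by ring
        _ ≤ Kb * ((blk J).card / Lm * nsq (res Δ J) + (T ∩ blk J).card * θ2) :=
          mul_le_mul_of_nonneg_left (add_le_add a3 a4) (by linarith)
        _ = _ := by ring
    have h3 := sum_le_sum h2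
    rw [sum_add_distrib, ← mul_sum, ← mul_sum] at h3
    have h4 := sum_card_le blk H.deg S T
    have h5 : Kb * θ2 * ∑ J ∈ S, ((T ∩ blk J).card : ℝ) ≤ Kb * θ2 * (F * T.card) :=
      mul_le_mul_of_nonneg_left h4 (mul_nonneg (by linarith) hθ)
    refine (mul_le_mul_of_nonneg_left (h3.trans (add_le_add le_rfl h5)) (by linarith)).trans
      (le_of_eq ?_)
    ring

end Vale.Agent.P318.B
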