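import Vale.Agent.P318.B.Stmt
import Vale.Agent.P318.M.Bit
import Vale.Agent.P318.M.Ramp

/-!
The pointwise bound for the cross terms.
-/

namespace Vale.Agent.P318.B

open Finset Function Vale.Agent.P318.M

namespace Point

set_option linter.unusedSectionVars false

variable {ι κ : Type} [Fintype ι] [DecidableEq ι] [Fintype κ] {Γ : AddSubgroup (κ → ℝ)}
  {J : Finset ι} {s : ι → κ → ℤ} {β μ R sp nb ω : ℝ} {h : (ι → ℤ) → ℝ} {y ψ V : ι → ℝ}

theorem swap (J : Finset ι) (f : ι → ι → ℝ) :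
    ∑ l ∈ J, ∑ j ∈ J.erase l, f l j = ∑ j ∈ J, ∑ l ∈ J.erase j, f l j :=
  sum_comm' (by
    intro j j'
    simp only [mem_erase]
    tauto)

theorem gram_pos (H : BHyp Γ J s β μ R sp nb) {l : ι} (hl : l ∈ J) : 0 < gram s l l := by
  linarith [H.nrm l hl, H.pos]

theorem inv_le (H : BHyp Γ J s β μ R sp nb) {l : ι} (hl : l ∈ J) : 1 / gram s l l ≤ 4 / cd κ := by
  rw [div_le_div_iff₀ (gram_pos H hl) (by linarith [H.pos])]
  linarith [H.nrm l hl]

theorem abs_div_le (H : BHyp Γ J s β μ R sp nb) {l : ι} (hl : l ∈ J) (x : ℝ) :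
    |x / gram s l l| ≤ 4 / cd κ * |x| := by
  rw [abs_div, abs_of_pos (gram_pos H hl), div_eq_mul_one_div, mul_comm]
  exact mul_le_mul_of_nonneg_right (inv_le H hl) (abs_nonneg _)

theorem col_sq (H : BHyp Γ J s β μ R sp nb) {l : ι} (hl : l ∈ J) :
    ∑ j ∈ J.erase l, (gram s j l / gram s l l) ^ 2 ≤ 4 * β := by
  have hg := gram_pos H hl
  have hM : 0 < cd κ := by linarith [H.pos]
  have h1 := H.op (dir s l)
  have h2 : nsq (dir s l) = 1 / gram s l l := by
    simp only [nsq, dir, div_pow, ← sum_div]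
    rw [show ∑ k, (s l k : ℝ) ^ 2 = gram s l l from sum_congr rfl fun k _ => sq _]
    field_simp
  have h3 : ∀ j, ip (s j) (dir s l) = gram s j l / gram s l l := fun j => by
    simp only [ip, dir, ← mul_div_assoc, ← sum_div]
    rfl
  simp only [h2, h3] at h1
  refine (sum_le_sum_of_subset_of_nonneg (erase_subset _ _) fun _ _ _ => sq_nonneg _).trans
    (h1.trans ((mul_le_mul_of_nonneg_left (inv_le H hl) ?_).trans (le_of_eq ?_)))
  · exact mul_nonneg (by linarith [H.one_le_b]) hM.le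
  · field_simp

theorem abs_Dd {F : (ι → Bool) → ℝ} (hF : U01 F) (j : ι) (b : ι → Bool) : |Dd j F b| ≤ 1 := by
  have a1 := hF (update b j true)
  have a2 := hF (update b j false)
  rw [Dd, abs_le]
  constructor <;> linarith [a1.1, a1.2, a2.1, a2.2]

theorem n2_q (hr : RampAt ω) (hω : 0 < ω) (hh : U01 h) (J : Finset ι) (y : ι → ℝ) :
    n2 J (fun j => dpr ω (y j) * c1 ω h j y) ≤ 2 / ω := by
  have hp : ∀ i, 0 ≤ py ω y i ∧ py ω y i ≤ 1 := fun i => ⟨hr.pr_nonneg _, hr.pr_le _⟩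
  have h1 := (Bit.bessel hp fun b => h (pt y b)).trans ((Bit.Eb_mono hp (G := fun _ => 1)
    fun b => pow_le_one₀ (hh _).1 (hh _).2).trans (Bit.Eb_const _ _).le)
  refine Real.sqrt_le_iff.2 ⟨by positivity, ?_⟩
  calc ∑ j ∈ J, (dpr ω (y j) * c1 ω h j y) ^ 2
      ≤ ∑ j ∈ J, 4 / ω ^ 2 * (pq ω (y j) * c1 ω h j y ^ 2) := sum_le_sum fun j _ => by
        rw [mul_pow, ← mul_assoc]
        exact mul_le_mul_of_nonneg_right (hr.dpr_sq_le _) (sq_nonneg _)
    _ ≤ 4 / ω ^ 2 * 1 := by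
        rw [← mul_sum]
        exact mul_le_mul_of_nonneg_left ((sum_le_sum_of_subset_of_nonneg (subset_univ J)
          fun j _ _ => mul_nonneg (hr.pq_nonneg _) (sq_nonneg _)).trans h1) (by positivity)
    _ = (2 / ω) ^ 2 := by ring

theorem n1_q (hr : RampAt ω) (h : (ι → ℤ) → ℝ) (J : Finset ι) (y : ι → ℝ) :
    n1 J (fun j => dpr ω (y j) * c1 ω h j y) ≤ Inf ω J h y := sum_le_sum fun j _ => by
  rw [abs_mul, abs_of_nonneg (hr.dpr_nonneg _)]
  exact mul_le_mul_of_nonneg_left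
    (Bit.abs_Eb_le (fun i => ⟨hr.pr_nonneg _, hr.pr_le _⟩) _) (hr.dpr_nonneg _)

theorem n1_le (hJ : (J.card : ℝ) ≤ nb) (q : ι → ℝ) : n1 J q ≤ √nb * n2 J q := by
  have h0 : (0 : ℝ) ≤ nb := (Nat.cast_nonneg _).trans hJ
  rw [n2, ← Real.sqrt_mul h0]
  refine Real.le_sqrt_of_sq_le (sq_sum_le_card_mul_sum_sq.trans ?_)
  simp only [sq_abs]
  exact mul_le_mul_of_nonneg_right hJ (sum_nonneg fun _ _ => sq_nonneg _)

/-- the mean part -/
theorem mean (H : BHyp Γ J s β μ R sp nb) (hV : ∀ l ∈ J, ψ l ^ 2 ≤ V l) (q : ι → ℝ) :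
    |∑ l ∈ J, ∑ j ∈ J.erase l, ψ l * (gram s j l / gram s l l * q j)| ≤
      R * (4 / cd κ * (√(∑ l ∈ J, V l) + (∑ l ∈ J, |ψ l|) / √sp)) * (n2 J q + n1 J q / √sp) := by
  have hM : 0 < cd κ := by linarith [H.pos]
  have h1 := H.rip (fun l => ψ l / gram s l l) q
  have h2 : n2 J (fun l => ψ l / gram s l l) ≤ 4 / cd κ * √(∑ l ∈ J, V l) := by
    rw [← Real.sqrt_sq (by positivity : 0 ≤ 4 / cd κ), ← Real.sqrt_mul (sq_nonneg _), mul_sum]
    refine Real.sqrt_le_sqrt (sum_le_sum fun l hl => ?_)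
    rw [← sq_abs]
    refine (pow_le_pow_left₀ (abs_nonneg _) (abs_div_le H hl _) 2).trans ?_
    rw [mul_pow, sq_abs]
    exact mul_le_mul_of_nonneg_left (hV l hl) (sq_nonneg _)
  have h3 : n1 J (fun l => ψ l / gram s l l) ≤ 4 / cd κ * ∑ l ∈ J, |ψ l| := by
    rw [mul_sum]
    exact sum_le_sum fun l hl => abs_div_le H hl _
  have h4 : 0 ≤ n1 J q := sum_nonneg fun _ _ => abs_nonneg _
  have h5 : 0 ≤ n2 J q := Real.sqrt_nonneg _
  have h6 := H.R_nonneg
  rw [swap, show ∑ j ∈ J, ∑ l ∈ J.erase j, ψ l * (gram s j l / gram s l l * q j) =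
    offd J s (fun l => ψ l / gram s l l) q from
      sum_congr rfl fun j _ => sum_congr rfl fun l _ => by ring]
  refine h1.trans ?_
  rw [mul_add (4 / cd κ), ← mul_div_assoc]
  gcongr

/-- the fluctuation part for large `V` -/
theorem fluct_big (H : BHyp Γ J s β μ R sp nb) (hr : RampAt ω) (hω : 0 < ω) {a : ι → ℝ}
    (hV : ∀ l ∈ J, 0 ≤ V l) (ha : ∀ l ∈ J, a l ^ 2 ≤ V l * pq ω (y l))
    (hc : ∀ l j, c2 ω h j l y = c2 ω h l j y) (hW : W2 ω J h y ≤ 2) :
    (∑ l ∈ J, ∑ j ∈ J.erase l, a l * (gram s j l / gram s l l * (dpr ω (y j) * c2 ω h j l y))) ^ 2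
      ≤ 4 * β * (∑ l ∈ J, V l) * (4 / ω ^ 2 * 2) := by
  have hβ : 0 ≤ β := by linarith [H.one_le_b]
  have hq := hr.pq_nonneg
  rw [sum_sigma']
  refine (sum_sq_le_sum_mul_sum_of_sq_le_mul _
    (f := fun x => V x.1 * (gram s x.2 x.1 / gram s x.1 x.1) ^ 2)
    (g := fun x => 4 / ω ^ 2 * (pq ω (y x.1) * pq ω (y x.2) * c2 ω h x.1 x.2 y ^ 2))
    (fun x hx => mul_nonneg (hV _ (mem_sigma.1 hx).1) (sq_nonneg _))
    (fun x _ => by have := hq (y x.1); have := hq (y x.2); positivity) fun x hx => ?_).trans ?_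
  · have h1 := mul_le_mul (ha _ (mem_sigma.1 hx).1) (hr.dpr_sq_le (y x.2)) (sq_nonneg _)
      (mul_nonneg (hV _ (mem_sigma.1 hx).1) (hq _))
    have h2 := mul_le_mul_of_nonneg_right h1
      (sq_nonneg (gram s x.2 x.1 / gram s x.1 x.1 * c2 ω h x.1 x.2 y))
    rw [hc]
    linarith
  · rw [← sum_sigma' J (fun l => J.erase l) fun l j => V l * (gram s j l / gram s l l) ^ 2,
      ← mul_sum, ← sum_sigma' J (fun l => J.erase l) fun l j =>
        pq ω (y l) * pq ω (y j) * c2 ω h l j y ^ 2]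
    refine mul_le_mul ?_ (mul_le_mul_of_nonneg_left hW (by positivity))
      (mul_nonneg (by positivity) (sum_nonneg fun l _ => sum_nonneg fun j _ => ?_))
      (mul_nonneg (by positivity) (sum_nonneg hV))
    · rw [mul_sum]
      refine sum_le_sum fun l hl => ?_
      rw [← mul_sum, mul_comm]
      exact mul_le_mul_of_nonneg_right (col_sq H hl) (hV l hl)
    · have := hq (y l)
      have := hq (y j)
      positivity

/-- the fluctuation part for small `V` -/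
theorem fluct_small (H : BHyp Γ J s β μ R sp nb) (hr : RampAt ω) (hω : 0 < ω) (hh : U01 h)
    {a : ι → ℝ} {V0 l : ℝ} (h1 : 1 ≤ V0) (hl : 0 ≤ l) (hV : ∀ l ∈ J, 0 ≤ V l)
    (ha : ∀ l ∈ J, |a l| ≤ pq ω (y l) ∧ a l ^ 2 ≤ V l * pq ω (y l)) (hs : ∑ l ∈ J, V l ≤ V0) :
    |∑ l ∈ J, ∑ j ∈ J.erase l, a l * (gram s j l / gram s l l * (dpr ω (y j) * c2 ω h j l y))| ≤
      2 * l * (4 * μ / cd κ) * √V0 * Inf ω J h y +
        12 * nb * (4 * μ / cd κ) * √V0 * Real.exp (-l) / ω := by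
  have hM : 0 < cd κ := by linarith [H.pos]
  have hμ := H.mu_nonneg
  have hp : ∀ i, 0 ≤ py ω y i ∧ py ω y i ≤ 1 := fun i => ⟨hr.pr_nonneg _, hr.pr_le _⟩
  have hc : ∀ j ∈ J, ∀ i ∈ J.erase j, |gram s j i / gram s i i| ≤ 4 * μ / cd κ := fun j hj i hi =>
    (abs_div_le H (mem_of_mem_erase hi) _).trans ((mul_le_mul_of_nonneg_left
      (H.coh j hj i (mem_of_mem_erase hi) (ne_of_mem_erase hi).symm) (by positivity)).trans
        (le_of_eq (by ring)))
  have hr1 : ∀ i ∈ J, |a i / pq ω (y i)| ≤ 1 := fun i hi => by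
    rw [abs_div, abs_of_nonneg (hr.pq_nonneg _)]
    exact div_le_one_of_le₀ (ha i hi).1 (hr.pq_nonneg _)
  have hr2 : ∀ i ∈ J, a i / pq ω (y i) * pq ω (y i) = a i := fun i hi =>
    div_mul_cancel_of_imp fun e => abs_nonpos_iff.1 (e ▸ (ha i hi).1)
  have hr3 : ∀ i ∈ J, pq ω (y i) * (a i / pq ω (y i)) ^ 2 ≤ V i := fun i hi => by
    rcases (hr.pq_nonneg (y i)).eq_or_lt with e | e
    · rw [← e, zero_mul]; exact hV i hi
    · refine le_of_mul_le_mul_right (le_trans (le_of_eq ?_) (ha i hi).2) e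
      field_simp
  have hs1 : 1 ≤ √V0 := Real.one_le_sqrt.2 h1
  have key : ∀ j ∈ J, |∑ i ∈ J.erase j, a i * (gram s j i / gram s i i *
      (dpr ω (y j) * c2 ω h j i y))| ≤ 2 * l * (4 * μ / cd κ) * √V0 * (dpr ω (y j) * inf1 ω h j y)
        + 12 * (4 * μ / cd κ) * √V0 * Real.exp (-l) / ω := by
    intro j hj
    have h3 := Bit.tail hp (Dd j fun b => h (pt y b))
      (fun i => if i ∈ J.erase j then a i / pq ω (y i) * (gram s j i / gram s i i) else 0)
      (4 * μ / cd κ * √V0) l (abs_Dd (fun b => hh _) j) (by positivity) hl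
      (fun i => by
        split_ifs with hi
        · rw [abs_mul, mul_comm]
          exact mul_le_mul (hc j hj i hi) ((hr1 i (mem_of_mem_erase hi)).trans hs1) (abs_nonneg _)
            (by positivity)
        · rw [abs_zero]; positivity)
      (by
        simp only [ite_pow, mul_ite, ne_eq, OfNat.ofNat_ne_zero, not_false_eq_true, zero_pow,
          mul_zero, sum_ite_mem, univ_inter]
        rw [mul_pow, Real.sq_sqrt (by linarith)]
        refine le_trans ?_ (mul_le_mul_of_nonneg_left ((sum_le_sum_of_subset_of_nonneg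
          (erase_subset j J) fun i hi _ => hV i hi).trans hs) (sq_nonneg _))
        rw [mul_sum]
        refine sum_le_sum fun i hi => ?_
        rw [mul_pow, ← mul_assoc, mul_comm, ← sq_abs]
        exact mul_le_mul (pow_le_pow_left₀ (abs_nonneg _) (hc j hj i hi) 2)
          (hr3 i (mem_of_mem_erase hi)) (mul_nonneg (hr.pq_nonneg _) (sq_nonneg _)) (sq_nonneg _))
    rw [Bit.cov_sum] at h3
    simp only [ite_mul, zero_mul, sum_ite_mem, univ_inter] at h3
    have h4 : ∑ i ∈ J.erase j, a i * (gram s j i / gram s i i * (dpr ω (y j) * c2 ω h j i y)) =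
        dpr ω (y j) * ∑ i ∈ J.erase j, a i / pq ω (y i) * (gram s j i / gram s i i) *
          (pq ω (y i) * c2 ω h j i y) := by
      rw [mul_sum]
      refine sum_congr rfl fun i hi => ?_
      conv_lhs => rw [← hr2 i (mem_of_mem_erase hi)]
      ring
    rw [h4, abs_mul, abs_of_nonneg (hr.dpr_nonneg _)]
    have h5 := mul_le_mul_of_nonneg_left h3 (hr.dpr_nonneg (y j))
    have h6 : dpr ω (y j) * (12 * (4 * μ / cd κ * √V0) * Real.exp (-l)) ≤
        1 / ω * (12 * (4 * μ / cd κ * √V0) * Real.exp (-l)) :=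
      mul_le_mul_of_nonneg_right (hr.dpr_le _) (by positivity)
    refine h5.trans ?_
    rw [mul_add]
    exact add_le_add (le_of_eq (by rw [inf1]; ring)) (h6.trans (le_of_eq (by ring)))
  rw [swap]
  refine ((abs_sum_le_sum_abs _ _).trans (sum_le_sum key)).trans ?_
  rw [sum_add_distrib, ← mul_sum, sum_const, nsmul_eq_mul]
  exact add_le_add le_rfl ((mul_le_mul_of_nonneg_right H.card (by positivity)).trans
    (le_of_eq (by ring)))

theorem fin {M μ R sp nb ω V0 l β S T I N1 N2 X Y : ℝ} (hM : 0 < M) (hR : 0 ≤ R) (hμ : 0 ≤ μ)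
    (hnb : 0 ≤ nb) (hsp : 1 ≤ sp) (hω : 0 < ω) (h0 : 1 ≤ V0) (hl : 0 ≤ l) (hβ : 1 ≤ β)
    (hS : 0 ≤ S) (hT : 0 ≤ T) (h1 : 0 ≤ N1) (h2 : 0 ≤ N2)
    (m1 : |Y| ≤ R * (4 / M * (√S + T / √sp)) * (N2 + N1 / √sp)) (m2 : N2 ≤ 2 / ω) (m3 : N1 ≤ I)
    (m4 : N1 ≤ √nb * (2 / ω)) (f1 : X ^ 2 ≤ 4 * β * S * (4 / ω ^ 2 * 2))
    (f2 : S ≤ V0 → |X| ≤ 2 * l * (4 * μ / M) * √V0 * I +
      12 * nb * (4 * μ / M) * √V0 * Real.exp (-l) / ω) :
    |Y + X| ≤ pa0 M μ R nb ω V0 l + paV M β R sp nb ω V0 * S + paU M R sp nb ω * T +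
      paI M μ R sp V0 l * I := by
  have hσ : 0 < √sp := Real.sqrt_pos.2 (by linarith)
  have hV0 : 0 < V0 := by linarith
  have hv : 0 < √V0 := Real.sqrt_pos.2 hV0
  have hI : 0 ≤ I := h1.trans m3
  have b1 : 4 * R / M * (√S * N2) ≤ 4 * R / M * ((1 + S) / 2 * (2 / ω)) :=
    mul_le_mul_of_nonneg_left (mul_le_mul
      (by nlinarith [Real.sq_sqrt hS, sq_nonneg (√S - 1)]) m2 h2 (by positivity)) (by positivity)
  have b2 : 4 * R / (M * √sp) * T * (N2 + N1 / √sp) ≤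
      4 * R / (M * √sp) * T * (2 / ω + √nb * (2 / ω) / √sp) := by gcongr
  have e1 : R * (4 / M * (√S + T / √sp)) * (N2 + N1 / √sp) = 4 * R / M * (√S * N2) +
      4 * R / (M * √sp) * (√S * N1) + 4 * R / (M * √sp) * T * (N2 + N1 / √sp) := by
    field_simp
  have e2 : paU M R sp nb ω * T = 4 * R / (M * √sp) * T * (2 / ω + √nb * (2 / ω) / √sp) := by
    rw [paU, Real.sqrt_div hnb]
    field_simp
    ring
  have e3 : 4 * R / M * ((1 + S) / 2 * (2 / ω)) = 4 * R / (M * ω) + 4 * R / (M * ω) * S := by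
    field_simp
  have e4 : 8 * R * √nb / (M * ω * √(V0 * sp)) * S =
      4 * R / (M * √sp) * (S / √V0 * (√nb * (2 / ω))) := by
    rw [Real.sqrt_mul hV0.le]
    field_simp
    ring
  have e5 : 4 * R * √V0 / (M * √sp) * I = 4 * R / (M * √sp) * (√V0 * I) := by ring
  have p1 : 0 ≤ 6 / ω * √(β / V0) * S := by positivity
  refine (abs_add_le _ _).trans ?_
  rw [pa0, paV, paI, e2, add_mul, add_mul, add_mul, e4, e5]
  rcases le_total S V0 with hs | hs
  · have c1 : 4 * R / (M * √sp) * (√S * N1) ≤ 4 * R / (M * √sp) * (√V0 * I) := by gcongr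
    have c2 : 0 ≤ 4 * R / (M * √sp) * (S / √V0 * (√nb * (2 / ω))) := by positivity
    linarith [f2 hs]
  · have c0 : √S ≤ S / √V0 := by
      rw [le_div_iff₀ hv]
      exact (mul_le_mul_of_nonneg_left (Real.sqrt_le_sqrt hs) (Real.sqrt_nonneg _)).trans
        (Real.mul_self_sqrt hS).le
    have c1 : 4 * R / (M * √sp) * (√S * N1) ≤
        4 * R / (M * √sp) * (S / √V0 * (√nb * (2 / ω))) := by gcongr
    have c2 : |X| ≤ 6 / ω * √(β / V0) * S := by
      refine abs_le_of_sq_le_sq' (f1.trans ?_) p1 |> abs_le.2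
      rw [mul_pow, mul_pow, Real.sq_sqrt (by positivity)]
      calc 4 * β * S * (4 / ω ^ 2 * 2) = β * S / (ω ^ 2 * V0) * (32 * V0) := by
            field_simp
            ring
        _ ≤ β * S / (ω ^ 2 * V0) * (36 * S) :=
            mul_le_mul_of_nonneg_left (by linarith) (by positivity)
        _ = (6 / ω) ^ 2 * (β / V0) * S ^ 2 := by
            field_simp
            ring
    have c3 : 0 ≤ 4 * R / (M * √sp) * (√V0 * I) := by positivity
    have c4 : 0 ≤ 2 * l * (4 * μ / M) * √V0 * I := by positivity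
    have c5 : 0 ≤ 12 * nb * (4 * μ / M) * √V0 * Real.exp (-l) / ω := by positivity
    linarith

end Point

open Point

theorem point_proof (hU : UpdStmt) : PointStmt := by
  intro ι κ _ _ _ Γ J s β μ R sp nb ω V0 l H hω hω' h0 hl h hh y ψ V e hψ
  have hr := ramp_proof.2 ω hω hω'
  obtain ⟨-, -, -, hc, hW⟩ := hU.2 ι ω h hω hω' hh
  have hV : ∀ i ∈ J, 0 ≤ V i := fun i hi => (sq_nonneg _).trans (hψ i hi).1
  have e1 : ∑ l ∈ J, ψ l * ∑ j ∈ J.erase l,
      gram s j l / gram s l l * (dpr ω (y j) * (c1 ω h j y + e l * c2 ω h j l y)) =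
      ∑ l ∈ J, ∑ j ∈ J.erase l, ψ l * (gram s j l / gram s l l * (dpr ω (y j) * c1 ω h j y)) +
      ∑ l ∈ J, ∑ j ∈ J.erase l,
        ψ l * e l * (gram s j l / gram s l l * (dpr ω (y j) * c2 ω h j l y)) := by
    rw [← sum_add_distrib]
    refine sum_congr rfl fun i _ => ?_
    rw [mul_sum, ← sum_add_distrib]
    exact sum_congr rfl fun j _ => by ring
  have m2 := n2_q hr hω hh J y
  rw [e1]
  exact fin (by linarith [H.pos]) H.R_nonneg H.mu_nonneg ((Nat.cast_nonneg _).trans H.card)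
    H.one_le_sp hω h0 hl H.one_le_b (sum_nonneg hV) (sum_nonneg fun _ _ => abs_nonneg _)
    (sum_nonneg fun _ _ => abs_nonneg _) (Real.sqrt_nonneg _)
    (mean H (fun i hi => (hψ i hi).1) fun j => dpr ω (y j) * c1 ω h j y) m2 (n1_q hr h J y)
    ((n1_le H.card _).trans (mul_le_mul_of_nonneg_left m2 (Real.sqrt_nonneg nb)))
    (fluct_big H hr hω hV (fun i hi => (hψ i hi).2.2) (hc y) (hW J y))
    (fluct_small H hr hω hh h0 hl hV fun i hi => (hψ i hi).2)

end Vale.Agent.P318.B
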