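import Vale.Agent.P318.B.Stmt

/-!
The orthogonal projection onto the range of `lin S`.
-/

namespace Vale.Agent.P318.B

open Finset Vale.Agent.P318.M

namespace ProjP

section Gen

variable {ι κ : Type} [Fintype κ]

/-- `lin S` as a linear map. -/
def linL (S : ι → κ → ℤ) : (κ → ℝ) →ₗ[ℝ] (ι → ℝ) where
  toFun := lin S
  map_add' β γ := by
    funext j
    simp [lin, ip, mul_add, sum_add_distrib]
  map_smul' a β := by
    funext j
    simp [lin, ip, mul_sum, mul_left_comm]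

theorem lin_add (S : ι → κ → ℤ) (β γ : κ → ℝ) : lin S (β + γ) = lin S β + lin S γ :=
  (linL S).map_add β γ

theorem lin_sub (S : ι → κ → ℤ) (β γ : κ → ℝ) : lin S (β - γ) = lin S β - lin S γ :=
  (linL S).map_sub β γ

theorem lin_smul (S : ι → κ → ℤ) (a : ℝ) (β : κ → ℝ) : lin S (a • β) = a • lin S β :=
  (linL S).map_smul a β

variable [Fintype ι]

theorem exists_proj (S : ι → κ → ℤ) : ∃ Sp : (ι → ℝ) →ₗ[ℝ] (κ → ℝ), IsProj S Sp := by
  let e : (ι → ℝ) →ₗ[ℝ] EuclideanSpace ℝ ι := (WithLp.linearEquiv 2 ℝ (ι → ℝ)).symm.toLinearMap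
  let A : (κ → ℝ) →ₗ[ℝ] EuclideanSpace ℝ ι := e ∘ₗ linL S
  obtain ⟨g, hg⟩ := A.rangeRestrict.exists_rightInverse_of_surjective A.range_rangeRestrict
  refine ⟨g ∘ₗ (LinearMap.range A).orthogonalProjectionOnto.toLinearMap ∘ₗ e, fun z β => ?_⟩
  have h1 : A (g ((LinearMap.range A).orthogonalProjectionOnto (e z))) =
      (LinearMap.range A).starProjection (e z) := by
    have := LinearMap.congr_fun hg ((LinearMap.range A).orthogonalProjectionOnto (e z))
    exact congrArg Subtype.val this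
  have h2 := (LinearMap.range A).starProjection_inner_eq_zero (e z) (A β)
    (LinearMap.mem_range_self A β)
  rw [← h1, PiLp.inner_apply] at h2
  rw [← h2]
  refine sum_congr rfl fun j _ => ?_
  simp only [RCLike.inner_apply, conj_trivial]
  rw [mul_comm]
  rfl

variable {S : ι → κ → ℤ} {Sp : (ι → ℝ) →ₗ[ℝ] (κ → ℝ)}

theorem lin_sp_lin (h : IsProj S Sp) (β : κ → ℝ) : lin S (Sp (lin S β)) = lin S β := by
  have h1 := h (lin S β) (β - Sp (lin S β))
  rw [lin_sub] at h1
  have h2 : ∀ j ∈ (univ : Finset ι), (lin S β j - lin S (Sp (lin S β)) j) *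
      (lin S β - lin S (Sp (lin S β))) j = 0 :=
    (sum_eq_zero_iff_of_nonneg fun j _ => mul_self_nonneg _).1 h1
  funext j
  have h3 := h2 j (mem_univ j)
  rw [Pi.sub_apply, mul_self_eq_zero] at h3
  linarith

theorem perp_lin (h : IsProj S Sp) (z : ι → ℝ) (β : κ → ℝ) :
    perp S Sp (z + lin S β) = perp S Sp z := by
  funext j
  simp only [perp, map_add, lin_add, lin_sp_lin h, Pi.add_apply]
  ring

omit [Fintype ι] in
theorem perp_sub (z z' : ι → ℝ) : perp S Sp (z - z') = perp S Sp z - perp S Sp z' := by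
  funext j
  simp only [perp, map_sub, lin_sub, Pi.sub_apply]
  ring

theorem perp_sq_le (h : IsProj S Sp) (z : ι → ℝ) : ∑ j, perp S Sp z j ^ 2 ≤ ∑ j, z j ^ 2 := by
  have h1 := h z (Sp z)
  have e : ∑ j, z j ^ 2 = ∑ j, perp S Sp z j ^ 2 +
      2 * ∑ j, (z j - lin S (Sp z) j) * lin S (Sp z) j + ∑ j, lin S (Sp z) j ^ 2 := by
    rw [mul_sum, ← sum_add_distrib, ← sum_add_distrib]
    exact sum_congr rfl fun j _ => by simp only [perp]; ring
  have h2 : 0 ≤ ∑ j, lin S (Sp z) j ^ 2 := sum_nonneg fun j _ => sq_nonneg _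
  rw [e, h1]
  linarith

variable [DecidableEq ι]

theorem expand (z : ι → ℝ) (i : ι) :
    lin S (Sp z) i = ∑ j, lin S (Sp (Pi.single j 1)) i * z j := by
  have h1 : z = ∑ j, z j • (Pi.single j 1 : ι → ℝ) := by
    funext k
    simp [Finset.sum_apply, Pi.single_apply]
  have h2 : linL S (Sp z) = ∑ j, z j • linL S (Sp (Pi.single j 1)) := by
    conv_lhs => rw [h1]
    simp only [map_sum, map_smul]
  have h3 := congrFun h2 i
  rw [Finset.sum_apply] at h3
  refine h3.trans (sum_congr rfl fun j _ => ?_)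
  rw [Pi.smul_apply, smul_eq_mul, mul_comm]
  rfl

theorem gram_eq (h : IsProj S Sp) (i j : ι) :
    lin S (Sp (Pi.single i 1)) j =
      ∑ k, lin S (Sp (Pi.single j 1)) k * lin S (Sp (Pi.single i 1)) k := by
  have h1 := h (Pi.single j 1) (Sp (Pi.single i 1))
  simp only [sub_mul, sum_sub_distrib] at h1
  have h2 : ∑ k, (Pi.single j 1 : ι → ℝ) k * lin S (Sp (Pi.single i 1)) k =
      lin S (Sp (Pi.single i 1)) j := by
    simp [Pi.single_apply]
  linarith

theorem symm (h : IsProj S Sp) (i j : ι) :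
    lin S (Sp (Pi.single i 1)) j = lin S (Sp (Pi.single j 1)) i := by
  rw [gram_eq h i j, gram_eq h j i]
  exact sum_congr rfl fun k _ => mul_comm _ _

end Gen

section Sys

variable {ι B : Type} [Fintype ι] [DecidableEq ι] [Fintype B] [DecidableEq B] {M : B → ℕ}
  {blk : B → Finset ι} {s : (J : B) → ι → Fin (M J) → ℤ}
  {Γ : (J : B) → AddSubgroup (Fin (M J) → ℝ)} {F Kb Lm Cn γ1 : ℝ}

theorem nsq_nonneg {κ : Type} [Fintype κ] (V : κ → ℝ) : 0 ≤ nsq V :=
  sum_nonneg fun _ _ => sq_nonneg _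

theorem red_small {κ : Type} [Fintype κ] {G : AddSubgroup (κ → ℝ)}
    (hmin : ∀ γ ∈ G, γ ≠ 0 → 1 ≤ nsq γ) {Δ : κ → ℝ} (hΔ : nsq Δ ≤ 1 / 4) : Red G Δ := by
  refine ⟨fun k => ?_, fun γ hγ => ?_⟩
  · have h1 : Δ k ^ 2 ≤ nsq Δ := single_le_sum (fun k _ => sq_nonneg (Δ k)) (mem_univ k)
    exact abs_le.2 (abs_le_of_sq_le_sq' (by linarith) (by norm_num))
  · by_cases h0 : γ = 0
    · rw [h0, sub_zero]
      exact min_le_right _ _
    · have h1 := hmin γ hγ h0
      have h2 : nsq γ ≤ 2 * nsq (Δ - γ) + 2 * nsq Δ := by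
        unfold nsq
        rw [mul_sum, mul_sum, ← sum_add_distrib]
        refine sum_le_sum fun k _ => ?_
        rw [Pi.sub_apply]
        nlinarith [sq_nonneg (2 * Δ k - γ k)]
      exact (min_le_left _ _).trans (by linarith)

omit [DecidableEq ι] [DecidableEq B] in
theorem gam_all (hmin : ∀ J, ∀ γ ∈ Γ J, γ ≠ 0 → 1 ≤ nsq γ) (hG : Gam blk s Γ γ1)
    (D : Kt M → ℝ) :
    γ1 * ∑ J, ((blk J).card : ℝ) * nsq (res D J) ≤ ∑ i, lin (tc s) D i ^ 2 := by
  set N := ∑ J, nsq (res D J) with hN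
  have hN0 : 0 ≤ N := sum_nonneg fun J _ => nsq_nonneg _
  set ε : ℝ := 1 / (2 * (1 + N)) with hε
  have hε0 : 0 < ε := by positivity
  have h1 : ∀ J, nsq (res (ε • D) J) = ε ^ 2 * nsq (res D J) := by
    intro J
    simp [nsq, res, mul_sum, mul_pow]
  have h2 : ∀ J, nsq (res (ε • D) J) ≤ 1 / 4 := by
    intro J
    have h3 : nsq (res D J) ≤ N := single_le_sum (fun J _ => nsq_nonneg (res D J)) (mem_univ J)
    rw [h1]
    calc ε ^ 2 * nsq (res D J) ≤ ε ^ 2 * (1 + N) ^ 2 :=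
          mul_le_mul_of_nonneg_left (by nlinarith) (sq_nonneg _)
      _ = 1 / 4 := by rw [hε]; field_simp; norm_num
  have h4 := hG (ε • D) (fun J => red_small (hmin J) (h2 J)) 0
  simp only [fun J => min_eq_right (h2 J)] at h4
  simp only [h1, lin_smul, Pi.zero_apply, Int.cast_zero, zero_sub,
    even_two, Even.neg_pow, Pi.smul_apply, smul_eq_mul, mul_pow] at h4
  rw [← mul_sum] at h4
  have h5 : ∑ J, ((blk J).card : ℝ) * (ε ^ 2 * nsq (res D J)) =
      ε ^ 2 * ∑ J, ((blk J).card : ℝ) * nsq (res D J) := by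
    rw [mul_sum]
    exact sum_congr rfl fun J _ => by ring
  rw [h5, mul_left_comm] at h4
  exact le_of_mul_le_mul_left h4 (by positivity)

omit [Fintype ι] [DecidableEq ι] [DecidableEq B] in
theorem lin_tc (D : Kt M → ℝ) (i : ι) : lin (tc s) D i = ∑ J, ip (s J i) (res D J) := by
  simp only [lin, ip, tc, res]
  rw [Fintype.sum_sigma]

omit [Fintype ι] [DecidableEq B] in
theorem coord_sq (H : GSys blk s Γ F Kb Lm Cn) (D : Kt M → ℝ) (i : ι) :
    lin (tc s) D i ^ 2 ≤ F / Lm * ∑ J, ((blk J).card : ℝ) * nsq (res D J) := by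
  have hLm : 0 < Lm := lt_of_lt_of_le one_pos H.one_le_Lm
  have hF : 0 ≤ F := le_trans zero_le_one H.one_le_F
  set U := univ.filter fun J => i ∈ blk J with hU
  have h1 : lin (tc s) D i = ∑ J ∈ U, ip (s J i) (res D J) := by
    rw [lin_tc, hU, sum_filter]
    refine sum_congr rfl fun J _ => ?_
    split_ifs with hJ
    · rfl
    · simp [H.zero J i hJ, ip]
  have h2 : ∀ J, ip (s J i) (res D J) ^ 2 ≤ ((blk J).card : ℝ) * nsq (res D J) / Lm := by
    intro J
    have h3 := sum_mul_sq_le_sq_mul_sq univ (fun k => (s J i k : ℝ)) (res D J)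
    have h4 : ∑ k, (s J i k : ℝ) ^ 2 ≤ M J := by
      calc ∑ k, (s J i k : ℝ) ^ 2 ≤ ∑ _k : Fin (M J), (1 : ℝ) :=
            sum_le_sum fun k _ => by
              rw [← sq_abs]
              exact pow_le_one₀ (abs_nonneg _) (H.ent J i k)
        _ = M J := by simp
    have h5 : (M J : ℝ) ≤ (blk J).card / Lm := by
      rw [le_div_iff₀ hLm, mul_comm]
      exact H.dim J
    calc ip (s J i) (res D J) ^ 2 ≤ (∑ k, (s J i k : ℝ) ^ 2) * nsq (res D J) := h3
      _ ≤ (blk J).card / Lm * nsq (res D J) :=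
          mul_le_mul_of_nonneg_right (h4.trans h5) (nsq_nonneg _)
      _ = _ := by ring
  have h6 : 0 ≤ ∑ J ∈ U, ip (s J i) (res D J) ^ 2 := sum_nonneg fun J _ => sq_nonneg _
  calc lin (tc s) D i ^ 2 ≤ U.card * ∑ J ∈ U, ip (s J i) (res D J) ^ 2 := by
        rw [h1]
        exact sq_sum_le_card_mul_sum_sq
    _ ≤ F * ∑ J ∈ U, ip (s J i) (res D J) ^ 2 := mul_le_mul_of_nonneg_right (H.deg i) h6
    _ ≤ F * ∑ J, ((blk J).card : ℝ) * nsq (res D J) / Lm := by
        refine mul_le_mul_of_nonneg_left ?_ hF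
        refine (sum_le_sum fun J _ => h2 J).trans ?_
        exact sum_le_sum_of_subset_of_nonneg (subset_univ _) fun J _ _ =>
          div_nonneg (mul_nonneg (Nat.cast_nonneg _) (nsq_nonneg _)) hLm.le
    _ = _ := by rw [← sum_div]; ring

end Sys

end ProjP

open ProjP in
theorem proj_proof : ProjStmt := by
  refine ⟨fun ι κ _ _ _ S => ⟨exists_proj S, fun Sp h => ⟨perp_lin h, perp_sub, perp_sq_le h,
    fun c β b => ?_, fun c ρ r x hr => ?_, expand⟩⟩, ?_⟩
  · rw [vv, ← perp_lin h _ β]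
    congr 1
    funext j
    simp only [zz, Pi.add_apply]
    ring
  · rw [vv, vv, ← perp_lin h (fun j => (x j : ℝ) + c j) ρ]
    congr 1
    funext j
    simp only [Pi.add_apply, Int.cast_add, hr j]
    ring
  intro ι B _ _ _ _ M blk s Γ F Kb Lm Cn γ1 Sp H hγ hG h i
  have hLm : 0 < Lm := lt_of_lt_of_le one_pos H.one_le_Lm
  have hF : 0 ≤ F := le_trans zero_le_one H.one_le_F
  set D := Sp (Pi.single i 1) with hD
  have h1 : ∑ j, lin (tc s) (Sp (Pi.single j 1)) i ^ 2 = ∑ j, lin (tc s) D j ^ 2 :=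
    sum_congr rfl fun j _ => by rw [symm h j i]
  have h2 : lin (tc s) D i = ∑ j, lin (tc s) D j ^ 2 := by
    rw [hD, gram_eq h i i]
    exact sum_congr rfl fun j _ => (sq _).symm
  rw [h1]
  set P := ∑ j, lin (tc s) D j ^ 2 with hP
  have hP0 : 0 ≤ P := sum_nonneg fun j _ => sq_nonneg _
  have h3 := coord_sq H D i
  have h4 := gam_all H.min hG D
  rw [h2] at h3
  have h5 : ∑ J, ((blk J).card : ℝ) * nsq (res D J) ≤ P / γ1 := by
    rw [le_div_iff₀ hγ, mul_comm]
    exact h4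
  have h6 : P ^ 2 ≤ F / (Lm * γ1) * P := by
    calc P ^ 2 ≤ F / Lm * (P / γ1) :=
          h3.trans (mul_le_mul_of_nonneg_left h5 (by positivity))
      _ = _ := by field_simp
  rcases hP0.eq_or_lt with h0 | h0
  · rw [← h0]
    positivity
  · rw [sq] at h6
    exact le_of_mul_le_mul_right h6 h0

end Vale.Agent.P318.B
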