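import Vale.Agent.P318.B.Stmt
import Vale.Agent.P318.M.Block0
import Vale.Agent.P318.M.Torus
import Vale.Agent.P318.M.Deriv
import Vale.Agent.P318.M.Ramp
import Vale.Agent.P318.M.Bit

/-! Regularity of the functions on the torus. -/

namespace Vale.Agent.P318.B

open Finset MeasureTheory Vale.Agent.P318.M Vale.Agent.P318.M.Block

namespace Reg

variable {ι κ : Type} [Fintype κ] {Γ : AddSubgroup (κ → ℝ)} {s : ι → κ → ℤ}
  {h : (ι → ℤ) → ℝ} {F G : (κ → ℝ) → ℝ}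

theorem lin_add (s : ι → κ → ℤ) (a b : κ → ℝ) : lin s (a + b) = lin s a + lin s b :=
  funext fun j => ip_add (s j) a b

theorem lin_smul (s : ι → κ → ℤ) (r : ℝ) (a : κ → ℝ) : lin s (r • a) = r • lin s a :=
  funext fun j => ip_smul (s j) r a

theorem inv_of (hi : Inv Γ s h) {H : (ι → ℝ) → ℝ}
    (hH : ∀ r : ι → ℤ, (∀ x, h (x + r) = h x) → ∀ y, H (y + fun i => (r i : ℝ)) = H y)
    (t : ι → ℝ) {ρ : κ → ℝ} (hρ : ρ ∈ Γ) (hr : ∀ j, ∃ n : ℤ, ip (s j) ρ = n) (β : κ → ℝ) :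
    H (t + lin s (β + ρ)) = H (t + lin s β) := by
  choose r hr using hr
  have e : lin s ρ = fun i => (r i : ℝ) := funext hr
  rw [lin_add, ← add_assoc, e, hH r (hi ρ hρ r fun j => (hr j).symm)]

theorem lift (hΓ : ∀ n : κ → ℤ, (fun k => (n k : ℝ)) ∈ Γ) (hi : Inv Γ s h) {H : (ι → ℝ) → ℝ}
    (hb : BM H)
    (hH : ∀ r : ι → ℤ, (∀ x, h (x + r) = h x) → ∀ y, H (y + fun i => (r i : ℝ)) = H y)
    (t : ι → ℝ) : BM (fun η => H (t + lin s η)) ∧ Per fun η => H (t + lin s η) :=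
  ⟨bm_comp hb (measurable_const.add (measurable_pi_lambda _ fun j => meas_ip (s j))),
    fun β n => inv_of hi hH t (hΓ n) (fun j => ⟨_, Torus.ip_int (s j) n⟩) β⟩

theorem lift1 (s : ι → κ → ℤ) {φ : ℝ → ℝ} (hb : BM φ) (hp : ∀ y (n : ℤ), φ (y + n) = φ y)
    (t : ι → ℝ) (l : ι) :
    BM (fun η => φ ((t + lin s η) l)) ∧ Per fun η => φ ((t + lin s η) l) :=
  ⟨bm_line hb (s l) (t l), fun β n => by
    change φ (t l + ip (s l) (β + _)) = φ (t l + ip (s l) β)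
    rw [ip_add, Torus.ip_int, ← add_assoc, hp]⟩

omit [Fintype κ] in
theorem bp_mul (hF : BM F ∧ Per F) (hG : BM G ∧ Per G) :
    BM (fun η => F η * G η) ∧ Per fun η => F η * G η :=
  ⟨bm_mul hF.1 hG.1, fun β n => by simp only [hF.2 β n, hG.2 β n]⟩

omit [Fintype κ] in
theorem bp_shift (hF : BM F ∧ Per F) (ξ : κ → ℝ) :
    BM (fun η => F (η + ξ)) ∧ Per fun η => F (η + ξ) :=
  ⟨bm_comp hF.1 (measurable_add_const ξ), fun β n => by simp only [add_right_comm β _ ξ, hF.2 _ n]⟩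

end Reg

open Reg in
theorem reg_proof (hF : FcStmt) : RegStmt := by
  classical
  intro ι κ _ _ _ Γ s ω t h hΓ h0 h8 hU hi
  have R := ramp_proof.2 ω h0 h8
  obtain ⟨d1, d2, d3, d4, d5, d6, -⟩ := deriv_proof ramp_proof bit_proof ι ω h h0 h8 hU
  have bE : BM (mE ω h t s) ∧ Per (mE ω h t s) := lift hΓ hi
    (bm_of_mem d1.1 (fun y => (d1.2 y).1) fun y => (d1.2 y).2) (fun r hr y => (d5 r hr y).1) t
  have bc := fun l => lift hΓ hi (H := c1 ω h l) ⟨(d2 l).1, 1, fun y =>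
    ((d2 l).2.2 y).1.trans ((d2 l).2.2 y).2⟩ (fun r hr y => ((d5 r hr y).2.1 l).1) t
  have bi := fun l => lift hΓ hi (H := inf1 ω h l) (bm_of_mem (d2 l).2.1 (fun y =>
    (abs_nonneg _).trans ((d2 l).2.2 y).1) fun y => ((d2 l).2.2 y).2)
    (fun r hr y => ((d5 r hr y).2.1 l).2) t
  have b2 := fun l j => lift hΓ hi (H := c2 ω h l j) ⟨(d3 l j).1, 2, (d3 l j).2⟩
    (fun r hr y => (d5 r hr y).2.2.1 l j) t
  have bq := lift1 s (bm_pq R) R.pq_per t
  have bd := lift1 s (bm_dpr R) R.dpr_per t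
  have br := lift1 s (bm_of_mem R.pr_meas R.pr_nonneg R.pr_le) R.pr_per t
  have bqq : ∀ l, BM (qq ω h t s l) ∧ Per (qq ω h t s l) := fun l => bp_mul (bd l) (bc l)
  have bps : ∀ l, BM (ps ω h t s l) ∧ Per (ps ω h t s l) := fun l => bp_mul (bq l) (bc l)
  refine ⟨⟨bE.1, bE.2, fun η => d1.2 _⟩, fun l => ?_, fun J => ?_, fun k m => ?_,
    fun hd m hm => ?_⟩
  · have s1 := bp_shift bE ((1 / 2 : ℝ) • dir s l)
    have s2 := bp_shift bE (-((1 / 2 : ℝ) • dir s l))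
    simp only [← sub_eq_add_neg] at s2
    refine ⟨(bqq l).1, (bqq l).2, (bps l).1, (bps l).2, bm_sub s1.1 s2.1,
      fun β n => congrArg₂ (· - ·) (s1.2 β n) (s2.2 β n), (bc l).1, (bc l).2, (bi l).1, (bi l).2,
      (bq l).1, (bq l).2, (bd l).1, (bd l).2, (br l).1, (br l).2, b2 l, fun L =>
      ⟨bm_mul (bm_const _) (bm_sum _ fun k _ => (bp_shift (bqq l) _).1), fun β n => ?_⟩⟩
    exact congrArg ((1 / L : ℝ) * ·) (sum_congr rfl fun k _ => (bp_shift (bqq l) _).2 β n)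
  · have w1 := lift hΓ hi (d4 J).1 (fun r hr y => ((d5 r hr y).2.2.2 J).1) t
    have w2 := lift hΓ hi (d4 J).2.1 (fun r hr y => ((d5 r hr y).2.2.2 J).2.1) t
    have w3 := lift hΓ hi (d4 J).2.2.1 (fun r hr y => ((d5 r hr y).2.2.2 J).2.2) t
    exact ⟨w1.1, w1.2, w2.1, w2.2, w3.1, w3.2⟩
  · obtain ⟨l1, -, l2⟩ := (hF κ).2.1 ι univ (fun j => (s j k : ℝ)) (qq ω h t s) fun j _ => (bqq j).1
    have h1 := (hF κ).2.2.2.2 _ (fun β => ∑ j, (s j k : ℝ) * qq ω h t s j β) (Pi.single k 1)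
      bE.2 bE.1 (fun β n => sum_congr rfl fun j _ => congrArg (_ * ·) ((bqq j).2 β n)) l1 (fun β x => by
        have e : ∀ j, (x • lin s (Pi.single k 1)) j = x * s j k := fun j => by
          rw [Pi.smul_apply, lin, ip_single, mul_one, smul_eq_mul]
        rw [mE, mE, lin_add, lin_smul, ← add_assoc, d6]
        refine intervalIntegral.integral_congr fun r _ => ?_
        simp only [mul_sum, qq, lin_add, lin_smul, ← add_assoc, mul_smul]
        refine sum_congr rfl fun j _ => ?_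
        rw [Pi.add_apply _ (r • _), Pi.smul_apply r, smul_eq_mul, e]
        ring) m
    rw [l2, ip_single, mul_one] at h1
    exact_mod_cast h1
  · by_contra hn
    refine hm fun ρ hρ => ?_
    by_contra hc
    exact hn ((torus_proof κ).2.2.2.1 _ bE.2 bE.1 ρ m
      (inv_of hi (fun r hr y => (d5 r hr y).1) t hρ fun j => hd j ρ hρ) hc)

end Vale.Agent.P318.B
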