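import Vale.Agent.P318.B.Stmt
import Vale.Agent.P318.RRows

/-! Restricted isometry for independent subgaussian rows, at all small sizes simultaneously. -/

namespace Vale.Agent.P318.B

open Finset Vale.Agent.P318.M

namespace RipB

theorem av_ind {α : Type} [Fintype α] (E : α → Prop) : av (fun x => ind (E x)) = R.pr E := by
  unfold av R.pr
  rw [Fintype.expect_eq_sum_div_card]
  rfl

theorem pre_le {N Lg A e : ℝ} {s k : ℕ} (hN : 1 ≤ N) (hL : Real.log N + 1 ≤ Lg) (hA0 : 0 ≤ A)
    (hA : A ≤ 2) (hs : 1 ≤ s) :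
    (N + 1) ^ k * (2 * A ^ s * Real.exp e) ≤ Real.exp (k * Lg + 2 * s * Lg + e) := by
  have h0 := Real.log_nonneg hN
  have h2 : 2 ≤ Real.exp 1 := by linarith [Real.add_one_le_exp 1]
  have h3 : 2 * N ≤ Real.exp Lg := by
    refine le_trans ?_ (Real.exp_le_exp.2 hL)
    rw [Real.exp_add, Real.exp_log (by linarith), mul_comm]
    exact mul_le_mul_of_nonneg_left h2 (by linarith)
  have h4 : (N + 1) ^ k ≤ Real.exp (k * Lg) := by
    rw [Real.exp_nat_mul]
    exact pow_le_pow_left₀ (by linarith) (by linarith) k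
  have h5 : 2 ^ s ≤ Real.exp (s * Lg) := by
    rw [Real.exp_nat_mul]
    exact pow_le_pow_left₀ (by norm_num) (by linarith) s
  have h6 : (2 : ℝ) ≤ 2 ^ s := le_self_pow₀ (by norm_num) (by omega)
  have h7 : A ^ s ≤ 2 ^ s := pow_le_pow_left₀ hA0 hA s
  rw [Real.exp_add, Real.exp_add, mul_assoc (2 : ℝ) (s : ℝ), two_mul (s * Lg), Real.exp_add,
    mul_assoc (Real.exp _)]
  gcongr
  · exact h6.trans h5
  · exact h7.trans h5

end RipB

open RipB

theorem rip_proof : RipStmt := by
  refine ⟨200000000, by norm_num, fun ι _ _ M T τ0 Lg sp hT h0 h1 hS hL hM => ?_⟩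
  have : Nonempty T := hT.to_subtype
  rw [av_ind]
  have triv : (∀ J : Finset ι, J.card ≤ 2 * sp → J = ∅) → R.pr (fun x : ι → T =>
      ¬ RipAll univ (fun i => rw (x i).1) (Real.sqrt (200000000 * Lg)) sp) ≤
        1 / cd ι + Real.exp (-(M : ℝ)) := fun h => by
    refine le_trans (R.pr_mono (F := fun _ => False) fun w hw => hw fun J _ hJ z q => ?_) ?_
    · simp [h J hJ, offd]
    · unfold R.pr cd
      simp only [if_false, expect_const_zero]
      positivity
  rcases Nat.eq_zero_or_pos sp with rfl | hsp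
  · exact triv fun J hJ => card_eq_zero.1 (by omega)
  rcases isEmpty_or_nonempty ι with hι | hι
  · exact triv fun J _ => eq_empty_of_isEmpty J
  have hN : 1 ≤ cd ι := by
    unfold cd
    exact_mod_cast Fintype.card_pos
  have hL1 : 1 ≤ Lg := by linarith [Real.log_nonneg hN]
  have hsp' : (1 : ℝ) ≤ sp := by exact_mod_cast hsp
  have hsL : 1 ≤ sp * Lg := by nlinarith
  have hM0 : (0 : ℝ) < M := by nlinarith
  have hρ : R.SG (fun (e : T) k => (rw e.1 k : ℝ)) (1 + τ0) := fun v => by
    have := hS v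
    unfold av ip nsq at this
    rw [Fintype.expect_eq_sum_div_card]
    simpa only [mul_comm (v _)] using this
  have hK0 : 0 < Real.sqrt (1960 * M) := Real.sqrt_pos.2 (by positivity)
  have e1 := R.pr_not_opLe_sparse (α := ι) hρ (2 * sp) hK0.le
  have e2 := R.pr_exists_mem_le_card_mul (Icc 1 (Fintype.card ι))
    (fun (s : ℕ) (w : ι → T) => (∀ J : Finset ι, J.card ≤ s →
      R.OpLe (fun i k => (rw (w i).1 k : ℝ)) J (Real.sqrt (1960 * M))) ∧
      ∃ S J : Finset ι, S.card ≤ s ∧ J.card ≤ s ∧ ¬ R.OffLe (fun i k => (rw (w i).1 k : ℝ)) S J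
        (4 * (Real.sqrt (200000000 * Lg) * Real.sqrt (M * s) / 4))) (δ := 1 / cd ι ^ 2)
    fun s hs => by
      have hs1 := (mem_Icc.1 hs).1
      have hs2 : (1 : ℝ) ≤ s := by exact_mod_cast hs1
      refine (R.pr_not_offLe_sparse hρ s (by positivity) hK0).trans
        ((pre_le hN hL (by linarith) (by linarith) hs1).trans ?_)
      have k1 : (Real.sqrt (200000000 * Lg) * Real.sqrt (M * s) / 4) ^ 2 /
          (196 * Real.sqrt (1960 * M) ^ 2) = 200000000 / 6146560 * (s * Lg) := by
        rw [div_pow, mul_pow, Real.sq_sqrt (by positivity), Real.sq_sqrt (by positivity),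
          Real.sq_sqrt (by positivity)]
        field_simp
        ring
      have k2 : 1 / cd ι ^ 2 = Real.exp (-(2 * Real.log (cd ι))) := by
        rw [Real.exp_neg, two_mul, Real.exp_add, Real.exp_log (by linarith), one_div, sq]
      rw [k1, k2]
      refine Real.exp_le_exp.2 ?_
      have k3 : Lg ≤ s * Lg := by nlinarith
      have k4 : (s : ℝ) ≤ s * Lg := by nlinarith
      push_cast
      linarith
  refine le_trans (R.pr_mono fun w hw => ?_) ((R.pr_or_le _ _).trans (add_le_add (e2.trans ?_)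
    (e1.trans ((pre_le hN hL (by linarith) (by linarith) (by omega)).trans ?_))))
  · by_contra hc
    rw [not_or] at hc
    obtain ⟨c1, c2⟩ := hc
    push Not at c1 c2
    refine hw fun J _ hJ z q => ?_
    rcases J.eq_empty_or_nonempty with rfl | hne
    · simp [offd]
    have k := c1 J.card (mem_Icc.2 ⟨hne.card_pos, card_le_univ J⟩)
      (fun J' h => c2 J' (h.trans hJ)) J J le_rfl le_rfl q z
    refine k.trans (le_of_eq ?_)
    simp only [n2, cd, Fintype.card_fin]
    ring
  · rw [Nat.card_Icc, Nat.add_sub_cancel]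
    unfold cd at hN ⊢
    refine le_of_eq ?_
    field_simp
  · rw [Real.sq_sqrt (by positivity), Fintype.card_fin]
    refine Real.exp_le_exp.2 ?_
    have k4 : (sp : ℝ) ≤ sp * Lg := by nlinarith
    push_cast
    linarith

end Vale.Agent.P318.B
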