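import Vale.Agent.P318.B.Sys0

/-! Existence of the system. -/

namespace Vale.Agent.P318.B

open Finset Vale.Agent.P318.M

namespace Sys

/-- the dimension at level `t` -/
noncomputable def Mt (N : ℕ) (X : ℝ) (t : ℕ) : ℕ := ⌊(N : ℝ) / 2 ^ t / (2048 * X ^ 57)⌋₊

/-- numerical facts at one level -/
structure LN (N : ℕ) (X y P : ℝ) (M : ℕ) : Prop where
  y1 : X ^ 4 ≤ y
  y2 : P ≤ y
  y3 : y * P = N
  m1 : X ^ 57 * M ≤ y / 2048
  m2 : y ≤ 4096 * X ^ 57 * M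
  m3 : X ^ 6000 ≤ M
  m4 : M ≤ N

variable {N t t0 D : ℕ} {X : ℝ}

theorem lev_num (hX : 10 ^ 4 ≤ X) (hN : X ^ 13000 ≤ N) (ht : (4 : ℝ) ^ t ≤ N) :
    LN N X (N / 2 ^ t) (2 ^ t) (Mt N X t) := by
  have X1 : 1 ≤ X := by linarith
  have hp : ∀ {a b : ℕ}, a ≤ b → X ^ a ≤ X ^ b := fun h => pow_le_pow_right₀ X1 h
  have P1 : (1 : ℝ) ≤ 2 ^ t := one_le_pow₀ one_le_two
  have y3 : (N : ℝ) / 2 ^ t * 2 ^ t = N := div_mul_cancel₀ _ (by positivity)
  have y2 : (2 : ℝ) ^ t ≤ N / 2 ^ t := by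
    rwa [le_div_iff₀ (by positivity), ← mul_pow, show (2 : ℝ) * 2 = 4 by norm_num]
  have y0 : (0 : ℝ) ≤ N / 2 ^ t := by positivity
  have y4 : (N : ℝ) / 2 ^ t ≤ N := div_le_self (by positivity) P1
  unfold Mt
  generalize (N : ℝ) / 2 ^ t = y at *
  have y1 : X ^ 6500 ≤ y := by
    refine abs_le_of_sq_le_sq' ?_ y0 |>.2
    rw [← pow_mul]
    exact hN.trans (by nlinarith [mul_le_mul_of_nonneg_left y2 y0])
  have q0 : 0 < 2048 * X ^ 57 := by positivity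
  have q1 : 4096 * X ^ 57 * X ^ 6000 ≤ y := by
    refine le_trans ?_ ((hp (show 1 + 57 + 6000 ≤ 6500 by norm_num)).trans y1)
    rw [pow_add, pow_add, pow_one]
    gcongr
    linarith
  have q2 : 1 ≤ X ^ 6000 := one_le_pow₀ X1
  have q3 : 1 ≤ X ^ 57 := one_le_pow₀ X1
  have s1 : 1 ≤ y / (2048 * X ^ 57) := by
    rw [one_le_div q0]
    nlinarith
  have s2 := (le_div_iff₀ q0).1 (Nat.floor_le (zero_le_one.trans s1))
  have s3 := (div_lt_iff₀ q0).1 (Nat.lt_floor_add_one (y / (2048 * X ^ 57)))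
  have s4 : 1 ≤ ⌊y / (2048 * X ^ 57)⌋₊ := Nat.le_floor (by simpa using s1)
  generalize ⌊y / (2048 * X ^ 57)⌋₊ = M at s2 s3 s4
  have s5 : (1 : ℝ) ≤ M := by exact_mod_cast s4
  have m2 : y ≤ 4096 * X ^ 57 * M := by nlinarith
  exact ⟨(hp (by norm_num)).trans y1, y2, y3, by linarith, m2,
    le_of_mul_le_mul_left (q1.trans m2) (by positivity), by
      exact_mod_cast (by nlinarith : (M : ℝ) ≤ N)⟩

/-- the number of blocks in a family -/
def mA (t0 D : ℕ) (a : Fin t0 × Fin D) : ℕ := 1024 * 2 ^ (a.1 : ℕ)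

theorem card_deg {A : Type} [Fintype A] [DecidableEq A] {m : A → ℕ} {ι : Type} [Fintype ι]
    [DecidableEq ι] (π : (a : A) → ι → Fin (m a)) (i : ι) :
    (univ.filter fun J : Bk m => i ∈ bk π J).card ≤ Fintype.card A := by
  refine card_le_card_of_injOn (t := univ) (fun J => J.1) (fun _ _ => mem_univ _) ?_
  rintro ⟨a, j⟩ h ⟨a', j'⟩ h' (rfl : a = a')
  simp only [bk, coe_filter, mem_filter, mem_univ, true_and, Set.mem_ofPred_eq] at h h'
  rw [← h, ← h']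

theorem card_A (t2 : (t0 : ℝ) ≤ X) (D2 : (D : ℝ) ≤ X) :
    (Fintype.card (Fin t0 × Fin D) : ℝ) ≤ X ^ 2 := by
  rw [Fintype.card_prod, Fintype.card_fin, Fintype.card_fin, Nat.cast_mul, sq]
  exact mul_le_mul t2 D2 (Nat.cast_nonneg _) ((Nat.cast_nonneg _).trans t2)

theorem card_B (hX : 10 ^ 4 ≤ X) (hN : X ^ 13000 ≤ N) (ht : ∀ t < t0, (4 : ℝ) ^ t ≤ N)
    (t2 : (t0 : ℝ) ≤ X) (D2 : (D : ℝ) ≤ X) : cd (Bk (mA t0 D)) ≤ (N : ℝ) ^ 2 := by
  have X1 : 1 ≤ X := by linarith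
  rw [cd, Fintype.card_sigma, Nat.cast_sum]
  refine (sum_le_card_nsmul _ _ (N : ℝ) fun a _ => ?_).trans ?_
  · have h3 : X ≤ X ^ 4 := by simpa using pow_le_pow_right₀ X1 (show 1 ≤ 4 by norm_num)
    have ln := lev_num hX hN (ht a.1 a.1.2)
    rw [Fintype.card_fin, mA, ← ln.y3]
    push_cast
    gcongr
    linarith [ln.y1]
  · rw [nsmul_eq_mul, sq (N : ℝ)]
    exact mul_le_mul_of_nonneg_right ((card_A t2 D2).trans
      ((pow_le_pow_right₀ X1 (by norm_num)).trans hN)) (by positivity)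

theorem xsys_of (hCh : ChunkStmt) (hX : 10 ^ 4 ≤ X) (hN : X ^ 13000 ≤ N)
    (ht : ∀ t < t0, (4 : ℝ) ^ t ≤ N) (t1 : 1 ≤ t0) (t2 : (t0 : ℝ) ≤ X) (t3 : (N : ℝ) ≤ 4 * 4 ^ t0)
    (D1 : 1 ≤ D) (D2 : (D : ℝ) ≤ X) (π : (a : Fin t0 × Fin D) → Fin N → Fin (mA t0 D a))
    (hπ : ∀ J : Bk (mA t0 D), (N : ℝ) / 2 ^ (J.1.1 : ℕ) / 2048 ≤ (bk π J).card ∧
      ((bk π J).card : ℝ) ≤ N / 2 ^ (J.1.1 : ℕ) / 512)
    (hπ' : ∀ (t : Fin t0) (S : Finset (Fin N)), 2 ^ (t : ℕ) ≤ S.card → S.card < 2 * 2 ^ (t : ℕ) →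
      (D : ℝ) * 2 ^ (t : ℕ) / 2 ≤
        ∑ d, ((univ.filter fun j => (S ∩ bk π ⟨(t, d), j⟩).card = 1).card : ℝ))
    (Γ : (a : Fin t0 × Fin D) → AddSubgroup (Fin (Mt N X a.1) → ℝ))
    (r : (a : Fin t0 × Fin D) → Fin N → Fin (Mt N X a.1) → ℤ) (hr : ∀ a, LG (Γ a) (r a) X)
    (ent : ∀ a i k, |(r a i k : ℝ)| ≤ 1) (int : ∀ a (n : _ → ℤ), (fun k => (n k : ℝ)) ∈ Γ a)
    (min : ∀ a, ∀ γ ∈ Γ a, γ ≠ 0 → 1 ≤ nsq γ) (dual : ∀ a i, Dual (Γ a) (r a i))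
    (c1 : C1 (M := fun J : Bk (mA t0 D) => Mt N X J.1.1) (bk π) (sb π r) (fun J => Γ J.1)
      (Fintype.card (Fin N) ^ 8) (X ^ 36)) :
    XSys (M := fun J : Bk (mA t0 D) => Mt N X J.1.1) (bk π) (sb π r) (fun J => Γ J.1)
      (fun J => J.1.1) t0 D X := by
  have X1 : 1 ≤ X := by linarith
  have hp : ∀ {a b : ℕ}, a ≤ b → X ^ a ≤ X ^ b := fun h => pow_le_pow_right₀ X1 h
  have hc : cd (Fin N) = N := by simp [cd]
  have ln := fun t : Fin t0 => lev_num hX hN (ht t t.2)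
  have N2 : X ^ 2 ≤ N := (hp (by norm_num)).trans hN
  have N1 : (1 : ℝ) ≤ N := (one_le_pow₀ X1).trans N2
  have cA := card_A t2 D2
  have e : ∀ J : Bk (mA t0 D), ∀ j ∈ bk π J, sb π r J j = r J.1 j := fun J j hj =>
    funext fun k => if_pos (mem_filter.1 hj).2
  have z : ∀ J : Bk (mA t0 D), ∀ j, j ∉ bk π J → sb π r J j = 0 := fun J j hj =>
    funext fun k => if_neg fun h => hj (mem_filter.2 ⟨mem_univ _, h⟩)
  have ent' : ∀ (J : Bk (mA t0 D)) j k, |(sb π r J j k : ℝ)| ≤ 1 := fun J j k => by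
    by_cases h : j ∈ bk π J
    · rw [e J j h]
      exact ent _ _ _
    · simp [z J j h]
  have deg : ∀ i, ((univ.filter fun J : Bk (mA t0 D) => i ∈ bk π J).card : ℝ) ≤ X ^ 2 := fun i =>
    (Nat.cast_le.2 (card_deg π i)).trans cA
  have MN : ∀ t : Fin t0, (Mt N X t : ℝ) ≤ N := fun t => Nat.cast_le.2 (ln t).m4
  have M0 : ∀ t : Fin t0, (0 : ℝ) < Mt N X t := fun t => lt_of_lt_of_le (by positivity) (ln t).m3
  refine ⟨⟨z, ent', deg, fun i => ?_, fun J => ?_, fun J => (ln _).m1.trans (hπ J).1,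
    fun J => (MN _).trans (by rw [hc]; nlinarith), fun J => (hr _).op hCh (by linarith) (e J)
      (ent' J), fun J => int _, fun J j => ?_, fun J => min _, one_le_pow₀ X1, X1, one_le_pow₀ X1,
    by rw [hc]; exact one_le_pow₀ N1⟩, c1, by rw [hc]; exact card_B hX hN ht t2 D2,
    fun i => ?_, D1, t1, t2, by rwa [hc],
    fun J => by rw [hc]; exact ht _ J.1.1.2, fun t ht S h1 h2 => ?_, fun t i => ?_, fun t => ?_,
    fun J => (hπ J).2.trans ?_, fun J => ?_, fun J => (hr _).nrm' (e J), fun J => (hr _).rip' (e J),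
    fun J => (hr _).span' (e J)⟩
  · rw [Fintype.sum_sigma, ← sum_filter_of_ne (p := fun J => i ∈ bk π J) fun J _ h => by
      by_contra h'
      exact h (by simp [tc, z J i h'])]
    refine (sum_le_card_nsmul _ _ (N : ℝ) fun J _ => ?_).trans ?_
    · exact (sum_le_card_nsmul _ _ 1 fun k _ => ent' J i k).trans (by simpa using MN _)
    · rw [nsmul_eq_mul, hc, sq (N : ℝ)]
      exact mul_le_mul_of_nonneg_right ((deg i).trans N2) (by positivity)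
  · exact card_pos.1 (Nat.cast_pos.1 (lt_of_lt_of_le (by positivity) (hπ J).1))
  · by_cases h : j ∈ bk π J
    · rw [e J j h]
      exact dual _ _
    · exact fun ρ _ => ⟨0, by simp [z J j h, ip]⟩
  · let a : Fin t0 × Fin D := (⟨0, t1⟩, ⟨0, D1⟩)
    obtain ⟨k, hk⟩ := exists_unit (ent a i) (lt_of_lt_of_le (div_pos (M0 _) four_pos) ((hr a).nrm i))
    exact ⟨⟨⟨a, π a i⟩, k⟩, by simpa [tc, sb] using hk⟩
  · refine (hπ' ⟨t, ht⟩ S h1 h2).trans ?_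
    rw [← Nat.cast_sum, ← card_sigma, Nat.cast_le]
    refine card_le_card_of_injOn (fun y => ⟨(⟨t, ht⟩, y.1), y.2⟩) (fun y hy => ?_) ?_
    · simpa using hy
    · rintro ⟨d, j⟩ - ⟨d', j'⟩ - h
      simp only [Sigma.mk.injEq, Prod.mk.injEq, true_and] at h
      obtain ⟨rfl, h⟩ := h
      rw [eq_of_heq h]
  · refine (card_le_card_of_injOn (t := univ) (fun J => J.1.2) (fun _ _ => mem_univ _) ?_).trans
      (by simp)
    rintro ⟨⟨t1, d⟩, j⟩ h ⟨⟨t2, d'⟩, j'⟩ h' (rfl : d = d')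
    simp only [bk, coe_filter, mem_filter, mem_univ, true_and, Set.mem_ofPred_eq] at h h'
    obtain rfl : t1 = t2 := Fin.ext (h.1.trans h'.1.symm)
    rw [← h.2, ← h'.2]
  · refine (Nat.cast_le.2 (card_le_card_of_injOn (t := univ ×ˢ range (1024 * 2 ^ t))
      (fun J => (J.1.2, (J.2 : ℕ))) (fun J hJ => ?_) ?_)).trans (by simp [mul_assoc])
    · simp only [coe_filter, mem_univ, true_and, Set.mem_ofPred_eq] at hJ
      exact mem_coe.2 (mem_product.2 ⟨mem_univ _, mem_range.2 (hJ ▸ J.2.2)⟩)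
    · rintro ⟨⟨t1, d⟩, j⟩ h ⟨⟨t2, d'⟩, j'⟩ h' h''
      simp only [coe_filter, mem_univ, true_and, Set.mem_ofPred_eq, Prod.mk.injEq] at h h' h''
      obtain rfl : t1 = t2 := Fin.ext (h.trans h'.symm)
      obtain ⟨rfl, h3⟩ := h''
      rw [Fin.ext h3]
  · have h1 := (ln J.1.1).m2
    have h2 : 0 ≤ X ^ 57 * Mt N X J.1.1 := by positivity
    rw [pow_succ]
    nlinarith
  · have h1 := (ln J.1.1).m2
    have h2 : 0 ≤ X ^ 57 * Mt N X J.1.1 * 2 ^ (J.1.1 : ℕ) := by positivity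
    rw [hc, ← (ln J.1.1).y3, show X ^ 59 = X ^ 57 * X ^ 2 by rw [← pow_add]]
    nlinarith [mul_le_mul_of_nonneg_right h1 (show (0 : ℝ) ≤ 2 ^ (J.1.1 : ℕ) by positivity),
      mul_le_mul_of_nonneg_left (show 4096 ≤ X ^ 2 by nlinarith) h2]

theorem hash_num {y P : ℝ} {M : ℕ} (h : LN N X y P M) (hX : 10 ^ 4 ≤ X) (D2 : (D : ℝ) ≤ X)
    (P0 : 0 < P) : 4 * D * (1024 * P) * Real.exp (-(N / (8 * (1024 * P)))) ≤ 1 := by
  have e : N / (8 * (1024 * P)) = y / 8192 := by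
    rw [← h.y3]
    field_simp
    ring
  have y0 : 0 < y := P0.trans_le h.y2
  have h1 := Real.quadratic_le_exp_of_nonneg (show 0 ≤ y / 8192 by positivity)
  have h2 : 10 ^ 12 * X ≤ y := by
    refine le_trans ?_ h.y1
    rw [pow_succ X 3]
    gcongr
    exact (by norm_num : (10 : ℝ) ^ 12 = (10 ^ 4) ^ 3).trans_le (by gcongr)
  rw [e, Real.exp_neg, ← div_eq_mul_inv, div_le_one (Real.exp_pos _)]
  nlinarith [mul_le_mul D2 h.y2 P0.le (by linarith), mul_le_mul_of_nonneg_right h2 y0.le]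

theorem c1_num {B : Type} [Fintype B] {M : B → ℕ} {b : B → ℝ} (hX : 10 ^ 4 ≤ X)
    (hL : 10 ^ 4 * Real.log N ≤ X) (N0 : 0 < N) (hB : cd B ≤ (N : ℝ) ^ 2)
    (hM : ∀ J, X ≤ M J) (hb : ∀ J, X ^ 57 * M J ≤ b J) :
    Real.exp (∑ J, 2 * (2 * (N ^ 8 : ℕ) + 1 : ℝ) ^ M J * Real.exp (-(b J / (160 * X ^ 36)))) - 1 ≤ 1 / 5 := by
  have X1 : 1 ≤ X := by linarith
  have N1 : (1 : ℝ) ≤ N := by exact_mod_cast N0
  have eN : ∀ k : ℕ, (N : ℝ) ^ k = Real.exp (k * Real.log N) := fun k => by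
    rw [Real.exp_nat_mul, Real.exp_log (by linarith)]
  have h1 : (2 * (N ^ 8 : ℕ) + 1 : ℝ) ≤ Real.exp X := by
    have := one_le_pow₀ (n := 8) N1
    have h2 := Real.add_one_le_exp 2
    refine le_trans ?_ (Real.exp_le_exp.2 (show 2 + (8 : ℕ) * Real.log N ≤ X by
      push_cast; linarith))
    rw [Real.exp_add, ← eN]
    push_cast
    nlinarith
  have h2 : ∀ J, 2 * (2 * (N ^ 8 : ℕ) + 1 : ℝ) ^ M J * Real.exp (-(b J / (160 * X ^ 36))) ≤
      2 * Real.exp (-X) := fun J => by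
    refine le_trans (b := 2 * Real.exp X ^ M J * Real.exp (-((X + 1) * M J))) ?_ ?_
    · gcongr
      rw [le_div_iff₀ (by positivity)]
      refine le_trans ?_ (hb J)
      have h3 : X ^ 2 ≤ X ^ 21 := pow_le_pow_right₀ X1 (by norm_num)
      have h4 : 0 ≤ X ^ 36 * M J := by positivity
      rw [show X ^ 57 = X ^ 36 * X ^ 21 by rw [← pow_add]]
      nlinarith [mul_le_mul_of_nonneg_left (show (X + 1) * 160 ≤ X ^ 21 by nlinarith) h4]
    · rw [← Real.exp_nat_mul, mul_assoc, ← Real.exp_add]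
      gcongr
      linarith [hM J]
  have h3 : ∑ J, 2 * (2 * (N ^ 8 : ℕ) + 1 : ℝ) ^ M J * Real.exp (-(b J / (160 * X ^ 36))) ≤
      1 / 10 := by
    refine (sum_le_card_nsmul _ _ _ fun J _ => h2 J).trans ?_
    rw [nsmul_eq_mul]
    refine (mul_le_mul_of_nonneg_right (hB.trans_eq (eN 2)) (by positivity)).trans ?_
    rw [mul_left_comm, ← Real.exp_add]
    have h4 := Real.add_one_le_exp (X - (2 : ℕ) * Real.log N)
    rw [show (2 : ℕ) * Real.log N + -X = -(X - (2 : ℕ) * Real.log N) by ring, Real.exp_neg,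
      ← div_eq_mul_inv, div_le_iff₀ (Real.exp_pos _)]
    push_cast at h4 ⊢
    linarith
  have h4 := Real.exp_bound_div_one_sub_of_interval (x := 1 / 10) (by norm_num) (by norm_num)
  linarith [Real.exp_le_exp.2 h3]

end Sys

open Sys in
theorem sys_proof (hH : HashStmt) (hCo : CodeStmt) (hR : RipStmt) (hC1 : C1Stmt)
    (hCh : ChunkStmt) : SysStmt := by
  obtain ⟨M0, hCo⟩ := hCo
  obtain ⟨C0, C1', hR⟩ := hR
  have m0 := Nat.cast_nonneg (α := ℝ) M0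
  refine ⟨10 ^ 4 + 12 * C0 + M0, by linarith, fun N X hC hL hN => ?_⟩
  have hX : 10 ^ 4 ≤ X := by linarith
  have X1 : 1 ≤ X := by linarith
  have hp : ∀ {a b : ℕ}, a ≤ b → X ^ a ≤ X ^ b := fun h => pow_le_pow_right₀ X1 h
  have N3 : X ^ 3 ≤ N := (hp (by norm_num)).trans hN
  have N4 : X ≤ N := by simpa using (hp (show 1 ≤ 3 by norm_num)).trans N3
  have N0 : 0 < N := Nat.cast_pos.1 (by linarith : (0 : ℝ) < N)
  have L1 : 1 ≤ Real.log N := (Real.le_log_iff_exp_le (by linarith)).2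
    (by linarith [Real.exp_one_lt_d9])
  have hL1 : 10 ^ 4 * Real.log N ≤ X := by nlinarith
  have hL2 : 12 * C0 * Real.log N ≤ X := by nlinarith
  have hc : cd (Fin N) = N := by simp [cd]
  obtain ⟨t0, t1, t2, t3, t4⟩ : ∃ t0 : ℕ, 1 ≤ t0 ∧ (t0 : ℝ) ≤ X ∧ (N : ℝ) ≤ 4 * 4 ^ t0 ∧
      (4 : ℝ) ^ t0 ≤ N := by
    have h1 : (4 : ℝ) ^ Nat.log 4 N ≤ N := by exact_mod_cast Nat.pow_log_le_self 4 N0.ne'
    refine ⟨Nat.log 4 N, Nat.log_pos (by norm_num) (by exact_mod_cast (by linarith : (4 : ℝ) ≤ N)),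
      ?_, ?_, h1⟩
    · have h2 := Real.log_le_log (by positivity) h1
      have h3 : 1 ≤ Real.log 4 := (Real.le_log_iff_exp_le (by norm_num)).2
        (by linarith [Real.exp_one_lt_d9])
      rw [Real.log_pow] at h2
      nlinarith [Nat.cast_nonneg (α := ℝ) (Nat.log 4 N)]
    · rw [← pow_succ']
      exact_mod_cast (Nat.lt_pow_succ_log_self (by norm_num) N).le
  have ht : ∀ t < t0, (4 : ℝ) ^ t ≤ N := fun t h => (pow_le_pow_right₀ (by norm_num) h.le).trans t4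
  obtain ⟨D, D1, D2, D3⟩ : ∃ D : ℕ, 1 ≤ D ∧ (D : ℝ) ≤ X ∧ 2 * Real.log N + 2 ≤ D :=
    ⟨⌈2 * Real.log N + 2⌉₊, Nat.ceil_pos.2 (by linarith), by
      linarith [Nat.ceil_lt_add_one (show 0 ≤ 2 * Real.log N + 2 by linarith)], Nat.le_ceil _⟩
  have ln := fun t : Fin t0 => lev_num hX hN (ht t t.2)
  choose π hπ1 hπ2 using fun t : Fin t0 => hH (Fin N) D (1024 * 2 ^ (t : ℕ)) (2 ^ (t : ℕ))
    Nat.one_le_two_pow le_rfl (by rwa [hc]) (by
      simpa [hc] using hash_num (ln t) hX D2 (by positivity))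
  choose Γ T τ hT hLG using fun t : Fin t0 => exists_level hCo C1' hR hX (by linarith) L1 hL1 hL2
    (ln t).m3 (ln t).m4
  have := fun t => (hT t).ne.to_subtype
  let π' : (a : Fin t0 × Fin D) → Fin N → Fin (mA t0 D a) := fun a => π a.1 a.2
  have hπ : ∀ J : Bk (mA t0 D), (N : ℝ) / 2 ^ (J.1.1 : ℕ) / 2048 ≤ (bk π' J).card ∧
      ((bk π' J).card : ℝ) ≤ N / 2 ^ (J.1.1 : ℕ) / 512 := fun J => by
    refine ⟨le_of_eq_of_le ?_ (hπ1 J.1.1 J.1.2 J.2).1, (hπ1 J.1.1 J.1.2 J.2).2.trans_eq ?_⟩ <;>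
      rw [hc] <;> push_cast <;> field_simp <;> norm_num
  have cA := card_A t2 D2
  have cB := card_B hX hN ht t2 D2
  have h1 : _ ≤ (1 / 5 : ℝ) := (hC1 (Fin N) (Fin t0 × Fin D) (mA t0 D) (fun a => Mt N X a.1) π' (fun a => Γ a.1)
    (fun a => T a.1) (Fintype.card (Fin N) ^ 8) (X ^ 36) (by positivity) (fun a => (hT _).ne)
    fun a => (hT _).sb).trans (by
      rw [Fintype.card_fin]
      exact c1_num hX hL1 N0 cB (fun J => le_trans (by
        simpa using hp (show 1 ≤ 6000 by norm_num)) (ln J.1.1).m3)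
        fun J => (ln J.1.1).m1.trans (hπ J).1)
  obtain ⟨x, hx⟩ := exists_lt_one (f := fun x : (a : Fin t0 × Fin D) → Fin N → T a.1 =>
    ∑ a, ind (¬ LG (Γ a.1) (fun i => rw (x a i).1) X) +
      ind (¬ C1 (M := fun J : Bk (mA t0 D) => Mt N X J.1.1) (bk π')
        (sb π' fun a i => rw (x a i).1) (fun J => Γ J.1.1) (Fintype.card (Fin N) ^ 8) (X ^ 36))) (by
    rw [av_add, av_sum]
    have h2 : ∑ a : Fin t0 × Fin D, av (fun x : (a : Fin t0 × Fin D) → Fin N → T a.1 =>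
        ind (¬ LG (Γ a.1) (fun i => rw (x a i).1) X)) ≤ X ^ 2 * (4 / N) := by
      refine (sum_le_card_nsmul univ _ (4 / N : ℝ) fun a _ => (av_eval (β := fun a : Fin t0 × Fin D =>
        Fin N → T a.1) a fun y => ind (¬ LG (Γ a.1) (fun i => rw (y i).1) X)).trans_le
        (hLG a.1)).trans ?_
      rw [nsmul_eq_mul]
      exact mul_le_mul_of_nonneg_right cA (by positivity)
    have h3 : X ^ 2 * (4 / N) ≤ 1 / 2 := by
      rw [← mul_div_assoc, div_le_iff₀ (by positivity)]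
      nlinarith [sq_nonneg X]
    linarith)
  have n1 := sum_nonneg fun (a : Fin t0 × Fin D) (_ : a ∈ univ) =>
    ind_nonneg (¬ LG (Γ a.1) (fun i => rw (x a i).1) X)
  refine ⟨Bk (mA t0 D), inferInstance, inferInstance, _, _, _, _, _, t0, D,
    xsys_of hCh hX hN ht t1 t2 t3 D1 D2 π' hπ (fun t S h1 h2 => ?_) (fun a => Γ a.1)
      (fun a i => rw (x a i).1) (fun a => not_not.1 fun h => hx.not_ge ?_)
      (fun a i => abs_rw_le _) (fun a => (hT _).int) (fun a => (hT _).min)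
      (fun a i => (hT _).dual _ (x a i).2) (not_not.1 fun h => hx.not_ge ?_)⟩
  · have := hπ2 t S h1 h2
    rwa [Nat.cast_pow, Nat.cast_ofNat] at this
  · exact le_add_of_le_of_nonneg ((ind_of h).ge.trans (single_le_sum (fun a _ =>
      ind_nonneg (¬ LG (Γ a.1) (fun i => rw (x a i).1) X)) (mem_univ a))) (ind_nonneg _)
  · exact le_add_of_nonneg_of_le n1 (ind_of h).ge

end Vale.Agent.P318.B
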