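import Vale.Agent.P318.B.Stmt

/-!
The near triangle inequality for good vertices, multi-scale version.
-/

namespace Vale.Agent.P318.B

open Finset Vale.Agent.P318.M

namespace TriB

lemma nd_sq_le (y y' e : ℝ) (n : ℤ) (h : |y' - y| ≤ e) : nd y' ^ 2 - e ≤ (y + n) ^ 2 := by
  have h1 : nd y ≤ |y + n| := by
    have := round_le y (-n)
    simpa [nd] using this
  have h2 : nd y' ≤ nd y + e := by
    have k1 := round_le y' (round y)
    have k2 : |y' - round y| ≤ |y' - y| + |y - round y| := abs_sub_le _ _ _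
    unfold nd
    linarith
  have h3 : nd y' ≤ 1 / 2 := abs_sub_round y'
  have h4 : nd y ≤ 1 / 2 := abs_sub_round y
  have h5 : 0 ≤ nd y := abs_nonneg _
  have h6 : 0 ≤ nd y' := abs_nonneg _
  have h7 : 0 ≤ e := (abs_nonneg _).trans h
  have h8 : nd y ^ 2 ≤ (y + n) ^ 2 := by
    rw [← sq_abs (y + n)]
    exact pow_le_pow_left₀ h5 h1 2
  by_cases h9 : nd y' ≤ nd y
  · nlinarith
  · nlinarith

lemma abs_le_sq (n : ℤ) : |(n : ℝ)| ≤ (n : ℝ) ^ 2 := by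
  have : |n| ≤ n ^ 2 := by
    rw [← sq_abs]
    exact Int.le_self_sq _
  exact_mod_cast this

lemma off (u τ : ℝ) (n : ℤ) (hτ : 0 ≤ τ) (h : |u| ≤ 1 / 2 + τ) :
    u ^ 2 - (u + n) ^ 2 ≤ 2 * τ * (n : ℝ) ^ 2 := by
  have h1 := abs_le_sq n
  have h2 : -(u * n) ≤ (1 / 2 + τ) * |(n : ℝ)| := by
    refine (neg_le_abs _).trans ?_
    rw [abs_mul]
    exact mul_le_mul_of_nonneg_right h (abs_nonneg _)
  nlinarith

variable {ι B : Type} [Fintype ι] [DecidableEq ι] [Fintype B] [DecidableEq B] {M : B → ℕ}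
  {blk : B → Finset ι} {s : (J : B) → ι → Fin (M J) → ℤ}
  {Γ : (J : B) → AddSubgroup (Fin (M J) → ℝ)} {F Kb Lm Cn τ δ1 Υ ϑ1 ϑ2 δ3 : ℝ} {g : ℕ}

/-- The part of `Δ` on the blocks of `S`. -/
def cut (Δ : Kt M → ℝ) (S : Finset B) : Kt M → ℝ := fun x => if x.1 ∈ S then Δ x else 0

omit [Fintype ι] [DecidableEq ι] in
lemma sum_cut (Δ : Kt M → ℝ) (S : Finset B) (i : ι) :
    ∑ J, ip (s J i) (res (cut Δ S) J) = ∑ J ∈ S, ip (s J i) (res Δ J) := by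
  rw [← sum_ite_mem_eq S fun J => ip (s J i) (res Δ J)]
  refine sum_congr rfl fun J _ => ?_
  by_cases h : J ∈ S <;> simp [ip, res, cut, h]

omit [Fintype ι] [DecidableEq ι] [DecidableEq B] in
lemma lin_sub (Δ Δ' : Kt M → ℝ) (i : ι) :
    lin (tc s) (Δ - Δ') i = lin (tc s) Δ i - lin (tc s) Δ' i := by
  simp [lin, ip, mul_sub, sum_sub_distrib]

/-- The two brackets. -/
lemma bracket (hP : PatStmt) (hB : BasicStmt) (H : GSys blk s Γ F Kb Lm Cn) (hg : 1 ≤ g)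
    (hτ : 0 ≤ τ) (hδ : 0 ≤ δ1) (u : ι → ℝ) (hu : GoodB blk s g τ δ1 Υ ϑ1 ϑ2 δ3 u)
    (Δ : Kt M → ℝ) (hΔ : ∀ x, |Δ x| ≤ 1) (S : Finset B) (n : ι → ℤ) :
    ∑ i, (u i ^ 2 - (u i + (n i + lin (tc s) (cut Δ S) i)) ^ 2) ≤
      2 * τ * ∑ i, (n i + lin (tc s) (cut Δ S) i) ^ 2 +
        (δ1 * F + Cn / g) * (zone blk S).card := by
  obtain ⟨b1, -, b3, b4, b5, -⟩ := hB ι B M blk s Γ F Kb Lm Cn H
  obtain ⟨π, p1, -, p3, p4⟩ := (hP B M g).2.1 Δ S S hg hΔ Subset.rfl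
  have hg0 : (0 : ℝ) < g := by exact_mod_cast hg
  have h1 : ∀ i, |pw s π i - lin (tc s) (cut Δ S) i| ≤ Cn / g := by
    intro i
    rw [pw, ← lin_sub, ← mul_one_div]
    refine b3 _ _ (by positivity) (fun x => ?_) i
    by_cases h : x.1 ∈ S
    · simpa [cut, h] using p3 x h
    · simp [cut, h, p4 x h]
  have h2 := hu.2.1 π
  rw [p1] at h2
  have h3 : ∑ i ∈ zone blk S, (u i ^ 2 - (u i + (n i + lin (tc s) (cut Δ S) i)) ^ 2) ≤
      ∑ i ∈ zone blk S, ((u i ^ 2 - nd (u i + pw s π i) ^ 2) + Cn / g) := by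
    refine sum_le_sum fun i _ => ?_
    have k := nd_sq_le (u i + lin (tc s) (cut Δ S) i) (u i + pw s π i) (Cn / g) (n i)
      (by simpa using h1 i)
    have e : u i + (n i + lin (tc s) (cut Δ S) i) = u i + lin (tc s) (cut Δ S) i + n i := by ring
    rw [e]
    linarith
  rw [sum_add_distrib, sum_const, nsmul_eq_mul] at h3
  have h4 : ∑ i ∈ (zone blk S)ᶜ, (u i ^ 2 - (u i + (n i + lin (tc s) (cut Δ S) i)) ^ 2) ≤
      ∑ i ∈ (zone blk S)ᶜ, 2 * τ * (n i + lin (tc s) (cut Δ S) i) ^ 2 := by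
    refine sum_le_sum fun i hi => ?_
    rw [b1, sum_cut, b5 Δ S i (mem_compl.1 hi), add_zero]
    exact off _ _ _ hτ (hu.1 i)
  have h5 : ∑ i ∈ (zone blk S)ᶜ, 2 * τ * (n i + lin (tc s) (cut Δ S) i) ^ 2 ≤
      ∑ i, 2 * τ * (n i + lin (tc s) (cut Δ S) i) ^ 2 :=
    sum_le_sum_of_subset_of_nonneg (subset_univ _) fun i _ _ => by positivity
  have h6 := mul_le_mul_of_nonneg_left (b4 S).1 hδ
  rw [← sum_add_sum_compl (zone blk S), mul_sum]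
  linarith

omit [DecidableEq B] [Fintype B] in
/-- The bound for the drift of the small blocks. -/
lemma drift (v w : ι → ℝ) (Z : Finset ι) (d K E : ℝ) (hd : 0 < d) (hd' : d ≤ 1 / 6)
    (hK0 : 0 ≤ K) (hK : K ≤ d ^ 4) (ho : ∑ i, v i * w i = 0)
    (hi : ∀ i, i ∉ Z → ∃ n : ℤ, v i + w i = n)
    (hT : ∀ T : Finset ι, ∑ i ∈ T, w i ^ 2 ≤ E + K * T.card)
    (hE : E + K * Z.card ≤ 2 * d ^ 2 * ∑ i, v i ^ 2) :
    ∑ i, w i ^ 2 ≤ 5 * d * ∑ i, v i ^ 2 := by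
  set Y : Finset ι := univ.filter fun i => d ≤ |w i| with hY
  have h1 : d ^ 2 * Y.card ≤ ∑ i, w i ^ 2 := by
    calc d ^ 2 * Y.card = ∑ _i ∈ Y, d ^ 2 := by rw [sum_const, nsmul_eq_mul, mul_comm]
      _ ≤ ∑ i ∈ Y, w i ^ 2 := sum_le_sum fun i h => by
          rw [← sq_abs (w i)]
          exact pow_le_pow_left₀ hd.le (mem_filter.1 h).2 2
      _ ≤ _ := sum_le_sum_of_subset_of_nonneg (subset_univ _) fun i _ _ => sq_nonneg _
  have h2 : ((Z ∪ Y).card : ℝ) ≤ Z.card + Y.card := by exact_mod_cast card_union_le Z Y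
  have h3 : ∀ i, 2 * d * ((v i + w i) * w i) ≤
      2 * d ^ 2 * (v i + w i) ^ 2 + if i ∈ Z ∪ Y then w i ^ 2 else 0 := by
    intro i
    split_ifs with h
    · nlinarith [sq_nonneg (d * (v i + w i) - w i), sq_nonneg (d * (v i + w i))]
    · rw [mem_union, not_or] at h
      obtain ⟨n, hn⟩ := hi i h.1
      have k1 : |w i| ≤ d := le_of_not_ge fun k => h.2 (mem_filter.2 ⟨mem_univ _, k⟩)
      have k2 : (n : ℝ) * w i ≤ (n : ℝ) ^ 2 * d := by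
        refine (le_abs_self _).trans ?_
        rw [abs_mul]
        exact mul_le_mul (abs_le_sq n) k1 (abs_nonneg _) (sq_nonneg _)
      rw [hn]
      nlinarith
  have h4 := sum_le_sum fun i (_ : i ∈ (univ : Finset ι)) => h3 i
  rw [sum_add_distrib, sum_ite_mem_eq, ← mul_sum, ← mul_sum] at h4
  have e1 : ∑ i, (v i + w i) * w i = ∑ i, w i ^ 2 := by
    rw [← zero_add (∑ i, w i ^ 2), ← ho, ← sum_add_distrib]
    exact sum_congr rfl fun i _ => by ring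
  have e2 : ∑ i, (v i + w i) ^ 2 = ∑ i, v i ^ 2 + ∑ i, w i ^ 2 := by
    rw [← add_zero (∑ i, v i ^ 2), ← mul_zero 2, ← ho, mul_sum, ← sum_add_distrib,
      ← sum_add_distrib]
    exact sum_congr rfl fun i _ => by ring
  rw [e1, e2] at h4
  have h5 := hT (Z ∪ Y)
  have h6 := mul_le_mul_of_nonneg_left h2 hK0
  have h7 : K * Y.card ≤ d ^ 2 * ∑ i, w i ^ 2 := by
    have k1 := mul_le_mul_of_nonneg_right hK (Nat.cast_nonneg (α := ℝ) Y.card)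
    have k2 := mul_le_mul_of_nonneg_left h1 (sq_nonneg d)
    nlinarith
  have ha : 0 ≤ ∑ i, v i ^ 2 := sum_nonneg fun i _ => sq_nonneg _
  have hb : 0 ≤ ∑ i, w i ^ 2 := sum_nonneg fun i _ => sq_nonneg _
  generalize ∑ i, v i ^ 2 = a at *
  generalize ∑ i, w i ^ 2 = b at *
  have h8 : d * (2 * b) ≤ d * (4 * d * a + 3 * d * b) := by nlinarith
  have h9 := le_of_mul_le_mul_left h8 hd
  have h10 := mul_le_mul_of_nonneg_right hd' hb
  have h11 := mul_nonneg hd.le ha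
  nlinarith

omit [DecidableEq ι] in
lemma ident (u u' u'' w : ι → ℝ) (o1 : ∑ i, u i * w i = 0) (o2 : ∑ i, u' i * w i = 0)
    (o3 : ∑ i, u'' i * w i = 0) :
    ∑ i, (u i - u'' i) ^ 2 = ∑ i, (u i - u' i) ^ 2 + ∑ i, (u' i - u'' i) ^ 2 +
      (∑ i, (u i ^ 2 - (u i + -(u i - u' i + w i)) ^ 2) +
        ∑ i, (u'' i ^ 2 - (u'' i + (u i - u' i + w i)) ^ 2)) + 2 * ∑ i, w i ^ 2 ∧
    ∑ i, (u i - u' i) * w i = 0 ∧
    ∑ i, (u i - u' i + w i) ^ 2 = ∑ i, (u i - u' i) ^ 2 + ∑ i, w i ^ 2 := by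
  have e4 : ∑ i, (u i - u'' i) ^ 2 = ∑ i, (u i - u' i) ^ 2 + ∑ i, (u' i - u'' i) ^ 2 +
      (∑ i, (u i ^ 2 - (u i + -(u i - u' i + w i)) ^ 2) +
        ∑ i, (u'' i ^ 2 - (u'' i + (u i - u' i + w i)) ^ 2)) + 2 * ∑ i, w i ^ 2 +
        (2 * ∑ i, u i * w i - 4 * ∑ i, u' i * w i + 2 * ∑ i, u'' i * w i) := by
    simp only [mul_sum, ← sum_add_distrib, ← sum_sub_distrib]
    exact sum_congr rfl fun i _ => by ring
  have hvw : ∑ i, (u i - u' i) * w i = 0 := by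
    simp only [sub_mul, sum_sub_distrib, o1, o2, sub_self]
  refine ⟨by rw [e4, o1, o2, o3]; ring, hvw, ?_⟩
  rw [← add_zero (∑ i, (u i - u' i) ^ 2), ← mul_zero 2, ← hvw, mul_sum, ← sum_add_distrib,
    ← sum_add_distrib]
  exact sum_congr rfl fun i _ => by ring

lemma fin (a b z d τ e η : ℝ) (ha : 0 ≤ a) (hb0 : 0 ≤ b) (hz : 0 ≤ z) (hd : 0 < d)
    (hd' : d ≤ 1 / 6) (hτ : 2 * τ ≤ d) (he : 204800 * e ≤ 6 * d * η) (hA : η * z ≤ 102400 * a)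
    (hb : b ≤ 5 * d * a) : 2 * (2 * τ * (a + b) + e * z) + 2 * b ≤ 20 * d * a := by
  have k1 := mul_le_mul_of_nonneg_right he hz
  have k2 := mul_le_mul_of_nonneg_left hA hd.le
  have k3 := mul_le_mul_of_nonneg_right hτ (add_nonneg ha hb0)
  have k4 := mul_le_mul_of_nonneg_left hb hd.le
  have k5 := mul_le_mul_of_nonneg_right hd' (mul_nonneg hd.le ha)
  have k6 := mul_nonneg hd.le ha
  linarith

lemma small (hB : BasicStmt) (H : GSys blk s Γ F Kb Lm Cn) {γ1 ϑ ηa d : ℝ}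
    (A : APar F Kb Lm Cn γ1 τ Υ ϑ ϑ1 ϑ2 δ3 ηa g) (T : TPar F Kb Lm Cn γ1 τ δ1 ηa d g)
    (Δ : Kt M → ℝ) (v : ι → ℝ) (x0 : ι → ℤ) (JJ : Finset B)
    (hJJ : ∀ J, J ∉ JJ → nsq (res Δ J) ≤ ηa ^ 2)
    (hG1 : γ1 * ∑ J, ((blk J).card : ℝ) * min (1 / 4) (nsq (res Δ J)) ≤ ∑ i, v i ^ 2)
    (hA1 : ηa * (zone blk JJ).card ≤ 102400 * ∑ i, v i ^ 2)
    (ho : ∑ i, v i * lin (tc s) (cut Δ JJᶜ) i = 0)
    (hg : ∀ i, (x0 i : ℝ) - lin (tc s) (cut Δ JJ) i = v i + lin (tc s) (cut Δ JJᶜ) i) :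
    ∑ i, lin (tc s) (cut Δ JJᶜ) i ^ 2 ≤ 5 * d * ∑ i, v i ^ 2 := by
  obtain ⟨b1, -, -, -, b5, b6⟩ := hB ι B M blk s Γ F Kb Lm Cn H
  have hη : 0 < ηa := A.th_pos.trans_le A.th_le
  have hd := T.d_pos
  have hF := H.one_le_F
  have hKb := H.one_le_Kb
  have hL := H.one_le_Lm
  have hγ := A.gam_pos
  have ha : 0 ≤ ∑ i, v i ^ 2 := sum_nonneg fun i _ => sq_nonneg _
  have hFK : 1 ≤ F ^ 2 * Kb := one_le_mul_of_one_le_of_one_le (one_le_pow₀ hF) hKb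
  have k0 := mul_le_mul_of_nonneg_right hFK hη.le
  have k1 : F ^ 2 * Kb * ηa ≤ d ^ 2 := by linarith [T.eta]
  have hηd : ηa ≤ d ^ 2 := by linarith
  have hE : F * Kb / Lm * ∑ J ∈ JJᶜ, ((blk J).card : ℝ) * nsq (res Δ J) ≤
      d ^ 2 * ∑ i, v i ^ 2 := by
    have k1 : ∑ J ∈ JJᶜ, ((blk J).card : ℝ) * nsq (res Δ J) ≤
        ∑ J, ((blk J).card : ℝ) * min (1 / 4) (nsq (res Δ J)) := by
      refine le_trans (sum_le_sum fun J hJ => ?_) (sum_le_sum_of_subset_of_nonneg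
        (subset_univ JJᶜ) fun J _ _ => mul_nonneg (Nat.cast_nonneg _)
          (le_min (by norm_num) (sum_nonneg fun _ _ => sq_nonneg _)))
      have k2 := hJJ J (mem_compl.1 hJ)
      have k3 := pow_le_pow_left₀ hη.le A.eta_le 2
      rw [min_eq_right (by linarith)]
    have k3 : 0 ≤ F * Kb / (Lm * γ1) := by positivity
    have k4 := mul_le_mul_of_nonneg_left ((mul_le_mul_of_nonneg_left k1 hγ.le).trans hG1) k3
    have k5 := mul_le_mul_of_nonneg_right T.eps1 ha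
    refine le_trans (le_of_eq ?_) (k4.trans k5)
    generalize ∑ J ∈ JJᶜ, ((blk J).card : ℝ) * nsq (res Δ J) = t
    field_simp
  refine drift v _ (zone blk JJ) d (F ^ 2 * Kb * ηa ^ 2)
    (F * Kb / Lm * ∑ J ∈ JJᶜ, ((blk J).card : ℝ) * nsq (res Δ J)) hd T.d_le (by positivity) ?_ ho
    (fun i hi => ⟨x0 i, by rw [← hg, b1, sum_cut, b5 Δ JJ i hi, sub_zero]⟩) (fun T' => ?_) ?_
  · calc F ^ 2 * Kb * ηa ^ 2 = F ^ 2 * Kb * ηa * ηa := by ring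
      _ ≤ d ^ 2 * d ^ 2 := mul_le_mul k1 hηd hη.le (sq_nonneg _)
      _ = d ^ 4 := by ring
  · refine le_trans (le_of_eq (sum_congr rfl fun i _ => ?_))
      (b6 Δ JJᶜ T' (ηa ^ 2) (sq_nonneg _) fun J hJ => hJJ J (mem_compl.1 hJ))
    rw [b1, sum_cut]
  · have k2 := mul_le_mul_of_nonneg_left hA1 (by positivity : 0 ≤ F ^ 2 * Kb * ηa)
    have k3 := mul_le_mul_of_nonneg_right T.eta ha
    linarith

end TriB

open TriB in
theorem triB_proof (hP : PatStmt) (hB : BasicStmt) (hPr : ProjStmt) (hA : ClaimAStmt) :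
    TriBStmt := by
  intro ι B _ _ _ _ M blk s Γ F Kb Lm Cn γ1 τ δ1 Υ ϑ ϑ1 ϑ2 δ3 ηa d g Sp c H hC hG A T hS x x' x''
    hx hx' hx''
  obtain ⟨b1, b2, -⟩ := hB ι B M blk s Γ F Kb Lm Cn H
  obtain ⟨Δ, r, hΔ, hr⟩ := b2 (Sp fun j => (x j : ℝ) - x' j)
  have ho : ∀ (y : ι → ℤ) β, ∑ j, vv (tc s) Sp c y j * lin (tc s) β j = 0 := fun y β => hS _ β
  have hv : ∀ i, vv (tc s) Sp c x i - vv (tc s) Sp c x' i =
      ((x i - x' i - r i : ℤ) : ℝ) - lin (tc s) Δ i := by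
    intro i
    have k := congrFun (((hPr.1 ι (Kt M) (tc s)).2 Sp hS).2.1 (fun j => (x j : ℝ) + c j)
      fun j => (x' j : ℝ) + c j) i
    have e : ((fun j => (x j : ℝ) + c j) - fun j => (x' j : ℝ) + c j) =
        fun j => (x j : ℝ) - x' j := by
      funext j
      simp
    rw [e, perp, hr] at k
    push_cast
    simp only [Pi.sub_apply] at k
    unfold vv
    linarith
  unfold rr
  have hA1 := hA ι B M blk s Γ F Kb Lm Cn γ1 τ δ1 Υ ϑ ϑ1 ϑ2 δ3 ηa g _ _ Δ _ H hC hG A hx hx'.1 hΔ hv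
  have hG1 := hG Δ hΔ fun i => x i - x' i - r i
  simp only [← hv] at hG1
  have o1 := ho x
  have o2 := ho x'
  have o3 := ho x''
  generalize vv (tc s) Sp c x = u at *
  generalize vv (tc s) Sp c x' = u' at *
  generalize vv (tc s) Sp c x'' = u'' at *
  have hJJ : ∀ J, J ∉ (univ.filter fun J => ηa ^ 2 ≤ nsq (res Δ J)) → nsq (res Δ J) ≤ ηa ^ 2 :=
    fun J hJ => le_of_not_ge fun k => hJ (mem_filter.2 ⟨mem_univ _, k⟩)
  generalize (univ.filter fun J => ηa ^ 2 ≤ nsq (res Δ J)) = JJ at hA1 hJJ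
  obtain ⟨x0, hx0⟩ : ∃ x0 : ι → ℤ, ∀ i, x i - x' i - r i = x0 i := ⟨_, fun _ => rfl⟩
  simp only [hx0] at hv
  have hsplit : ∀ i, lin (tc s) Δ i = lin (tc s) (cut Δ JJ) i + lin (tc s) (cut Δ JJᶜ) i := by
    intro i
    rw [b1, b1, b1, sum_cut, sum_cut, sum_add_sum_compl]
  have hneg : ∀ i, lin (tc s) (cut (-Δ) JJ) i = -lin (tc s) (cut Δ JJ) i := by
    intro i
    have : cut (-Δ) JJ = 0 - cut Δ JJ := by
      funext y
      by_cases h : y.1 ∈ JJ <;> simp [cut, h]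
    rw [this, lin_sub]
    simp [lin, ip]
  have h1 : ∀ y, |Δ y| ≤ 1 := fun y => ((hΔ y.1).1 y.2).trans (by norm_num)
  have B1 := bracket hP hB H A.g_pos A.tau_nonneg T.d1_nonneg u hx Δ h1 JJ (-x0)
  have B2 := bracket hP hB H A.g_pos A.tau_nonneg T.d1_nonneg u'' hx'' (-Δ)
    (fun y => by simpa using h1 y) JJ x0
  have hg : ∀ i, (x0 i : ℝ) - lin (tc s) (cut Δ JJ) i =
      u i - u' i + lin (tc s) (cut Δ JJᶜ) i := fun i => by
    rw [hv, hsplit]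
    ring
  obtain ⟨e4, hvw, e3⟩ := ident u u' u'' _ (o1 (cut Δ JJᶜ)) (o2 _) (o3 _)
  have hb := small hB H A T Δ (fun i => u i - u' i) x0 JJ hJJ hG1 hA1 hvw hg
  generalize lin (tc s) (cut Δ JJᶜ) = w at *
  have e1 : ∀ i, ((-x0) i : ℝ) + lin (tc s) (cut Δ JJ) i = -(u i - u' i + w i) := fun i => by
    rw [← hg]
    simp only [Pi.neg_apply, Int.cast_neg]
    ring
  have e2 : ∀ i, (x0 i : ℝ) + lin (tc s) (cut (-Δ) JJ) i = u i - u' i + w i := fun i => by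
    rw [← hg, hneg]
    ring
  simp only [e1, neg_sq] at B1
  simp only [e2] at B2
  rw [e3] at B1 B2
  have k := fin _ _ _ d τ _ ηa (sum_nonneg fun i _ => sq_nonneg _)
    (sum_nonneg fun i _ => sq_nonneg _) (Nat.cast_nonneg _) T.d_pos T.d_le T.tau T.d1 hA1 hb
  linarith

end Vale.Agent.P318.B
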