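import Vale.Agent.P318.B.Stmt
import Vale.Agent.P318.M.Chernoff2
import Vale.Agent.P318.M.Good
import Vale.Agent.P318.M.Ramp

/-!
Tail bounds, three means, and the existence of an offset for which almost all samples are nice.
-/

namespace Vale.Agent.P318.B

open Finset MeasureTheory Vale.Agent.P318.M

namespace Typ

open Chernoff GoodAux

lemma nd_nonneg (x : ℝ) : 0 ≤ nd x := abs_nonneg _

lemma nd_le (x : ℝ) : nd x ≤ 1 / 2 := abs_sub_round x

lemma nd_sub_le (x y : ℝ) : nd x - nd y ≤ |x - y| := by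
  have h1 : nd x ≤ |x - round y| := round_le x _
  have h2 := abs_add_le (x - y) (y - round y)
  rw [sub_add_sub_cancel] at h2
  unfold nd at h1 ⊢
  linarith

lemma nd_cont : Continuous nd := by
  refine (LipschitzWith.of_dist_le_mul (K := 1) fun x y => ?_).continuous
  rw [NNReal.coe_one, one_mul, Real.dist_eq, Real.dist_eq, abs_le]
  exact ⟨by linarith [nd_sub_le y x, abs_sub_comm y x], nd_sub_le x y⟩

lemma nd_add_int (x : ℝ) (n : ℤ) : nd (x + n) = nd x := by
  unfold nd
  rw [round_add_intCast]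
  push_cast
  congr 1
  ring

lemma nd_sq_le (x : ℝ) : nd x ^ 2 ≤ 1 / 4 := by nlinarith [nd_nonneg x, nd_le x]

lemma abs_phi_le (w z : ℝ) (hz : |z| ≤ 1) : |z ^ 2 - nd (z + w) ^ 2| ≤ 1 := by
  have h1 : z ^ 2 ≤ 1 := by rw [← sq_abs]; nlinarith [abs_nonneg z]
  rw [abs_le]
  constructor <;> nlinarith [nd_sq_le (z + w), sq_nonneg z, sq_nonneg (nd (z + w))]

lemma int_nd (w : ℝ) : ∫ t in (0 : ℝ)..1, nd (t + w) ^ 2 = ∫ t in (0 : ℝ)..1, nd t ^ 2 := by
  have hp : Function.Periodic (fun t => nd t ^ 2) 1 := fun t => by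
    simpa using congrArg (· ^ 2) (nd_add_int t 1)
  rw [intervalIntegral.integral_comp_add_right (fun t => nd t ^ 2) w, zero_add, add_comm 1 w,
    hp.intervalIntegral_add_eq w 0, zero_add]

lemma mean_sq {ω : ℝ} (hR : RampAt ω) (h0 : 0 < ω) (w : ℝ) :
    zmean ω (fun z => z ^ 2 - nd (z + w) ^ 2) ≤ 2 * ω := by
  have hc := nd_cont
  have hm : Measurable fun z : ℝ => z ^ 2 - nd (z + w) ^ 2 :=
    Continuous.measurable (by fun_prop)
  have h1 : ∀ t, mix ω (fun z => z ^ 2 - nd (z + w) ^ 2) t ≤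
      2 * ω + (nd t ^ 2 - nd (t + w) ^ 2) := fun t => by
    have e1 : nd (Int.fract t + w) = nd (t + w) := by
      rw [← nd_add_int _ ⌊t⌋]
      congr 1
      rw [← Int.self_sub_floor]
      ring
    have e2 : nd (Int.fract t - 1 + w) = nd (t + w) := by
      rw [← e1, ← nd_add_int _ 1]
      congr 1
      push_cast
      ring
    have e3 : nd t = min (Int.fract t) (1 - Int.fract t) := abs_sub_round_eq_min t
    have p0 := hR.pr_nonneg t
    have p1 := hR.pr_le t
    unfold mix
    simp only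
    rw [e1, e2, e3]
    rcases le_total (Int.fract t) (1 - Int.fract t) with h | h
    · rw [min_eq_left h]
      by_cases hp : pr ω t = 0
      · rw [hp]; linarith
      · have := hR.pr_ne_zero t hp
        nlinarith
    · rw [min_eq_right h]
      by_cases hp : pr ω t = 1
      · rw [hp]; nlinarith
      · have := hR.pr_ne_one t hp
        nlinarith
  rw [zmean_eq]
  refine (intervalIntegral.integral_mono zero_le_one
    (ii_of_bound (mix_meas hR hm) (abs_mix_le hR (abs_phi_le w)))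
    (Continuous.intervalIntegrable (by fun_prop) _ _) h1).trans (le_of_eq ?_)
  rw [intervalIntegral.integral_add (by simp) (Continuous.intervalIntegrable (by fun_prop) _ _),
    intervalIntegral.integral_sub (Continuous.intervalIntegrable (by fun_prop) _ _)
      (Continuous.intervalIntegrable (by fun_prop) _ _), int_nd]
  simp

lemma int_le_neg {f : ℝ → ℝ} (hf : IntervalIntegrable f volume 0 1) {a b : ℝ} (h0 : 0 ≤ a)
    (hab : a ≤ b) (h1 : b ≤ 1) (h : ∀ t, f t ≤ 0) (h' : ∀ t ∈ Set.Ioo a b, f t ≤ -1) :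
    ∫ t in (0 : ℝ)..1, f t ≤ -(b - a) := by
  have hi : ∀ {x y : ℝ}, 0 ≤ x → x ≤ y → y ≤ 1 → IntervalIntegrable f volume x y :=
    fun hx hxy hy => hf.mono_set (by
      rw [Set.uIcc_of_le hxy, Set.uIcc_of_le zero_le_one]; exact Set.Icc_subset_Icc hx hy)
  have hn : ∀ {x y : ℝ}, 0 ≤ x → x ≤ y → y ≤ 1 → ∫ t in x..y, f t ≤ 0 := fun hx hxy hy => by
    simpa using intervalIntegral.integral_mono hxy (hi hx hxy hy) (g := fun _ => 0) (by simp) h
  have h2 := intervalIntegral.integral_mono_on_of_le_Ioo hab (hi h0 hab h1) (g := fun _ => -1)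
    (by simp) h'
  rw [← intervalIntegral.integral_add_adjacent_intervals (hi le_rfl h0 (hab.trans h1))
    (hi h0 (hab.trans h1) le_rfl), ← intervalIntegral.integral_add_adjacent_intervals
    (hi h0 hab h1) (hi (h0.trans hab) h1 le_rfl)]
  have h3 := hn le_rfl h0 (hab.trans h1)
  have h4 := hn (h0.trans hab) h1 le_rfl
  simp only [intervalIntegral.integral_const, smul_eq_mul] at h2
  linarith

lemma meas_ind (c w : ℝ) : Measurable fun z : ℝ => -ind (c < |z + w|) :=
  (ind_meas (measurableSet_lt measurable_const (by fun_prop))).neg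

lemma abs_neg_ind (P : Prop) : |-ind P| ≤ 1 := by
  rw [abs_neg, abs_of_nonneg (ind_nonneg P)]
  exact ind_le_one P

lemma mean_ind {ω : ℝ} (hR : RampAt ω) (h0 : 0 < ω) {w τ : ℝ} (hw : |w| ≤ 1 / 2) (hτ : 0 ≤ τ) :
    zmean ω (fun z => -ind (1 / 2 + τ < |z + w|)) ≤ -max (|w| - τ - ω) 0 := by
  have hi := ii_of_bound (mix_meas hR (meas_ind (1 / 2 + τ) w))
    (abs_mix_le hR fun z _ => abs_neg_ind _)
  have hn : ∀ t, mix ω (fun z => -ind (1 / 2 + τ < |z + w|)) t ≤ 0 := fun t =>
    (mix_le hR (ψ := fun _ => 0) (fun z _ => neg_nonpos.2 (ind_nonneg _)) t).trans_eq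
      (mix_const _ _ _)
  rw [zmean_eq]
  rcases le_total (|w| - τ - ω) 0 with h | h
  · rw [max_eq_right h]
    simpa using int_le_neg hi le_rfl le_rfl zero_le_one hn (by simp)
  rw [max_eq_left h]
  rcases le_total 0 w with hs | hs
  · rw [abs_of_nonneg hs] at hw h ⊢
    refine (int_le_neg hi (a := 1 / 2 + τ - w) (b := 1 / 2 - ω) (by linarith) (by linarith)
      (by linarith) hn fun t ht => ?_).trans_eq (by ring)
    have e : Int.fract t = t := Int.fract_eq_self.2 ⟨by linarith [ht.1], by linarith [ht.2]⟩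
    have hp : pr ω t = 0 := by
      by_contra hp
      have := hR.pr_ne_zero t hp
      linarith [ht.2]
    unfold mix
    simp only
    rw [hp, e, ind_pos (lt_of_lt_of_le (by linarith [ht.1]) (le_abs_self (t + w)))]
    simp
  · rw [abs_of_nonpos hs] at hw h ⊢
    refine (int_le_neg hi (a := 1 / 2 + ω) (b := 1 / 2 - τ - w) (by linarith) (by linarith)
      (by linarith) hn fun t ht => ?_).trans_eq (by ring)
    have e : Int.fract t = t := Int.fract_eq_self.2 ⟨by linarith [ht.1], by linarith [ht.2]⟩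
    have hp : pr ω t = 1 := by
      by_contra hp
      have := hR.pr_ne_one t hp
      linarith [ht.1]
    unfold mix
    simp only
    rw [hp, e, ind_pos (P := 1 / 2 + τ < |t - 1 + w|)
      (lt_of_lt_of_le (by linarith [ht.2]) (neg_le_abs (t - 1 + w)))]
    simp

variable {ι : Type} [Fintype ι] [DecidableEq ι]

omit [DecidableEq ι] in
lemma abs_zz_le {ω : ℝ} (hR : RampAt ω) (h0 : 0 < ω) {y : ι → ℝ} {b : ι → Bool}
    (h : wt (py ω y) b ≠ 0) (i : ι) : |zz y b i| ≤ 1 / 2 + ω := by
  have h1 : wt1 (pr ω (y i)) (b i) ≠ 0 := prod_ne_zero_iff.1 h i (mem_univ i)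
  have h2 := Int.fract_nonneg (y i)
  have h3 := Int.fract_lt_one (y i)
  rw [zz_eq, abs_le]
  cases hb : b i <;> simp only [hb, wt1, bit] at h1 ⊢
  · have := hR.pr_ne_one (y i) fun h => h1 (by simp [h])
    constructor <;> simp <;> linarith
  · have := hR.pr_ne_zero (y i) (by simpa using h1)
    constructor <;> simp <;> linarith

/-- union bound and first moment -/
lemma exists_offset {κ A : Type} [Fintype κ] [Fintype A] {ω : ℝ} (hR : RampAt ω) (h0 : 0 < ω)
    (S : ι → κ → ℤ) (P : (ι → ℝ) → Prop) (Q : A → (ι → ℝ) → Prop) (δ : A → ℝ)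
    (hP : Measurable P) (hQ : ∀ a, Measurable (Q a))
    (hcov : ∀ z, (∀ i, |z i| ≤ 1 / 2 + ω) → P z → ∃ a, Q a z)
    (hδ : ∀ a (t : ι → ℝ),
      tm (fun c => Eb (py ω (c + t)) fun b => ind (Q a (zz (c + t) b))) ≤ δ a) :
    BM (fun y : ι → ℝ => Eb (py ω y) fun b => ind (P (zz y b))) ∧
      ∃ c : ι → ℝ, (∀ j, |c j| ≤ 1) ∧ tm (fun β => Eb (py ω (c + lin S β)) fun b =>
        ind (P (zz (c + lin S β) b))) ≤ ∑ a, δ a := by
  have hz : ∀ b : ι → Bool, Measurable fun y : ι → ℝ => zz y b := fun b =>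
    measurable_pi_lambda _ (zz_meas b)
  obtain ⟨hΨm, hΨb⟩ := Eb_ind_bm hR (P := fun y b => P (zz y b)) fun b => (hP.comp (hz b)).setOf
  set Ψ : (ι → ℝ) → ℝ := fun y => Eb (py ω y) fun b => ind (P (zz y b)) with hΨ
  refine ⟨⟨hΨm, 1, hΨb⟩, ?_⟩
  have hc : ∀ t : ι → ℝ, ∫ c, Ψ (c + t) ∂cube ι ≤ ∑ a, δ a := by
    intro t
    let T : A → (ι → ℝ) → ℝ := fun a y => Eb (py ω y) fun b => ind (Q a (zz y b))
    have hT : ∀ a, Integrable (fun c => T a (c + t)) (cube ι) := by
      intro a
      obtain ⟨h1, h2⟩ := Eb_ind_bm hR (P := fun y b => Q a (zz y b))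
        fun b => ((hQ a).comp (hz b)).setOf
      exact Integrable.of_bound (h1.comp (measurable_add_const t)).aestronglyMeasurable 1
        (Filter.Eventually.of_forall fun c => h2 _)
    have hle : ∀ y, Ψ y ≤ ∑ a, T a y := by
      intro y
      simp only [hΨ, T]
      rw [← Eb_sum]
      refine sum_le_sum fun b _ => ?_
      by_cases hw : wt (py ω y) b = 0
      · rw [hw, zero_mul, zero_mul]
      refine mul_le_mul_of_nonneg_left ?_ (wt_nonneg (py_mem hR y) b)
      show ind (P (zz y b)) ≤ ∑ a, ind (Q a (zz y b))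
      by_cases h : P (zz y b)
      · obtain ⟨a, ha⟩ := hcov _ (abs_zz_le hR h0 hw) h
        rw [ind_pos h, ← ind_pos ha]
        exact single_le_sum (f := fun a => ind (Q a (zz y b))) (fun a _ => ind_nonneg _)
          (mem_univ a)
      · rw [ind_neg h]
        exact sum_nonneg fun a _ => ind_nonneg _
    have h1 : ∫ c, Ψ (c + t) ∂cube ι ≤ ∫ c, ∑ a, T a (c + t) ∂cube ι :=
      integral_mono_of_nonneg
        (Filter.Eventually.of_forall fun c => Eb_nonneg (py_mem hR _) fun b => ind_nonneg _)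
        (integrable_finsetSum _ fun a _ => hT a)
        (Filter.Eventually.of_forall fun c => hle _)
    refine h1.trans ?_
    rw [integral_finsetSum _ fun a _ => hT a]
    exact sum_le_sum fun a _ => hδ a t
  have hlin : Measurable (lin S : (κ → ℝ) → ι → ℝ) := by
    refine measurable_pi_lambda _ fun j => ?_
    unfold lin ip
    fun_prop
  have hF : Integrable (Function.uncurry fun (c : ι → ℝ) (β : κ → ℝ) => Ψ (c + lin S β))
      ((cube ι).prod (cube κ)) :=
    Integrable.of_bound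
      (hΨm.comp (measurable_fst.add (hlin.comp measurable_snd))).aestronglyMeasurable 1
      (Filter.Eventually.of_forall fun c => hΨb _)
  have hN : cube ι (Set.univ.pi fun _ : ι => Set.Ioc (0 : ℝ) 1)ᶜ = 0 := by
    unfold cube
    rw [Measure.restrict_apply (MeasurableSet.univ_pi fun _ => measurableSet_Ioc).compl]
    simp
  obtain ⟨c, hc1, hc2⟩ := exists_notMem_null_le_integral hF.integral_prod_left hN
  refine ⟨c, fun j => ?_, ?_⟩
  · have := (not_not.1 hc1) j (Set.mem_univ j)
    rw [abs_le]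
    exact ⟨by linarith [this.1], this.2⟩
  · refine hc2.trans ?_
    simp only [Function.uncurry_apply_pair]
    rw [integral_integral_swap hF]
    have h3 : ∫ β, ∫ c, Ψ (c + lin S β) ∂cube ι ∂cube κ ≤ ∫ _β, ∑ a, δ a ∂cube κ :=
      integral_mono hF.integral_prod_right (integrable_const _) fun β => hc _
    simpa using h3

/-- the event of a large deviation, if `C` holds -/
def Dev (ω : ℝ) (C : Prop) (φ : ι → ℝ → ℝ) (E : ℝ) (z : ι → ℝ) : Prop :=
  C ∧ E ≤ ∑ j, (φ j (z j) - zmean ω (φ j))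

omit [DecidableEq ι] in
lemma meas_Dev (ω : ℝ) (C : Prop) {φ : ι → ℝ → ℝ} (hφ : ∀ j, Measurable (φ j)) (E : ℝ) :
    Measurable (Dev ω C φ E) :=
  measurable_const.and (measurableSet_setOfPred.1 (measurableSet_le measurable_const
    (Finset.measurable_sum _ fun j _ => ((hφ j).comp (measurable_pi_apply j)).sub_const _)))

lemma tm_Dev {ω : ℝ} (hR : RampAt ω) (C : Prop) {φ : ι → ℝ → ℝ} (hφ : ∀ j, Measurable (φ j))
    (a : ι → ℝ) (hb : ∀ j z, |z| ≤ 1 → |φ j z| ≤ a j) {E θ δ : ℝ} (hθ : 0 ≤ θ) (hδ : 0 ≤ δ)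
    (h : C → Real.exp (2 * θ ^ 2 * ∑ j, a j ^ 2 - θ * E) ≤ δ) (t : ι → ℝ) :
    tm (fun c => Eb (py ω (c + t)) fun b => ind (Dev ω C φ E (zz (c + t) b))) ≤ δ := by
  by_cases hC : C
  · simp only [Dev, hC, true_and]
    exact (tail_hoeffding hR φ a t E θ hθ hφ hb).trans (h hC)
  · simpa [Dev, hC, ind_neg, Eb, tm] using hδ

/-- a test function on the set `Z` -/
noncomputable def onZ (Z : Finset ι) (φ : ι → ℝ → ℝ) (j : ι) (z : ℝ) : ℝ :=
  if j ∈ Z then φ j z else 0

omit [Fintype ι] in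
lemma meas_onZ (Z : Finset ι) {φ : ι → ℝ → ℝ} (hφ : ∀ j, Measurable (φ j)) (j : ι) :
    Measurable (onZ Z φ j) := by
  unfold onZ
  split_ifs
  exacts [hφ j, measurable_const]

lemma sum_onZ (ω : ℝ) (Z : Finset ι) (φ : ι → ℝ → ℝ) (z : ι → ℝ) :
    ∑ j, (onZ Z φ j (z j) - zmean ω (onZ Z φ j)) = ∑ j ∈ Z, (φ j (z j) - zmean ω (φ j)) := by
  rw [← sum_subset (subset_univ Z) fun j _ hj => ?_]
  · refine sum_congr rfl fun j hj => ?_
    have : onZ Z φ j = φ j := funext fun z => if_pos hj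
    rw [this]
  · have : onZ Z φ j = fun _ => 0 := funext fun z => if_neg hj
    rw [this, zmean_const, sub_self]

lemma tm_onZ {ω : ℝ} (hR : RampAt ω) (C : Prop) (Z : Finset ι) {φ : ι → ℝ → ℝ}
    (hφ : ∀ j, Measurable (φ j)) (hb : ∀ j z, |z| ≤ 1 → |φ j z| ≤ 1) {d W δ : ℝ} (hd : 0 ≤ d)
    (hW : (Z.card : ℝ) ≤ W) (hδ : 0 ≤ δ) (h : C → Real.exp (-(d ^ 2 / 16 * W)) ≤ δ) (t : ι → ℝ) :
    tm (fun c => Eb (py ω (c + t)) fun b =>
      ind (Dev ω C (onZ Z φ) (d * W) (zz (c + t) b))) ≤ δ := by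
  refine tm_Dev hR C (meas_onZ Z hφ) (fun j => if j ∈ Z then 1 else 0) (fun j z hz => ?_)
    (θ := d / 8) (by positivity) hδ (fun hC => le_trans (Real.exp_le_exp.2 ?_) (h hC)) t
  · unfold onZ
    split_ifs
    exacts [hb j z hz, by simp]
  · have e : ∑ j, (if j ∈ Z then (1 : ℝ) else 0) ^ 2 = Z.card := by simp
    rw [e]
    have : (0 : ℝ) ≤ Z.card := Nat.cast_nonneg _
    nlinarith [sq_nonneg d, mul_le_mul_of_nonneg_left hW (sq_nonneg d)]

lemma lin_Sp {κ : Type} [Fintype κ] (S : ι → κ → ℤ) (Sp : (ι → ℝ) →ₗ[ℝ] (κ → ℝ)) (z : ι → ℝ)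
    (i : ι) : lin S (Sp z) i = ∑ j, lin S (Sp (Pi.single j 1)) i * z j := by
  conv_lhs => rw [pi_eq_sum_univ' z]
  simp only [map_sum, map_smul, lin, ip, Finset.sum_apply, Pi.smul_apply, smul_eq_mul, mul_sum,
    sum_mul]
  rw [sum_comm]
  exact sum_congr rfl fun j _ => sum_congr rfl fun k _ => by ring

variable {B : Type} [Fintype B] [DecidableEq B] {M : B → ℕ}

omit [Fintype ι] [Fintype B] [DecidableEq B] in
lemma card_zone_le (blk : B → Finset ι) (S : Finset B) : ((zone blk S).card : ℝ) ≤ wsz blk S := by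
  unfold zone wsz
  exact_mod_cast card_biUnion_le

omit [DecidableEq B] in
lemma meas_GoodB (blk : B → Finset ι) (s : (J : B) → ι → Fin (M J) → ℤ) (g : ℕ)
    (τ δ1 Υ ϑ1 ϑ2 δ3 : ℝ) : Measurable (GoodB blk s g τ δ1 Υ ϑ1 ϑ2 δ3) := by
  have hc := nd_cont
  refine (Measurable.forall fun i => ?_).and ((Measurable.forall fun π => ?_).and
    (Measurable.forall fun π => measurable_const.imp ?_))
  · exact measurableSet_setOfPred.1 (measurableSet_le (by fun_prop) measurable_const)
  · exact measurableSet_setOfPred.1 (measurableSet_le (Continuous.measurable (by fun_prop))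
      measurable_const)
  · refine measurableSet_setOfPred.1 (measurableSet_le measurable_const ?_)
    simp only [natCast_card_filter]
    exact Finset.measurable_sum _ fun i _ => Measurable.ite
      (measurableSet_lt measurable_const (by fun_prop)) measurable_const measurable_const

end Typ

open Chernoff GoodAux Typ in
theorem chernB_proof : ChernBStmt := by
  refine ⟨fun ι _ _ ω θ E a φ t h0 h1 hθ _ hφ hb => ?_, fun ω h0 h1 => ?_⟩
  · refine (tail_hoeffding (ramp_proof.2 ω h0 h1) φ a t E θ hθ hφ hb).trans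
      (Real.exp_le_exp.2 ?_)
    have : 0 ≤ θ ^ 2 * ∑ j, a j ^ 2 := by positivity
    linarith
  · have hR := ramp_proof.2 ω h0 h1
    exact ⟨mean_sq hR h0, fun w τ => mean_ind hR h0, zmean_mul hR,
      fun ι _ _ y b => abs_zz_le hR h0⟩

open Chernoff GoodAux Typ in
theorem typ_proof (hP : PatStmt) (_hC : ChernBStmt) : TypStmt := by
  intro ι B _ _ _ _ M blk s Sp ω Pm s1 δ1 Υ ϑ1 δ3 a g h0 h1 hPm hs0 hs1 hd0 _ hΥ hϑ he0 _ ha1 ha3 hp
  have hR := ramp_proof.2 ω h0 h1
  obtain ⟨hsub, -, hsum⟩ := hP B M g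
  have hc := nd_cont
  let φ1 : ι × Bool → ι → ℝ → ℝ := fun x j z =>
    ((if x.2 then 1 else -1) * lin (tc s) (Sp (Pi.single j 1)) x.1) * z
  let φ2 : Pat M g → ι → ℝ → ℝ := fun π j z => z ^ 2 - nd (z + pw s π j) ^ 2
  let φ3 : Pat M g → ι → ℝ → ℝ := fun π j z =>
    -ind (1 / 2 + (ω + 2 * s1 + ϑ1) < |z + cf (pw s π j)|)
  have m1 : ∀ x j, Measurable (φ1 x j) := fun x j => by simp only [φ1]; fun_prop
  have m2 : ∀ π j, Measurable (φ2 π j) := fun π j => Continuous.measurable (by fun_prop)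
  have m3 : ∀ π j, Measurable (φ3 π j) := fun π j => meas_ind _ _
  let Q : (ι × Bool) ⊕ Pat M g ⊕ Pat M g → (ι → ℝ) → Prop := Sum.elim
    (fun x => Dev ω True (φ1 x) s1) (Sum.elim
      (fun π => Dev ω (pS π ≠ ∅) (onZ (zone blk (pS π)) (φ2 π)) (δ1 * wsz blk (pS π)))
      fun π => Dev ω (pS π ≠ ∅ ∧ wsz blk (pS π) ≤ Υ * (zone blk (pJ π)).card)
        (onZ (zone blk (pJ π)) (φ3 π)) (δ3 * (zone blk (pJ π)).card))
  let e : Pat M g → ℝ := fun π =>
    if pS π = ∅ then 0 else Real.exp (-∑ J ∈ pS π, a * (blk J).card)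
  have e0 : ∀ π, 0 ≤ e π := fun π => by
    simp only [e]
    split_ifs <;> positivity
  have e1 : ∀ π, pS π ≠ ∅ → e π = Real.exp (-(a * wsz blk (pS π))) := fun π h => by
    simp only [e, if_neg h, wsz, mul_sum]
  have hw : ∀ S, 0 ≤ wsz blk S := fun S => (Nat.cast_nonneg _).trans (card_zone_le blk S)
  have hperp : Continuous (perp (tc s) Sp) := by
    have := Sp.continuous_of_finiteDimensional
    unfold perp lin ip
    fun_prop
  have key := exists_offset hR h0 (tc s) (fun z => ¬ Nice (tc s) Sp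
    (GoodB blk s g (ω + s1) (δ1 + 2 * ω + 3 * s1) Υ ϑ1 (2 * ω + 2 * s1 + ϑ1) δ3) z) Q
    (Sum.elim (fun _ => Real.exp (1 - s1 / (2 * Real.sqrt Pm))) (Sum.elim e e)) ?_ ?_ ?_ ?_
  · obtain ⟨h2, c, h3, h4⟩ := key
    refine ⟨h2, c, h3, h4.trans ?_⟩
    have h5 := hsum fun J => a * (blk J).card
    simp only [Fintype.sum_sum_type, Sum.elim_inl, Sum.elim_inr, sum_const, card_univ,
      Fintype.card_prod, Fintype.card_bool, nsmul_eq_mul, cd]
    push_cast
    simp only [e]
    linarith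
  · refine Measurable.not (((meas_GoodB blk s g _ _ _ _ _ _).comp hperp.measurable).and
      (Measurable.forall fun i => ?_))
    exact measurableSet_setOfPred.1 (measurableSet_le (Continuous.measurable (by fun_prop))
      measurable_const)
  · rintro (x | π | π)
    · exact meas_Dev _ _ (m1 x) _
    · exact meas_Dev _ _ (meas_onZ _ (m2 π)) _
    · exact meas_Dev _ _ (meas_onZ _ (m3 π)) _
  · intro z hz hn
    by_contra hq
    push Not at hq
    refine hn ?_
    have hu : ∀ i, |perp (tc s) Sp z i - z i| ≤ s1 := fun i => by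
      have h2 := hq (.inl (i, true))
      have h3 := hq (.inl (i, false))
      simp only [Q, φ1, Sum.elim_inl, Dev, true_and, not_le, zmean_mul hR, sub_zero] at h2 h3
      simp only [if_true, one_mul, Bool.false_eq_true, if_false, neg_mul, sum_neg_distrib,
        ← lin_Sp] at h2 h3
      rw [perp, abs_le]
      constructor <;> linarith
    set u := perp (tc s) Sp z
    refine ⟨⟨fun i => ?_, fun π => ?_, fun π hπ => ?_⟩, fun i => (hu i).trans hs1⟩
    · have := abs_add_le (u i - z i) (z i)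
      rw [sub_add_cancel] at this
      linarith [hu i, hz i]
    · by_cases hS : pS π = ∅
      · simp [hS, zone, wsz]
      have h2 := hq (.inr (.inl π))
      simp only [Q, Sum.elim_inr, Sum.elim_inl, Dev, ne_eq, hS, not_false_eq_true, true_and,
        not_le, sum_onZ] at h2
      have h3 : ∑ i ∈ zone blk (pS π), (u i ^ 2 - nd (u i + pw s π i) ^ 2) ≤
          ∑ i ∈ zone blk (pS π), ((φ2 π i (z i) - zmean ω (φ2 π i)) + (2 * ω + 3 * s1)) := by
        refine sum_le_sum fun i _ => ?_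
        have h4 := mean_sq hR h0 (pw s π i)
        have h5 := nd_sub_le (z i + pw s π i) (u i + pw s π i)
        rw [add_sub_add_right_eq_sub, abs_sub_comm] at h5
        have h6 : u i ^ 2 - z i ^ 2 ≤ 2 * s1 := by
          have h7 : |u i + z i| ≤ 2 := by
            have := abs_add_le (u i - z i) (2 * z i)
            rw [abs_mul, abs_two, show u i - z i + 2 * z i = u i + z i by ring] at this
            linarith [hu i, hz i]
          calc u i ^ 2 - z i ^ 2 = (u i + z i) * (u i - z i) := by ring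
            _ ≤ |u i + z i| * |u i - z i| := (le_abs_self _).trans_eq (abs_mul _ _)
            _ ≤ 2 * s1 := mul_le_mul h7 (hu i) (abs_nonneg _) zero_le_two
        have h8 : nd (z i + pw s π i) ^ 2 - nd (u i + pw s π i) ^ 2 ≤ s1 := by
          nlinarith [hu i, nd_nonneg (z i + pw s π i), nd_le (z i + pw s π i),
            nd_nonneg (u i + pw s π i), nd_le (u i + pw s π i)]
        simp only [φ2] at h4 ⊢
        linarith
      rw [sum_add_distrib, sum_const, nsmul_eq_mul] at h3
      nlinarith [card_zone_le blk (pS π)]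
    · by_cases hS : pS π = ∅
      · have : pJ π = ∅ := subset_empty.1 (hS ▸ hsub π)
        simp [this, zone]
      have h2 := hq (.inr (.inr π))
      simp only [Q, Sum.elim_inr, Dev, ne_eq, hS, not_false_eq_true, true_and, hπ,
        not_le, sum_onZ] at h2
      have h3 : ∑ i ∈ zone blk (pJ π), (max (|cf (pw s π i)| - (2 * ω + 2 * s1 + ϑ1)) 0 -
          if 1 / 2 + (ω + s1) + ϑ1 < |u i + cf (pw s π i)| then 1 else 0) ≤
          ∑ i ∈ zone blk (pJ π), (φ3 π i (z i) - zmean ω (φ3 π i)) := by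
        refine sum_le_sum fun i _ => ?_
        have h4 := mean_ind hR h0 (w := cf (pw s π i)) (τ := ω + 2 * s1 + ϑ1) (abs_sub_round _)
          (by positivity)
        rw [show |cf (pw s π i)| - (ω + 2 * s1 + ϑ1) - ω =
          |cf (pw s π i)| - (2 * ω + 2 * s1 + ϑ1) by ring] at h4
        have h5 : ind (1 / 2 + (ω + 2 * s1 + ϑ1) < |z i + cf (pw s π i)|) ≤
            if 1 / 2 + (ω + s1) + ϑ1 < |u i + cf (pw s π i)| then 1 else 0 := by
          split_ifs with h6
          · exact ind_le_one _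
          · refine (ind_neg fun h7 => h6 ?_).le
            have := abs_sub (u i + cf (pw s π i)) (u i - z i)
            rw [show u i + cf (pw s π i) - (u i - z i) = z i + cf (pw s π i) by ring] at this
            linarith [hu i]
        simp only [φ3] at h4 ⊢
        linarith
      rw [sum_sub_distrib, ← natCast_card_filter] at h3
      linarith
  · rintro (x | π | π) t
    · have hq : 0 < Real.sqrt Pm := Real.sqrt_pos.2 hPm
      refine tm_Dev hR True (m1 x) (fun j => |lin (tc s) (Sp (Pi.single j 1)) x.1|)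
        (fun j z hz => ?_) (θ := 1 / (2 * Real.sqrt Pm)) (by positivity) (Real.exp_pos _).le
        (fun _ => Real.exp_le_exp.2 ?_) t
      · simp only [φ1, abs_mul]
        have : |(if x.2 then (1 : ℝ) else -1)| = 1 := by split_ifs <;> simp
        rw [this, one_mul]
        exact mul_le_of_le_one_right (abs_nonneg _) hz
      · simp only [sq_abs]
        have h2 : 2 * (1 / (2 * Real.sqrt Pm)) ^ 2 * Pm = 1 / 2 := by
          rw [div_pow, mul_pow, Real.sq_sqrt hPm.le]
          field_simp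
        have h3 := mul_le_mul_of_nonneg_left (hp x.1)
          (by positivity : 0 ≤ 2 * (1 / (2 * Real.sqrt Pm)) ^ 2)
        rw [one_div_mul_eq_div]
        linarith
    · refine tm_onZ hR _ _ (m2 π) (fun j z hz => abs_phi_le _ z hz) hd0 (card_zone_le _ _) (e0 π)
        (fun h => ?_) t
      rw [e1 π h]
      exact Real.exp_le_exp.2 (neg_le_neg (mul_le_mul_of_nonneg_right ha1 (hw _)))
    · refine tm_onZ hR _ _ (m3 π) (fun j z _ => abs_neg_ind _) he0 le_rfl (e0 π) (fun h => ?_) t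
      rw [e1 π h.1]
      refine Real.exp_le_exp.2 (neg_le_neg ?_)
      calc a * wsz blk (pS π) ≤ δ3 ^ 2 / (16 * Υ) * wsz blk (pS π) :=
            mul_le_mul_of_nonneg_right ha3 (hw _)
        _ ≤ δ3 ^ 2 / (16 * Υ) * (Υ * (zone blk (pJ π)).card) :=
            mul_le_mul_of_nonneg_left h.2 (by positivity)
        _ = _ := by field_simp

end Vale.Agent.P318.B
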