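import Vale.Agent.P318.B.Stmt
import Vale.Agent.P318.M.Ramp
import Vale.Agent.P318.M.Bit
import Vale.Agent.P318.M.Fourier

/-! Freezing one coordinate at an integer; monotonicity and increments of the window. -/

namespace Vale.Agent.P318.B

open Finset Function Vale.Agent.P318.M

namespace Upd

variable {ω : ℝ}

theorem ramp_mono : Monotone ramp :=
  monotone_of_deriv_nonneg (fun x => (Ramp.hd x).differentiableAt) fun x => by
    rw [(Ramp.hd x).deriv]
    exact mul_nonneg (by norm_num) (Ramp.tent_nonneg x)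

theorem tent_lip (x z : ℝ) : tent z ≤ tent x + |z - x| := by
  have h1 := le_abs_self (z - x)
  have h2 := neg_abs_le (z - x)
  have h3 := Ramp.tent_nonneg x
  have h4 : min x (1 - x) ≤ tent x := le_max_left _ _
  refine max_le ?_ (by linarith [abs_nonneg (z - x)])
  rcases min_choice x (1 - x) with h | h <;> rw [h] at h4
  · linarith [min_le_left z (1 - z)]
  · linarith [min_le_right z (1 - z)]

theorem ramp_inc (x v : ℝ) : |ramp (x + v) - ramp x| ≤ 4 * (tent x + |v|) * |v| := by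
  have h := (convex_closedBall x |v|).norm_image_sub_le_of_norm_hasDerivWithin_le
    (C := 4 * (tent x + |v|)) (fun z _ => (Ramp.hd z).hasDerivWithinAt) (fun z hz => by
      rw [Metric.mem_closedBall, Real.dist_eq] at hz
      rw [Real.norm_of_nonneg (mul_nonneg (by norm_num) (Ramp.tent_nonneg z))]
      linarith [tent_lip x z]) (Metric.mem_closedBall_self (abs_nonneg v))
    (show x + v ∈ _ by rw [Metric.mem_closedBall, Real.dist_eq, add_sub_cancel_left])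
  rwa [add_sub_cancel_left, Real.norm_eq_abs, Real.norm_eq_abs] at h

theorem pos_add {y u : ℝ} (h : ⌊y + u⌋ = ⌊y⌋) : pos ω (y + u) = pos ω y + u / (2 * ω) := by
  rw [pos, pos, Int.fract, Int.fract, h]
  ring

theorem floor_eq (h0 : 0 < ω) (h8 : ω ≤ 1 / 8) {y u : ℝ} (hu : |u| ≤ 1 / 8) (h : pq ω y ≠ 0) :
    ⌊y + u⌋ = ⌊y⌋ := by
  have h1 : 0 < ee ω y := (Ramp.tent_nonneg _).lt_of_ne fun e => h (by
    rw [Ramp.pq_eq, ee, ← e]; ring)
  have h2 := abs_lt.1 (Ramp.ee_supp h0 y h1)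
  have h3 := abs_le.1 hu
  have h4 := Int.floor_add_fract y
  rw [Int.floor_eq_iff]
  constructor <;> linarith

theorem out (h0 : 0 < ω) (h8 : ω ≤ 1 / 8) (y u : ℝ) (hu : |u| ≤ 1 / 8) (h : ⌊y + u⌋ ≠ ⌊y⌋) :
    pq ω y = 0 ∧ pq ω (y + u) = 0 := by
  refine ⟨by_contra fun e => h (floor_eq h0 h8 hu e), by_contra fun e => h ?_⟩
  have := floor_eq h0 h8 (u := -u) (by rwa [abs_neg]) e
  rw [add_neg_cancel_right] at this
  exact this.symm

theorem inc (h0 : 0 < ω) (h8 : ω ≤ 1 / 8) (y u : ℝ) (hu : |u| ≤ 1 / 8) :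
    (pq ω (y + u) - pq ω y) ^ 2 ≤ 8 * u ^ 2 / ω ^ 2 * pq ω y + 2 * u ^ 4 / ω ^ 4 := by
  have R := ramp_proof.2 ω h0 h8
  have h1 := R.pq_nonneg y
  by_cases h : ⌊y + u⌋ = ⌊y⌋
  swap
  · rw [(out h0 h8 y u hu h).1, (out h0 h8 y u hu h).2]
    have : 0 ≤ 2 * u ^ 4 / ω ^ 4 := by positivity
    linarith
  obtain ⟨v, hv⟩ : ∃ v, v = u / (2 * ω) := ⟨_, rfl⟩
  have h2 : |pr ω (y + u) - pr ω y| ≤ 4 * (ee ω y + |v|) * |v| := by
    rw [pr, pos_add h, ← hv]
    exact ramp_inc _ _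
  have h3 : |pq ω (y + u) - pq ω y| ≤ |pr ω (y + u) - pr ω y| := by
    rw [show pq ω (y + u) - pq ω y = (pr ω (y + u) - pr ω y) * (1 - pr ω (y + u) - pr ω y) by
      rw [pq, pq]; ring, abs_mul]
    refine mul_le_of_le_one_right (abs_nonneg _) (abs_le.2 ⟨?_, ?_⟩) <;>
      linarith [R.pr_nonneg y, R.pr_le y, R.pr_nonneg (y + u), R.pr_le (y + u)]
  have h4 := pow_le_pow_left₀ (abs_nonneg _) (h3.trans h2) 2
  have h5 : (ee ω y + |v|) ^ 2 ≤ 2 * pq ω y + 2 * v ^ 2 := by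
    nlinarith [R.sq_le_pq y, sq_nonneg (ee ω y - |v|), sq_abs v]
  rw [sq_abs, mul_pow, mul_pow, sq_abs] at h4
  calc _ ≤ 4 ^ 2 * (2 * pq ω y + 2 * v ^ 2) * v ^ 2 := h4.trans (by gcongr)
    _ = _ := by rw [hv]; field_simp; ring

theorem inc2 (h0 : 0 < ω) (h8 : ω ≤ 1 / 8) (y u : ℝ) (hu : |u| ≤ 1 / 8) :
    pq ω (y + u) ^ 2 ≤ pq ω y + u ^ 2 / (4 * ω ^ 2) := by
  have R := ramp_proof.2 ω h0 h8
  by_cases h : ⌊y + u⌋ = ⌊y⌋
  swap
  · rw [(out h0 h8 y u hu h).1, (out h0 h8 y u hu h).2]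
    have : 0 ≤ u ^ 2 / (4 * ω ^ 2) := by positivity
    linarith
  obtain ⟨v, hv⟩ : ∃ v, v = u / (2 * ω) := ⟨_, rfl⟩
  have h2 : ee ω (y + u) ≤ ee ω y + |v| := by
    have := tent_lip (pos ω y) (pos ω y + v)
    rwa [add_sub_cancel_left, hv, ← pos_add h, ← hv] at this
  have h4 := pow_le_pow_left₀ (R.ee_nonneg _) h2 2
  have h5 : (ee ω y + |v|) ^ 2 ≤ 2 * pq ω y + 2 * v ^ 2 := by
    nlinarith [R.sq_le_pq y, sq_nonneg (ee ω y - |v|), sq_abs v]
  have h6 := mul_le_mul (R.pq_le (y + u)) (R.pq_le_sq (y + u)) (R.pq_nonneg _) (by norm_num)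
  rw [show u ^ 2 / (4 * ω ^ 2) = v ^ 2 by rw [hv]; field_simp; ring, sq]
  linarith

variable {ι : Type} [Fintype ι] [DecidableEq ι] {h : (ι → ℤ) → ℝ}

theorem Eb_upd (p : ι → ℝ) (l : ι) (F : (ι → Bool) → ℝ) :
    Eb (update p l 0) F = Eb p fun b => F (update b l false) := by
  refine mul_left_cancel₀ (two_ne_zero (α := ℝ)) ?_
  rw [Eb, Eb, Bit.two_mul_sum l, Bit.two_mul_sum l]
  refine sum_congr rfl fun b _ => ?_
  have e : ∏ i ∈ univ.erase l, wt1 (update p l 0 i) (b i) = ∏ i ∈ univ.erase l, wt1 (p i) (b i) :=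
    prod_congr rfl fun i hi => by rw [update_of_ne (ne_of_mem_erase hi)]
  rw [Bit.wt_update, Bit.wt_update, Bit.wt_update, Bit.wt_update, e]
  simp only [update_idem, update_self, wt1, if_true, Bool.false_eq_true, if_false]
  ring

theorem Eb_split (p : ι → ℝ) (l : ι) (F : (ι → Bool) → ℝ) :
    Eb p F = p l * Eb p (fun b => F (update b l true)) +
      (1 - p l) * Eb p fun b => F (update b l false) := by
  rw [Bit.Eb_cond p l F, Bit.Eb_add, Bit.Eb_const_mul, Bit.Eb_const_mul]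

theorem Eb_Dd (p : ι → ℝ) (l : ι) (F : (ι → Bool) → ℝ) :
    Eb p (Dd l F) = Eb p (fun b => F (update b l true)) - Eb p fun b => F (update b l false) :=
  Bit.Eb_sub p _ _

omit [Fintype ι] in
theorem py_upd (h0 : 0 < ω) (h8 : ω ≤ 1 / 8) (y : ι → ℝ) (l : ι) (n : ℤ) :
    py ω (update y l (n : ℝ)) = update (py ω y) l 0 := by
  funext i
  by_cases e : i = l
  · subst e
    rw [py, update_self, update_self]
    by_contra h1
    have := (ramp_proof.2 ω h0 h8).pr_ne_zero _ h1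
    rw [Int.fract_intCast] at this
    linarith
  · rw [py, update_of_ne e, update_of_ne e, py]

omit [Fintype ι] in
theorem pt_lo (y : ι → ℝ) (l : ι) : pt (update y l ((⌊y l⌋ : ℤ) : ℝ)) = pt y := by
  funext b i
  by_cases e : i = l
  · subst e
    rw [pt, pt, update_self, Int.floor_intCast]
  · rw [pt, pt, update_of_ne e]

omit [Fintype ι] in
theorem pt_hi (y : ι → ℝ) (l : ι) (b : ι → Bool) :
    pt (update y l ((⌊y l⌋ + 1 : ℤ) : ℝ)) (update b l false) = pt y (update b l true) := by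
  funext i
  by_cases e : i = l
  · subst e
    simp only [pt, update_self, Int.floor_intCast, if_true, Bool.false_eq_true, if_false]
    ring
  · simp only [pt, update_of_ne e]

theorem Ey_lo (h0 : 0 < ω) (h8 : ω ≤ 1 / 8) (y : ι → ℝ) (l : ι) :
    Ey ω h (update y l ((⌊y l⌋ : ℤ) : ℝ)) = Eb (py ω y) fun b => h (pt y (update b l false)) := by
  rw [Ey, py_upd h0 h8, Eb_upd, pt_lo]

theorem Ey_hi (h0 : 0 < ω) (h8 : ω ≤ 1 / 8) (y : ι → ℝ) (l : ι) :
    Ey ω h (update y l ((⌊y l⌋ + 1 : ℤ) : ℝ)) =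
      Eb (py ω y) fun b => h (pt y (update b l true)) := by
  rw [Ey, py_upd h0 h8, Eb_upd]
  simp only [pt_hi]

theorem c1_lo (h0 : 0 < ω) (h8 : ω ≤ 1 / 8) (y : ι → ℝ) (l j : ι) :
    c1 ω h j (update y l ((⌊y l⌋ : ℤ) : ℝ)) =
      Eb (py ω y) fun b => Dd j (fun b => h (pt y b)) (update b l false) := by
  rw [c1, py_upd h0 h8, Eb_upd, pt_lo]

theorem c1_hi (h0 : 0 < ω) (h8 : ω ≤ 1 / 8) (y : ι → ℝ) {l j : ι} (e : j ≠ l) :
    c1 ω h j (update y l ((⌊y l⌋ + 1 : ℤ) : ℝ)) =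
      Eb (py ω y) fun b => Dd j (fun b => h (pt y b)) (update b l true) := by
  rw [c1, py_upd h0 h8, Eb_upd]
  simp only [Dd, ← update_comm e, pt_hi]

theorem near (h0 : 0 < ω) (h8 : ω ≤ 1 / 8) {x : ℝ} {n : ℤ} (hn : |x - n| ≤ 1 / 4) :
    (n = ⌊x⌋ ∧ pr ω x = 0) ∨ (n = ⌊x⌋ + 1 ∧ pr ω x = 1) := by
  have R := ramp_proof.2 ω h0 h8
  have h1 := abs_le.1 hn
  have h2 := Int.floor_add_fract x
  rcases le_or_gt (n : ℝ) x with h3 | h3
  · have h4 : ⌊x⌋ = n := Int.floor_eq_iff.2 ⟨h3, by linarith⟩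
    refine Or.inl ⟨h4.symm, by_contra fun e => ?_⟩
    have := R.pr_ne_zero x e
    rw [h4] at h2
    linarith
  · have h4 : ⌊x⌋ = n - 1 := Int.floor_eq_iff.2 (by push_cast; constructor <;> linarith)
    refine Or.inr ⟨by omega, by_contra fun e => ?_⟩
    have := R.pr_ne_one x e
    rw [h4] at h2
    push_cast at h2
    linarith

theorem W2_le (h0 : 0 < ω) (h8 : ω ≤ 1 / 8) (hh : U01 h) (J : Finset ι) (y : ι → ℝ) :
    W2 ω J h y ≤ 2 := by
  have R := ramp_proof.2 ω h0 h8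
  have F := fourier_proof ramp_proof bit_proof ι ω h h0 h8 hh
  have h1 : ∀ j j', 0 ≤ pq ω (y j) * pq ω (y j') * c2 ω h j j' y ^ 2 := fun j j' =>
    mul_nonneg (mul_nonneg (R.pq_nonneg _) (R.pq_nonneg _)) (sq_nonneg _)
  have h2 : W2 ω J h y ≤ W2 ω univ h y :=
    (sum_le_sum fun j _ => sum_le_sum_of_subset_of_nonneg (erase_subset_erase j (subset_univ J))
      fun _ _ _ => h1 _ _).trans (sum_le_sum_of_subset_of_nonneg (subset_univ J)
        fun j _ _ => sum_nonneg fun _ _ => h1 _ _)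
  have e := (FourierP.noised_W ω 1 univ h y y fun _ _ => rfl).2
  have e' : ∀ b, noised ω 1 univ h y b = h := fun b => funext fun x => by
    rw [FourierP.noised_eq]
    simp only [mem_univ, if_true]
    exact FourierP.T_const _ (FourierP.nk_sum _ _ _ _ fun _ => false) _
  simp only [e', Q2, one_pow, mul_one, Bit.Eb_const] at e
  refine h2.trans (e.trans_le ?_)
  calc _ ≤ ∑ S : Finset ι, 2 * fw ω h S y := sum_le_sum fun S _ => by
        have := (F.1 S).2 y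
        split_ifs <;> linarith
    _ ≤ 2 := by
        rw [← mul_sum]
        linarith [F.2.1 y]

end Upd

open Upd in
theorem upd_proof : UpdStmt := by
  refine ⟨fun ω h0 h8 => ⟨fun y y' e h => ramp_mono ?_, out h0 h8, inc h0 h8, inc2 h0 h8⟩,
    fun ι _ _ ω h h0 h8 hh => ⟨fun y l => ?_, fun y l n hn => ?_, fun y l j e => ?_,
      fun y l j => ?_, W2_le h0 h8 hh⟩⟩
  · rw [pos, pos, Int.fract, Int.fract, e]
    exact div_le_div_of_nonneg_right (by linarith) (by positivity)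
  · rw [Ey_hi h0 h8, Ey_lo h0 h8, c1, Eb_Dd]
  · rcases near h0 h8 hn with ⟨rfl, e⟩ | ⟨rfl, e⟩
    · have e' : py ω y l = 0 := e
      refine ⟨?_, fun j _ => ?_⟩
      · rw [Ey_lo h0 h8, Ey, Eb_split _ l, e']
        ring
      · rw [c1_lo h0 h8, c1, Eb_split _ l, e']
        ring
    · have e' : py ω y l = 1 := e
      refine ⟨?_, fun j hj => ?_⟩
      · rw [Ey_hi h0 h8, Ey, Eb_split _ l, e']
        ring
      · rw [c1_hi h0 h8 y hj, c1, Eb_split _ l, e']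
        ring
  · have e' : py ω y l = pr ω (y l) := rfl
    rw [c1_hi h0 h8 y e, c1_lo h0 h8, c1, c2, Eb_Dd _ l, Eb_split _ l (Dd j _), e']
    constructor <;> ring
  · by_cases e : j = l
    · rw [e]
    · rw [c2, c2, Bit.Dd_comm e]

end Vale.Agent.P318.B
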