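import Vale.Agent.P318.B.Ball
import Vale.Agent.P318.B.BlockB
import Vale.Agent.P318.B.BlockNum
import Vale.Agent.P318.B.C1
import Vale.Agent.P318.B.Char
import Vale.Agent.P318.B.Chunk
import Vale.Agent.P318.B.ClaimA
import Vale.Agent.P318.B.Code
import Vale.Agent.P318.B.Comb
import Vale.Agent.P318.B.Far
import Vale.Agent.P318.B.Fc
import Vale.Agent.P318.B.FinalB
import Vale.Agent.P318.B.Flat
import Vale.Agent.P318.B.Freeze
import Vale.Agent.P318.B.Gamma
import Vale.Agent.P318.B.GeoNum
import Vale.Agent.P318.B.HCode
import Vale.Agent.P318.B.Hash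
import Vale.Agent.P318.B.High
import Vale.Agent.P318.B.InstB
import Vale.Agent.P318.B.Iso
import Vale.Agent.P318.B.Low
import Vale.Agent.P318.B.MetricB
import Vale.Agent.P318.B.PatBasic
import Vale.Agent.P318.B.Point
import Vale.Agent.P318.B.Proj
import Vale.Agent.P318.B.Reg
import Vale.Agent.P318.B.RipB
import Vale.Agent.P318.B.Sys
import Vale.Agent.P318.B.TriB
import Vale.Agent.P318.B.Typ
import Vale.Agent.P318.B.Upd

/-! Assembly of the parts. -/

namespace Vale.Agent.P318.B

theorem finalB : FinalBStmt := by
  have hReg := reg_proof fc_proof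
  have hFlat := flat_proof upd_proof hReg
  have hBlock := blockB_proof fc_proof hReg (comb_proof hReg) (low_proof fc_proof hReg chunk_proof)
    (high_proof upd_proof fc_proof hReg chunk_proof)
  have hBN := blockNum_proof (point_proof upd_proof) hFlat hBlock far_proof chunk_proof
  have hIso := iso_proof freeze_proof (tvB_proof fc_proof hReg chunk_proof)
  have hTri := triB_proof pat_proof basic_proof proj_proof (claimA_proof pat_proof basic_proof)
  have hGeo := geoNum_proof (gamma_proof pat_proof basic_proof) proj_proof hTri
    (typ_proof pat_proof chernB_proof) (metricB_proof proj_proof)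
  have hCode := code_proof char_proof (h_proof char_proof ball_proof) (e3_proof ball_proof)
  have hSys := sys_proof hash_proof hCode rip_proof (c1_proof pat_proof) chunk_proof
  exact finalB_proof (instB_proof hSys hBN far_proof hIso hGeo)

end Vale.Agent.P318.B
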