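import Vale.Agent.P318.B.Stmt
import Vale.Agent.P318.RRows

/-!
Integer points in balls, nets, small subsets.
-/

namespace Vale.Agent.P318.B

open Finset Vale.Agent.P318.M

namespace Ball

lemma card_le (κ : Type) [Fintype κ] (S : Finset (κ → ℤ)) (R x : ℝ) (hx0 : 0 < x) (hx1 : x < 1)
    (h : ∀ z ∈ S, ∑ k, |(z k : ℝ)| ≤ R) :
    (S.card : ℝ) ≤ Real.exp (-(R * Real.log x)) * ((1 + x) / (1 - x)) ^ Fintype.card κ := by
  classical
  have hl : Real.log x < 0 := Real.log_neg hx0 hx1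
  have h1 : (S.card : ℝ) ≤ ∑ z ∈ S, Real.exp (-(R * Real.log x)) * ∏ k, x ^ (z k).natAbs := by
    rw [card_eq_sum_ones]
    push_cast
    refine sum_le_sum fun z hz => ?_
    have e : ∏ k, x ^ (z k).natAbs = Real.exp ((∑ k, |(z k : ℝ)|) * Real.log x) := by
      rw [sum_mul, Real.exp_sum]
      refine prod_congr rfl fun k _ => ?_
      rw [← Int.cast_abs, ← Int.natCast_natAbs, Int.cast_natCast, Real.exp_nat_mul,
        Real.exp_log hx0]
    rw [e, ← Real.exp_add]
    exact Real.one_le_exp (by nlinarith [h z hz])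
  have h2 : S ⊆ Fintype.piFinset fun _ : κ => Icc (-(⌈R⌉₊ : ℤ)) ⌈R⌉₊ := fun z hz =>
    Fintype.mem_piFinset.2 fun k => mem_Icc.2 (abs_le.1 (by
      have h3 : |(z k : ℝ)| ≤ ⌈R⌉₊ := ((single_le_sum (f := fun k => |(z k : ℝ)|)
        (fun _ _ => abs_nonneg _) (mem_univ k)).trans (h z hz)).trans (Nat.le_ceil R)
      exact_mod_cast h3))
  refine h1.trans ((sum_le_sum_of_subset_of_nonneg h2 fun _ _ _ => by positivity).trans ?_)
  rw [← mul_sum, ← prod_univ_sum (fun _ : κ => Icc (-(⌈R⌉₊ : ℤ)) ⌈R⌉₊)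
    (fun _ n => x ^ n.natAbs)]
  refine mul_le_mul_of_nonneg_left ?_ (Real.exp_pos _).le
  rw [← card_univ, ← prod_const]
  refine prod_le_prod (fun _ _ => sum_nonneg fun _ _ => by positivity)
    fun _ _ => (P318.R.sum_Icc_pow_le hx0.le hx1 _).trans (le_of_eq ?_)
  have : 1 - x ≠ 0 := by linarith
  field_simp
  ring

/-- Truncation toward zero. -/
noncomputable def tr (y : ℝ) : ℤ := if 0 ≤ y then ⌊y⌋ else ⌈y⌉

lemma tr_spec (y : ℝ) : (tr y : ℝ) ^ 2 ≤ y ^ 2 ∧ (y - tr y) ^ 2 ≤ 1 := by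
  unfold tr
  split_ifs with h
  · have h1 := Int.floor_le y
    have h2 := Int.lt_floor_add_one y
    have h3 : (0 : ℝ) ≤ ⌊y⌋ := by exact_mod_cast Int.floor_nonneg.2 h
    constructor <;> nlinarith
  · have h1 := Int.le_ceil y
    have h2 := Int.ceil_lt_add_one y
    have h3 : (⌈y⌉ : ℝ) ≤ 0 := by exact_mod_cast Int.ceil_nonpos.2 (le_of_lt (not_le.1 h))
    constructor <;> nlinarith

lemma net (κ : Type) [Fintype κ] : ∃ S : Finset (κ → ℝ),
    (S.card : ℝ) ≤ (2 ^ 18) ^ Fintype.card κ ∧ (∀ v ∈ S, nsq v ≤ 1) ∧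
      ∀ v : κ → ℝ, nsq v ≤ 1 → ∃ v' ∈ S, nsq (v - v') ≤ 1 / 16 := by
  classical
  rcases isEmpty_or_nonempty κ with h0 | h0
  · exact ⟨{0}, by simp, by simp [nsq], fun v _ => ⟨0, by simp, by simp [nsq]⟩⟩
  have hd : (0 : ℝ) < Fintype.card κ := Nat.cast_pos.2 Fintype.card_pos
  set q : ℝ := √(Fintype.card κ : ℝ) with hq
  have hq0 : 0 < q := Real.sqrt_pos.2 hd
  have hq2 : q ^ 2 = Fintype.card κ := Real.sq_sqrt hd.le
  refine ⟨(R.ballZ κ (16 * Fintype.card κ)).image fun z k => (z k : ℝ) / (4 * q), ?_, ?_, ?_⟩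
  · have h1 := card_le κ (R.ballZ κ (16 * Fintype.card κ)) (16 * Fintype.card κ) (1 / 2)
      (by norm_num) (by norm_num) fun z hz => by
        have h2 := R.sum_sq_cast_le hz
        push_cast at h2
        refine le_trans (sum_le_sum fun k _ => ?_) h2
        have := Int.natAbs_le_self_sq (z k)
        rw [Int.natCast_natAbs] at this
        exact_mod_cast this
    have h2 : Real.exp (-(16 * (Fintype.card κ : ℝ) * Real.log (1 / 2))) =
        (2 ^ 16) ^ Fintype.card κ := by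
      rw [one_div, Real.log_inv, mul_neg, neg_neg, ← pow_mul,
        show (16 : ℝ) * Fintype.card κ = ((16 * Fintype.card κ : ℕ) : ℝ) by push_cast; rfl,
        Real.exp_nat_mul, Real.exp_log (by norm_num)]
    rw [h2, ← mul_pow] at h1
    refine le_trans (by exact_mod_cast card_image_le) (h1.trans ?_)
    exact pow_le_pow_left₀ (by norm_num) (by norm_num) _
  · intro v hv
    obtain ⟨z, hz, rfl⟩ := mem_image.1 hv
    have h2 := R.sum_sq_cast_le hz
    push_cast at h2
    simp only [nsq, div_pow, mul_pow, hq2]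
    rw [← sum_div, div_le_one (by positivity)]
    linarith
  · intro v hv
    refine ⟨_, mem_image.2 ⟨fun k => tr (4 * q * v k), R.mem_ballZ.2 ?_, rfl⟩, ?_⟩
    · have h1 : ((∑ k, tr (4 * q * v k) ^ 2 : ℤ) : ℝ) ≤ ((16 * Fintype.card κ : ℕ) : ℝ) := by
        push_cast
        refine (sum_le_sum fun k _ => (tr_spec (4 * q * v k)).1).trans ?_
        simp only [mul_pow, hq2]
        rw [← mul_sum]
        unfold nsq at hv
        nlinarith
      exact_mod_cast h1
    · unfold nsq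
      refine (sum_le_card_nsmul _ _ (1 / (16 * q ^ 2)) fun k _ => ?_).trans (le_of_eq ?_)
      · have e : (v - fun k => (tr (4 * q * v k) : ℝ) / (4 * q)) k =
            (4 * q * v k - tr (4 * q * v k)) / (4 * q) := by
          simp only [Pi.sub_apply]
          field_simp
        rw [e, div_pow, div_le_div_iff₀ (by positivity) (by positivity)]
        nlinarith [(tr_spec (4 * q * v k)).2, sq_nonneg q]
      · rw [card_univ, nsmul_eq_mul, hq2]
        field_simp

end Ball

theorem ball_proof : BallStmt :=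
  ⟨Ball.card_le, Ball.net, fun _ _ _ sp => R.card_filter_card_le sp⟩

end Vale.Agent.P318.B
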