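import Vale.Agent.P318.M.Stmt

/-!
Definitions for the multi-scale version of the lattice-window construction
(lower bound `sqrt (log n) / (log log n) ^ C` for the uniform Goemans-Linial gap).
Only used inside the proof.
-/

namespace Vale.Agent.P318.B

open Finset MeasureTheory Vale.Agent.P318.M

noncomputable section

/-- Centered fractional part. -/
def cf (x : ℝ) : ℝ := x - round x

/-- Distance to the nearest integer. -/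
def nd (x : ℝ) : ℝ := |x - round x|

/-- Cardinality as a real number. -/
def cd (κ : Type) [Fintype κ] : ℝ := Fintype.card κ

/-- Uniform average on a finite type. -/
def av {α : Type} [Fintype α] (f : α → ℝ) : ℝ := (∑ x, f x) / Fintype.card α

/-! ### One block -/

section Block

variable {ι κ : Type} [Fintype ι] [DecidableEq ι] [Fintype κ]

def msq (m : κ → ℤ) : ℝ := ∑ k, (m k : ℝ) ^ 2

def gram (s : ι → κ → ℤ) (j l : ι) : ℝ := ∑ k, (s j k : ℝ) * s l k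

/-- The direction which moves coordinate `l` with unit speed. -/
def dir (s : ι → κ → ℤ) (l : ι) : κ → ℝ := fun k => (s l k : ℝ) / gram s l l

def n1 (J : Finset ι) (z : ι → ℝ) : ℝ := ∑ j ∈ J, |z j|

def n2 (J : Finset ι) (z : ι → ℝ) : ℝ := Real.sqrt (∑ j ∈ J, z j ^ 2)

/-- The off-diagonal part of the Gram form. -/
def offd (J : Finset ι) (s : ι → κ → ℤ) (z q : ι → ℝ) : ℝ :=
  ∑ j ∈ J, ∑ l ∈ J.erase j, q j * z l * gram s j l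

/-- Restricted isometry for small sets. -/
def RipAll (J : Finset ι) (s : ι → κ → ℤ) (K : ℝ) (sp : ℕ) : Prop :=
  ∀ T ⊆ J, T.card ≤ 2 * sp → ∀ z q : ι → ℝ,
    |offd T s z q| ≤ K * Real.sqrt (cd κ * T.card) * n2 T z * n2 T q

/-- Restricted isometry for arbitrary vectors. -/
def Rip (J : Finset ι) (s : ι → κ → ℤ) (R sp : ℝ) : Prop :=
  ∀ z q : ι → ℝ, |offd J s z q| ≤
    R * (n2 J z + n1 J z / Real.sqrt sp) * (n2 J q + n1 J q / Real.sqrt sp)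

/-- Operator norm. -/
def Op (J : Finset ι) (s : ι → κ → ℤ) (Bn : ℝ) : Prop :=
  ∀ V : κ → ℝ, ∑ j ∈ J, ip (s j) V ^ 2 ≤ Bn * nsq V

/-- A dual vector close to a small real combination of few columns is an integer combination. -/
def Span (Γ : AddSubgroup (κ → ℝ)) (J : Finset ι) (s : ι → κ → ℤ) (sp : ℕ) (a c2 : ℝ) : Prop :=
  ∀ T ⊆ J, T.card ≤ sp → ∀ m : κ → ℤ, Dual Γ m → ∀ α : ι → ℝ, (∀ l, |α l| ≤ a) →
    ∑ k, ((m k : ℝ) - ∑ l ∈ T, α l * s l k) ^ 2 < c2 →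
      ∃ z : ι → ℤ, ∀ k, m k = ∑ l ∈ T, z l * s l k

/-- The columns whose comb does not see the frequency `m`. -/
def tset (J : Finset ι) (s : ι → κ → ℤ) (L : ℝ) (m : κ → ℤ) : Finset ι :=
  J.filter fun l => 1 / (8 * L) < nd (ip m (dir s l))

/-- Short nonzero dual vectors are far from the span of the columns in `tset`. -/
def Far (Γ : AddSubgroup (κ → ℝ)) (J : Finset ι) (s : ι → κ → ℤ) (Λ2 c2 L : ℝ) : Prop :=
  ∀ m : κ → ℤ, Dual Γ m → m ≠ 0 → msq m ≤ Λ2 → ∀ α : ι → ℝ,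
    c2 ≤ ∑ k, ((m k : ℝ) - ∑ l ∈ tset J s L m, α l * s l k) ^ 2

/-- Hypotheses on one block. -/
structure BHyp (Γ : AddSubgroup (κ → ℝ)) (J : Finset ι) (s : ι → κ → ℤ)
    (β μ R sp nb : ℝ) : Prop where
  int : ∀ n : κ → ℤ, (fun k => (n k : ℝ)) ∈ Γ
  dual : ∀ j, Dual Γ (s j)
  zero : ∀ j, j ∉ J → s j = 0
  ent : ∀ j k, |(s j k : ℝ)| ≤ 1
  pos : 1 ≤ cd κ
  nrm : ∀ j ∈ J, cd κ / 4 ≤ gram s j j
  coh : ∀ j ∈ J, ∀ l ∈ J, j ≠ l → |gram s j l| ≤ μ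
  rip : Rip J s R sp
  op : Op J s (β * cd κ)
  card : (J.card : ℝ) ≤ nb
  one_le_b : 1 ≤ β
  mu_nonneg : 0 ≤ μ
  R_nonneg : 0 ≤ R
  one_le_sp : 1 ≤ sp

/-- The fibre mean as a function on the torus. -/
def mE (ω : ℝ) (h : (ι → ℤ) → ℝ) (t : ι → ℝ) (s : ι → κ → ℤ) (η : κ → ℝ) : ℝ :=
  Ey ω h (t + lin s η)

def del (ω : ℝ) (h : (ι → ℤ) → ℝ) (t : ι → ℝ) (s : ι → κ → ℤ) (l : ι) (η : κ → ℝ) : ℝ :=
  mE ω h t s (η + (1 / 2 : ℝ) • dir s l) - mE ω h t s (η - (1 / 2 : ℝ) • dir s l)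

def qq (ω : ℝ) (h : (ι → ℤ) → ℝ) (t : ι → ℝ) (s : ι → κ → ℤ) (l : ι) (η : κ → ℝ) : ℝ :=
  dpr ω ((t + lin s η) l) * c1 ω h l (t + lin s η)

def ps (ω : ℝ) (h : (ι → ℤ) → ℝ) (t : ι → ℝ) (s : ι → κ → ℤ) (l : ι) (η : κ → ℝ) : ℝ :=
  pq ω ((t + lin s η) l) * c1 ω h l (t + lin s η)

/-- The comb average of `qq`. -/
def cq (ω : ℝ) (h : (ι → ℤ) → ℝ) (t : ι → ℝ) (s : ι → κ → ℤ) (L : ℕ) (l : ι) (η : κ → ℝ) : ℝ :=
  (1 / L : ℝ) * ∑ k ∈ range L, qq ω h t s l (η + (k : ℝ) • dir s l)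

def pa0 (M μ R nb ω V0 l : ℝ) : ℝ :=
  4 * R / (M * ω) + 12 * nb * (4 * μ / M) * Real.sqrt V0 * Real.exp (-l) / ω

def paV (M β R sp nb ω V0 : ℝ) : ℝ :=
  4 * R / (M * ω) + 8 * R * Real.sqrt nb / (M * ω * Real.sqrt (V0 * sp)) +
    6 / ω * Real.sqrt (β / V0)

def paU (M R sp nb ω : ℝ) : ℝ := 8 * R * (1 + Real.sqrt (nb / sp)) / (M * ω * Real.sqrt sp)

def paI (M μ R sp V0 l : ℝ) : ℝ :=
  4 * R * Real.sqrt V0 / (M * Real.sqrt sp) + 2 * l * (4 * μ / M) * Real.sqrt V0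

/-- The pointwise bound for the cross terms. -/
def PointAt (ω : ℝ) (J : Finset ι) (s : ι → κ → ℤ) (a0 aV aU aI : ℝ) : Prop :=
  ∀ h : (ι → ℤ) → ℝ, U01 h → ∀ y ψ V e : ι → ℝ,
    (∀ l ∈ J, ψ l ^ 2 ≤ V l ∧ |ψ l * e l| ≤ pq ω (y l) ∧ (ψ l * e l) ^ 2 ≤ V l * pq ω (y l)) →
    |∑ l ∈ J, ψ l * ∑ j ∈ J.erase l,
        gram s j l / gram s l l * (dpr ω (y j) * (c1 ω h j y + e l * c2 ω h j l y))| ≤
      a0 + aV * ∑ l ∈ J, V l + aU * ∑ l ∈ J, |ψ l| + aI * Inf ω J h y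

/-- The move by half a step along `dir s l` computes `c1 l`, in the weak sense. -/
def FlatAt (ω : ℝ) (Γ : AddSubgroup (κ → ℝ)) (J : Finset ι) (s : ι → κ → ℤ) (A1 e1 : ℝ) : Prop :=
  ∀ (t : ι → ℝ) (h : (ι → ℤ) → ℝ), U01 h → Inv Γ s h →
    ∀ (ψ Y : ι → (κ → ℝ) → ℝ) (I0 : ℝ),
    (∀ l, BM (ψ l) ∧ Per (ψ l) ∧ BM (Y l) ∧ Per (Y l)) →
    (∀ l η, 0 ≤ Y l η ∧ Y l η ≤ 1 ∧ |ψ l η| ≤ pq ω ((t + lin s η) l) * Y l η) →
    ∑ l ∈ J, tm (fun η => pq ω ((t + lin s η) l) * Y l η ^ 2) ≤ 1 →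
    ∑ l ∈ J, tm (fun η => pq ω ((t + lin s η) l) * Y l η) ≤ I0 →
    tm (fun η => Inf ω J h (t + lin s η)) ≤ I0 →
    |∑ l ∈ J, tm fun η => ψ l η * (del ω h t s l η - c1 ω h l (t + lin s η))| ≤ A1 * I0 + e1

/-- The conclusion of the block theorem. -/
def BlockB (ω A ε : ℝ) (Γ : AddSubgroup (κ → ℝ)) (J : Finset ι) (s : ι → κ → ℤ) : Prop :=
  ∀ (t : ι → ℝ) (h : (ι → ℤ) → ℝ), U01 h → Inv Γ s h →
    tm (fun η => W1 ω J h (t + lin s η)) ≤ A * tm (fun η => Inf ω J h (t + lin s η)) + ε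

/-- `lin S ∘ Sp` is the orthogonal projection onto the range of `lin S`. -/
def IsProj (S : ι → κ → ℤ) (Sp : (ι → ℝ) →ₗ[ℝ] (κ → ℝ)) : Prop :=
  ∀ z β, ∑ j, (z j - lin S (Sp z) j) * lin S β j = 0

/-- Squared distance of the projected points. -/
def rr (S : ι → κ → ℤ) (Sp : (ι → ℝ) →ₗ[ℝ] (κ → ℝ)) (c : ι → ℝ) (x x' : ι → ℤ) : ℝ :=
  ∑ j, (vv S Sp c x j - vv S Sp c x' j) ^ 2

/-- `G` holds for the projection, and the projection is close to `z`. -/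
def Nice (S : ι → κ → ℤ) (Sp : (ι → ℝ) →ₗ[ℝ] (κ → ℝ)) (G : (ι → ℝ) → Prop) (z : ι → ℝ) : Prop :=
  G (perp S Sp z) ∧ ∀ i, |perp S Sp z i - z i| ≤ 1 / 160

/-- Reduced representatives modulo `Γ`. -/
def Red (Γ : AddSubgroup (κ → ℝ)) (Δ : κ → ℝ) : Prop :=
  (∀ k, |Δ k| ≤ 1 / 2) ∧ ∀ γ ∈ Γ, min (1 / 4) (nsq Δ) ≤ nsq (Δ - γ)

end Block

/-! ### Systems of blocks -/

section System

variable {ι B : Type} [Fintype ι] [DecidableEq ι] [Fintype B] [DecidableEq B]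

/-- Coordinates of the whole torus. -/
abbrev Kt (M : B → ℕ) : Type := (J : B) × Fin (M J)

def tc {M : B → ℕ} (s : (J : B) → ι → Fin (M J) → ℤ) : ι → Kt M → ℤ := fun j x => s x.1 j x.2

def res {M : B → ℕ} (Δ : Kt M → ℝ) (J : B) : Fin (M J) → ℝ := fun k => Δ ⟨J, k⟩

def tl {M : B → ℕ} (Γ : (J : B) → AddSubgroup (Fin (M J) → ℝ)) : AddSubgroup (Kt M → ℝ) where
  carrier := {ρ | ∀ J : B, res ρ J ∈ Γ J}
  add_mem' := fun ha hb J => (Γ J).add_mem (ha J) (hb J)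
  zero_mem' := fun J => (Γ J).zero_mem
  neg_mem' := fun ha J => (Γ J).neg_mem (ha J)

/-- Patterns: a set of blocks, a subset of marked blocks, and a grid vector on each block. -/
abbrev Pat (M : B → ℕ) (g : ℕ) : Type :=
  (J : B) → Option (Bool × (Fin (M J) → Fin (2 * g + 1)))

def pS {M : B → ℕ} {g : ℕ} (π : Pat M g) : Finset B := univ.filter fun J => (π J).isSome = true

def pJ {M : B → ℕ} {g : ℕ} (π : Pat M g) : Finset B :=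
  univ.filter fun J => (π J).map Prod.fst = some true

def pD {M : B → ℕ} {g : ℕ} (π : Pat M g) : Kt M → ℝ :=
  fun x => (π x.1).elim 0 fun a => (((a.2 x.2 : ℕ) : ℝ) - g) / g

/-- The drift of a pattern. -/
def pw {M : B → ℕ} {g : ℕ} (s : (J : B) → ι → Fin (M J) → ℤ) (π : Pat M g) : ι → ℝ :=
  lin (tc s) (pD π)

def zone (blk : B → Finset ι) (S : Finset B) : Finset ι := S.biUnion blk

def wsz (blk : B → Finset ι) (S : Finset B) : ℝ := ∑ J ∈ S, ((blk J).card : ℝ)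

/-- Hypotheses on the system which are used in the geometry. -/
structure GSys {M : B → ℕ} (blk : B → Finset ι) (s : (J : B) → ι → Fin (M J) → ℤ)
    (Γ : (J : B) → AddSubgroup (Fin (M J) → ℝ)) (F Kb Lm Cn : ℝ) : Prop where
  zero : ∀ J j, j ∉ blk J → s J j = 0
  ent : ∀ J j k, |(s J j k : ℝ)| ≤ 1
  deg : ∀ i, ((univ.filter fun J => i ∈ blk J).card : ℝ) ≤ F
  row : ∀ i, ∑ x, |(tc s i x : ℝ)| ≤ Cn
  ne : ∀ J, (blk J).Nonempty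
  dim : ∀ J, Lm * M J ≤ (blk J).card
  dim_le : ∀ J, (M J : ℝ) ≤ Cn
  op : ∀ J, ∀ T ⊆ blk J, Op T (s J) (Kb * (M J + T.card))
  int : ∀ J (n : Fin (M J) → ℤ), (fun k => (n k : ℝ)) ∈ Γ J
  dual : ∀ J j, Dual (Γ J) (s J j)
  min : ∀ J, ∀ γ ∈ Γ J, γ ≠ 0 → 1 ≤ nsq γ
  one_le_F : 1 ≤ F
  one_le_Kb : 1 ≤ Kb
  one_le_Lm : 1 ≤ Lm
  one_le_Cn : 1 ≤ Cn

/-- Drifts of patterns of small entropy are visible on a constant fraction of the zone. -/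
def C1 {M : B → ℕ} (blk : B → Finset ι) (s : (J : B) → ι → Fin (M J) → ℤ)
    (Γ : (J : B) → AddSubgroup (Fin (M J) → ℝ)) (g : ℕ) (Υ : ℝ) : Prop :=
  ∀ (π : Pat M g) (η : ℝ), 0 < η → η ≤ 1 / 2 →
    wsz blk (pS π) ≤ Υ * (zone blk (pJ π)).card →
    (∀ J ∈ pJ π, ∀ γ ∈ Γ J, η ^ 2 ≤ nsq (res (pD π) J - γ)) →
    ((zone blk (pJ π)).card : ℝ) / 40 ≤
      (((zone blk (pJ π)).filter fun i => η / 10 ≤ nd (pw s π i)).card : ℝ)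

/-- Lower bound for the distance of a drift to the integer points. -/
def Gam {M : B → ℕ} (blk : B → Finset ι) (s : (J : B) → ι → Fin (M J) → ℤ)
    (Γ : (J : B) → AddSubgroup (Fin (M J) → ℝ)) (γ1 : ℝ) : Prop :=
  ∀ Δ : Kt M → ℝ, (∀ J, Red (Γ J) (res Δ J)) → ∀ x : ι → ℤ,
    γ1 * ∑ J, ((blk J).card : ℝ) * min (1 / 4) (nsq (res Δ J)) ≤
      ∑ i, ((x i : ℝ) - lin (tc s) Δ i) ^ 2

/-- Good vertices. -/
def GoodB {M : B → ℕ} (blk : B → Finset ι) (s : (J : B) → ι → Fin (M J) → ℤ) (g : ℕ)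
    (τ δ1 Υ ϑ1 ϑ2 δ3 : ℝ) (u : ι → ℝ) : Prop :=
  (∀ i, |u i| ≤ 1 / 2 + τ) ∧
  (∀ π : Pat M g, ∑ i ∈ zone blk (pS π), (u i ^ 2 - nd (u i + pw s π i) ^ 2) ≤
    δ1 * wsz blk (pS π)) ∧
  ∀ π : Pat M g, wsz blk (pS π) ≤ Υ * (zone blk (pJ π)).card →
    ∑ i ∈ zone blk (pJ π), max (|cf (pw s π i)| - ϑ2) 0 - δ3 * (zone blk (pJ π)).card ≤
      (((zone blk (pJ π)).filter fun i => 1 / 2 + τ + ϑ1 < |u i + cf (pw s π i)|).card : ℝ)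

end System

/-- Numerical hypotheses of the forced flip estimate. -/
structure APar (F Kb Lm Cn γ1 τ Υ ϑ ϑ1 ϑ2 δ3 ηa : ℝ) (g : ℕ) : Prop where
  g_pos : 1 ≤ g
  gam_pos : 0 < γ1
  tau_nonneg : 0 ≤ τ
  th_pos : 0 < ϑ
  th_le : ϑ ≤ ηa
  eta_le : ηa ≤ 1 / 2
  ups : 1 / (γ1 * ϑ ^ 2) ≤ Υ
  th1_pos : 0 < ϑ1
  th1_le : ϑ1 ≤ 1 / 4
  grid1 : Cn / g ≤ ϑ1 / 2
  grid2 : Cn / g ≤ ηa / 2
  th2_le : ϑ2 ≤ ηa / 40
  d3_le : δ3 ≤ ηa / 3200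
  eps1 : F * Kb / (Lm * γ1) ≤ ϑ1 ^ 2
  small : 51200 * F ^ 2 * Kb * ϑ ^ 2 ≤ ηa * ϑ1 ^ 2

/-- Numerical hypotheses of the near triangle inequality. -/
structure TPar (F Kb Lm Cn γ1 τ δ1 ηa d : ℝ) (g : ℕ) : Prop where
  d_pos : 0 < d
  d_le : d ≤ 1 / 6
  eps1 : F * Kb / (Lm * γ1) ≤ d ^ 2
  eta : 102400 * F ^ 2 * Kb * ηa ≤ d ^ 2
  tau : 2 * τ ≤ d
  d1_nonneg : 0 ≤ δ1
  d1 : 204800 * (δ1 * F + Cn / g) ≤ 6 * d * ηa

/-! ### Random rows -/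

section Rows

/-- The row with entries in `{-1,0,1}` given by two bit vectors. -/
def rw {M : ℕ} (e : Fin M → Bool × Bool) : Fin M → ℤ :=
  fun k => (if (e k).1 then 1 else 0) - (if (e k).2 then 1 else 0)

/-- Subgaussian rows. -/
def SG {M : ℕ} (T : Finset (Fin M → Bool × Bool)) (τ0 : ℝ) : Prop :=
  ∀ v : Fin M → ℝ, av (fun e : T => Real.exp (ip (rw e.1) v)) ≤ (1 + τ0) * Real.exp (nsq v)

/-- Small ball property. -/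
def SB {M : ℕ} (Γ : AddSubgroup (Fin M → ℝ)) (T : Finset (Fin M → Bool × Bool)) : Prop :=
  ∀ (Δ : Fin M → ℝ) (z η : ℝ), 0 < η → η ≤ 1 / 2 → (∀ γ ∈ Γ, η ^ 2 ≤ nsq (Δ - γ)) →
    1 / 20 ≤ av fun e : T => ind (η / 10 ≤ nd (ip (rw e.1) Δ + z))

structure RowOK {M : ℕ} (Γ : AddSubgroup (Fin M → ℝ)) (T : Finset (Fin M → Bool × Bool))
    (τ0 : ℝ) : Prop where
  ne : T.Nonempty
  int : ∀ n : Fin M → ℤ, (fun k => (n k : ℝ)) ∈ Γ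
  min : ∀ γ ∈ Γ, γ ≠ 0 → 1 ≤ nsq γ
  dual : ∀ e ∈ T, Dual Γ (rw e)
  sg : SG T τ0
  sb : SB Γ T
  nrm : av (fun e : T => ind (msq (rw e.1) < (M : ℝ) / 4)) ≤ τ0

variable {M r p : ℕ}

/-- `H m = 0` modulo `p`. -/
def inK (H : Fin r → Fin M → ZMod p) (m : Fin M → ℤ) : Prop :=
  ∀ a, ∑ k, H a k * (m k : ZMod p) = 0

def code (H : Fin r → Fin M → ZMod p) : Finset (Fin M → Bool × Bool) :=
  @Finset.filter _ (fun e => inK H (rw e)) (Classical.decPred _) univ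

/-- The lattice `ℤ^M + H^T ℤ^r / p`. -/
def GH (H : Fin r → Fin M → ZMod p) : AddSubgroup (Fin M → ℝ) where
  carrier := {ρ | ∃ (y : Fin r → ℤ) (n : Fin M → ℤ),
    ∀ k, ρ k = n k + (∑ a, (y a : ℝ) * ((H a k).val : ℝ)) / p}
  add_mem' := by
    rintro a b ⟨y, n, h⟩ ⟨y', n', h'⟩
    refine ⟨y + y', n + n', fun k => ?_⟩
    simp only [Pi.add_apply, h k, h' k, Int.cast_add, add_mul, sum_add_distrib, add_div]
    ring
  zero_mem' := ⟨0, 0, fun k => by simp⟩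
  neg_mem' := by
    rintro a ⟨y, n, h⟩
    refine ⟨-y, -n, fun k => ?_⟩
    simp only [Pi.neg_apply, h k, Int.cast_neg, neg_mul, sum_neg_distrib, neg_div]
    ring

/-- All nonzero combinations of the rows of `H` are far from zero. -/
def MinD (H : Fin r → Fin M → ZMod p) : Prop :=
  ∀ y : Fin r → ZMod p, y ≠ 0 →
    (M : ℝ) / 8 ≤ ∑ k, Real.sin (Real.pi * (((∑ a, y a * H a k).val : ℝ) / p)) ^ 2

variable {ι : Type}

def Bad1 (H : Fin r → Fin M → ZMod p) (s : ι → Fin M → ℤ) (sp : ℕ) (a c2 : ℝ) : Prop :=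
  ∃ T : Finset ι, T.card ≤ sp ∧
    LinearIndependent (ZMod p) (fun l : T => fun k => (s l k : ZMod p)) ∧
    ∃ (m : Fin M → ℤ) (α : ι → ℝ), (∀ l, |α l| ≤ a) ∧
      ∑ k, ((m k : ℝ) - ∑ l ∈ T, α l * s l k) ^ 2 < c2 ∧ inK H m ∧
      (fun k => (m k : ZMod p)) ∉
        Submodule.span (ZMod p) (Set.range fun l : T => fun k => (s l k : ZMod p))

def Bad3 (p : ℕ) (s : ι → Fin M → ℤ) (sp B : ℕ) : Prop :=
  ∃ T : Finset ι, T.card ≤ sp ∧ ∃ z : ι → ZMod p, ∃ l ∈ T, 2 * B < (z l).valMinAbs.natAbs ∧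
    ∀ k, (∑ j ∈ T, z j * (s j k : ZMod p)).valMinAbs.natAbs ≤ B

end Rows

/-! ### Blocks from partitions -/

section Part

variable {ι A : Type} [Fintype ι]

abbrev Bk (m : A → ℕ) : Type := (a : A) × Fin (m a)

def bk {m : A → ℕ} (π : (a : A) → ι → Fin (m a)) (J : Bk m) : Finset ι :=
  univ.filter fun i => π J.1 i = J.2

def sb {m Mf : A → ℕ} (π : (a : A) → ι → Fin (m a)) (r : (a : A) → ι → Fin (Mf a) → ℤ)
    (J : Bk m) : ι → Fin (Mf J.1) → ℤ :=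
  fun i k => if π J.1 i = J.2 then r J.1 i k else 0

end Part

/-- The system with all parameters expressed by `X` and `N = card ι`. -/
structure XSys {ι B : Type} [Fintype ι] [DecidableEq ι] [Fintype B] [DecidableEq B] {M : B → ℕ}
    (blk : B → Finset ι) (s : (J : B) → ι → Fin (M J) → ℤ)
    (Γ : (J : B) → AddSubgroup (Fin (M J) → ℝ)) (lev : B → ℕ) (t0 D : ℕ) (X : ℝ) : Prop where
  gs : GSys blk s Γ (X ^ 2) X (X ^ 57) (cd ι ^ 2)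
  c1 : C1 blk s Γ (Fintype.card ι ^ 8) (X ^ 36)
  cardB : cd B ≤ cd ι ^ 2
  unit : ∀ i, ∃ x, tc s i x = 1 ∨ tc s i x = -1
  D_pos : 1 ≤ D
  t0_pos : 1 ≤ t0
  t0_le : (t0 : ℝ) ≤ X
  t0_ge : cd ι ≤ 4 * 4 ^ t0
  lev_le : ∀ J, 4 ^ lev J ≤ cd ι
  hash : ∀ t < t0, ∀ S : Finset ι, 2 ^ t ≤ S.card → S.card < 2 * 2 ^ t →
    (D : ℝ) * 2 ^ t / 2 ≤ (univ.filter fun J => lev J = t ∧ (S ∩ blk J).card = 1).card
  degt : ∀ t i, (univ.filter fun J => lev J = t ∧ i ∈ blk J).card ≤ D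
  cnt : ∀ t, ((univ.filter fun J => lev J = t).card : ℝ) ≤ D * 1024 * 2 ^ t
  size : ∀ J, ((blk J).card : ℝ) ≤ X ^ 58 * M J
  dim_ge : ∀ J, cd ι ≤ X ^ 59 * 2 ^ lev J * M J
  nrm : ∀ J, ∀ j ∈ blk J, (M J : ℝ) / 4 ≤ gram (s J) j j
  rip : ∀ J, ∃ sp2 : ℕ, (M J : ℝ) ≤ X * sp2 ∧ RipAll (blk J) (s J) X sp2
  span : ∀ J, Span (Γ J) (blk J) (s J) ⌊(M J : ℝ) / (X ^ 90) ^ 48⌋₊ (6 * (X ^ 90) ^ 6)
    (M J / 10 ^ 6)

end

end Vale.Agent.P318.B
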