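import Vale.Agent.P318.B.Stmt
import Vale.Agent.P318.RProb

/-!
Balanced partitions with many unique elements.
-/

namespace Vale.Agent.P318.B

open Finset Vale.Agent.P318.M Vale.Agent.P318.R
open scoped BigOperators

namespace Hash

variable {ι α : Type} [Fintype ι] [DecidableEq ι] [Fintype α] [DecidableEq α]

omit [DecidableEq α] in
lemma resample [Nonempty α] (i : ι) (f : (ι → α) → ℝ) :
    𝔼 x, f x = 𝔼 x, 𝔼 u, f (Function.update x i u) := by
  let e : (ι → α) × α ≃ (ι → α) × α :=
    Function.Involutive.toPerm (fun p => (Function.update p.1 i p.2, p.1 i)) fun p => by simp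
  have := Fintype.expect_equiv e (fun p => f (Function.update p.1 i p.2)) (fun p => f p.1)
    fun p => rfl
  rw [← univ_product_univ, expect_product, expect_product] at this
  simpa only [Fintype.expect_const] using this.symm

omit [DecidableEq α] in
lemma marg [Nonempty α] (i : ι) (E : α → Prop) : pr (fun x : ι → α => E (x i)) = pr E := by
  classical
  have := expect_prod_pi_mem (Ω := fun _ : ι => α) {i} fun _ u => if E u then (1 : ℝ) else 0
  simpa only [prod_singleton, ← pr_eq_expect] using this

lemma pr_mem (T : Finset α) : pr (fun u => u ∈ T) = T.card / Fintype.card α := by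
  rw [pr_eq_card]
  simp

lemma mgf [Nonempty α] {t s : ℝ} (ht : 0 ≤ t) (S : Finset ι) (hS : (S.card : ℝ) ≤ s) :
    𝔼 x : ι → α, Real.exp (t * (S.card - (S.image x).card)) ≤
      Real.exp ((Real.exp t - 1) * s / Fintype.card α * S.card) := by
  induction S using Finset.induction_on with
  | empty => simp
  | insert i S hi ih =>
    rw [card_insert_of_notMem hi] at hS ⊢
    push_cast at hS ⊢
    have h1 : 0 ≤ Real.exp t - 1 := by linarith [Real.one_le_exp ht]
    have hc : (0 : ℝ) < Fintype.card α := by exact_mod_cast Fintype.card_pos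
    have key : ∀ x : ι → α, 𝔼 u, Real.exp (t * (S.card + 1 -
        ((insert i S).image (Function.update x i u)).card)) ≤
        Real.exp (t * (S.card - (S.image x).card)) *
          Real.exp ((Real.exp t - 1) * s / Fintype.card α) := fun x => by
      have e : ∀ u, Real.exp (t * (S.card + 1 -
          ((insert i S).image (Function.update x i u)).card)) =
          Real.exp (t * (S.card - (S.image x).card)) *
            (1 + (Real.exp t - 1) * if u ∈ S.image x then 1 else 0) := fun u => by
        have e1 : (insert i S).image (Function.update x i u) = insert u (S.image x) := by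
          rw [image_insert, Function.update_self]
          congr 1
          exact image_congr fun j hj => Function.update_of_ne (ne_of_mem_of_not_mem hj hi) _ _
        rw [e1]
        split_ifs with h
        · rw [insert_eq_of_mem h, mul_one, add_sub_cancel, ← Real.exp_add]
          congr 1
          ring
        · rw [card_insert_of_notMem h, mul_zero, add_zero, mul_one]
          push_cast
          congr 1
          ring
      simp only [e]
      rw [← mul_expect, expect_add_distrib, Fintype.expect_const, ← mul_expect, ← pr_eq_expect,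
        pr_mem]
      refine mul_le_mul_of_nonneg_left ?_ (Real.exp_pos _).le
      have h2 : ((S.image x).card : ℝ) ≤ s := by
        have : ((S.image x).card : ℝ) ≤ S.card := by exact_mod_cast card_image_le
        linarith
      have h3 := mul_le_mul_of_nonneg_left (div_le_div_of_nonneg_right h2 hc.le) h1
      rw [mul_div_assoc]
      linarith [Real.add_one_le_exp ((Real.exp t - 1) * (s / Fintype.card α))]
    rw [resample i]
    refine (expect_le_expect fun x _ => key x).trans ?_
    rw [← expect_mul, mul_add _ _ 1, mul_one, Real.exp_add]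
    exact mul_le_mul_of_nonneg_right (ih (by linarith)) (Real.exp_pos _).le

lemma uniq (S : Finset ι) (x : ι → α) : 2 * ((S.image x).card : ℝ) - S.card ≤
    (univ.filter fun j => (S ∩ univ.filter fun i => x i = j).card = 1).card := by
  have e : ∀ j, S ∩ univ.filter (fun i => x i = j) = S.filter fun i => x i = j := fun j => by
    ext i
    simp
  simp only [e]
  have h1 := card_eq_sum_card_image x S
  have h2 : ∑ _j ∈ S.image x, 2 ≤ ∑ j ∈ S.image x, ((S.filter fun i => x i = j).card +
      if (S.filter fun i => x i = j).card = 1 then 1 else 0) := sum_le_sum fun j hj => by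
    obtain ⟨i, hi, rfl⟩ := mem_image.1 hj
    have : 0 < (S.filter fun k => x k = x i).card := card_pos.2 ⟨i, mem_filter.2 ⟨hi, rfl⟩⟩
    split_ifs <;> omega
  rw [sum_add_distrib, ← h1, ← card_filter, sum_const, smul_eq_mul] at h2
  have h3 := card_le_card (filter_subset_filter
    (fun j => (S.filter fun i => x i = j).card = 1) (subset_univ (S.image x)))
  have h4 : (S.image x).card * 2 ≤ S.card +
    (univ.filter fun j => (S.filter fun i => x i = j).card = 1).card := by omega
  have h5 : ((S.image x).card : ℝ) * 2 ≤ S.card +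
    (univ.filter fun j => (S.filter fun i => x i = j).card = 1).card := by exact_mod_cast h4
  linarith

lemma tail [Nonempty α] (D : ℕ) (S : Finset ι) (h : 512 * S.card ≤ Fintype.card α) :
    pr (fun π : Fin D → ι → α => (D : ℝ) * S.card / 4 ≤
      ∑ a, ((S.card : ℝ) - (S.image (π a)).card)) ≤ Real.exp (-(3 / 4 * D)) ^ S.card := by
  refine (pr_ge_le_exp _ _ 4 (by norm_num)).trans ?_
  simp only [mul_sum]
  have h1 := expect_exp_sum_le (Ω := fun _ : Fin D => ι → α) univ
    (fun _ x => 4 * ((S.card : ℝ) - (S.image x).card)) _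
    fun _ _ => mgf (α := α) (by norm_num : (0 : ℝ) ≤ 4) S le_rfl
  refine (mul_le_mul_of_nonneg_left h1 (Real.exp_pos _).le).trans ?_
  rw [prod_const, card_univ, Fintype.card_fin, ← Real.exp_nat_mul, ← Real.exp_nat_mul,
    ← Real.exp_add, Real.exp_le_exp]
  have hc : (0 : ℝ) < Fintype.card α := by exact_mod_cast Fintype.card_pos
  have h2 : Real.exp 4 ≤ 81 := by
    have : Real.exp 4 = Real.exp 1 ^ 4 := by rw [← Real.exp_nat_mul]; norm_num
    rw [this]
    exact (pow_le_pow_left₀ (Real.exp_pos _).le (by linarith [Real.exp_one_lt_d9]) 4).trans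
      (by norm_num : (3 : ℝ) ^ 4 ≤ 81)
  have h3 : (512 : ℝ) * S.card ≤ Fintype.card α := by exact_mod_cast h
  have h4 : (Real.exp 4 - 1) * S.card / Fintype.card α ≤ 1 / 4 := by
    rw [div_le_iff₀ hc]
    nlinarith [Nat.cast_nonneg (α := ℝ) S.card]
  have h5 : (0 : ℝ) ≤ D * S.card := by positivity
  nlinarith

lemma sum_pow_le {y : ℝ} (hy : 0 ≤ y) (P : Finset (Finset ι)) (h : ∅ ∉ P) :
    ∑ S ∈ P, y ^ S.card ≤ Real.exp (cd ι * y) - 1 := by
  have h1 : ∑ S : Finset ι, y ^ S.card = (y + 1) ^ Fintype.card ι := by
    have := Finset.sum_pow_mul_eq_add_pow y 1 (univ : Finset ι)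
    simpa using this
  have h2 : ∑ S ∈ insert ∅ P, y ^ S.card ≤ ∑ S : Finset ι, y ^ S.card :=
    sum_le_sum_of_subset_of_nonneg (subset_univ _) fun _ _ _ => by positivity
  rw [sum_insert h, card_empty, pow_zero, h1] at h2
  have h3 := pow_le_pow_left₀ (by linarith) (Real.add_one_le_exp y) (Fintype.card ι)
  rw [← Real.exp_nat_mul] at h3
  unfold cd
  linarith

end Hash

open Hash

theorem hash_proof : HashStmt := by
  intro ι _ _ D m d hd hm hD hp
  have m0 : 0 < m := by omega
  have : Nonempty (Fin m) := ⟨⟨0, m0⟩⟩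
  have mr : (0 : ℝ) < m := by exact_mod_cast m0
  have N0 : 0 ≤ cd ι := Nat.cast_nonneg _
  have q : ∀ j : Fin m, pr (fun u => u = j) = 1 / m := fun j => by
    simpa using pr_mem ({j} : Finset (Fin m))
  set P : Finset (Finset ι) := univ.filter fun S => d ≤ S.card ∧ S.card < 2 * d with hP
  have two : ∀ E : Fin m → (ι → Fin m) → Prop, (∀ j, pr (E j) ≤ Real.exp (-(cd ι / (8 * m)))) →
      pr (fun π : Fin D → ι → Fin m => ∃ a j, E j (π a)) ≤ 1 / 4 := fun E h => by
    refine (pr_exists_le _).trans ((sum_le_sum fun a _ => (pr_exists_le _).trans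
      (sum_le_sum fun j _ => (marg a (E j)).trans_le (h j))).trans ?_)
    simp only [sum_const, card_univ, Fintype.card_fin, nsmul_eq_mul]
    linarith
  have p1 := two (fun j x => ((univ.filter fun i => x i = j).card : ℝ) ≤ cd ι / (2 * m)) fun j => by
    have := pr_card_le_le (Ω := fun _ : ι => Fin m) univ (fun _ u => u = j) fun _ _ => (q j).ge
    rwa [card_univ, show (Fintype.card ι : ℝ) = cd ι from rfl,
      show 1 / m * cd ι / 2 = cd ι / (2 * m) by field_simp,
      show 1 / m * cd ι / 8 = cd ι / (8 * m) by field_simp] at this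
  have p2 := two (fun j x => 2 * cd ι / m ≤ (univ.filter fun i => x i = j).card) fun j => by
    refine (pr_card_ge_le (Ω := fun _ : ι => Fin m) univ (fun _ u => u = j) (fun _ _ => (q j).le) _
      (Real.log_nonneg one_le_two)).trans (Real.exp_le_exp.2 ?_)
    rw [card_univ, Real.exp_log two_pos, show (Fintype.card ι : ℝ) = cd ι from rfl,
      show cd ι / (8 * m) = cd ι / m / 8 by field_simp, mul_div_assoc, one_div_mul_eq_div]
    nlinarith [Real.log_two_gt_d9, div_nonneg N0 mr.le]
  have p3 : pr (fun π : Fin D → ι → Fin m => ∃ S ∈ P, (D : ℝ) * S.card / 4 ≤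
      ∑ a, ((S.card : ℝ) - (S.image (π a)).card)) < 1 / 2 := by
    have a1 := pr_exists_mem_le P fun S (π : Fin D → ι → Fin m) => (D : ℝ) * S.card / 4 ≤
      ∑ a, ((S.card : ℝ) - (S.image (π a)).card)
    have a2 := sum_le_sum fun S (hS : S ∈ P) => tail (α := Fin m) D S (by
      have := (mem_filter.1 hS).2.2
      rw [Fintype.card_fin]
      omega)
    have a3 := sum_pow_le (Real.exp_pos (-(3 / 4 * D))).le P fun h => by
      have := (mem_filter.1 h).2.1
      rw [card_empty] at this
      omega
    refine (a1.trans (a2.trans a3)).trans_lt ?_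
    have h1 : cd ι * Real.exp (-(3 / 4 * D)) ≤ 3 / 10 := by
      rcases Nat.eq_zero_or_pos (Fintype.card ι) with h | h
      · rw [cd, h]
        norm_num
      have N1 : 1 ≤ cd ι := by unfold cd; exact_mod_cast h
      have l0 := Real.log_nonneg N1
      have h2 : Real.exp (-(3 / 4 * D)) ≤ Real.exp (-Real.log (cd ι) + -(3 / 2)) :=
        Real.exp_le_exp.2 (by linarith)
      rw [Real.exp_add, Real.exp_neg (Real.log _), Real.exp_log (by linarith)] at h2
      have h3 : Real.exp (-(3 / 2)) ≤ 3 / 10 := by
        rw [Real.exp_neg, inv_le_comm₀ (Real.exp_pos _) (by norm_num)]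
        linarith [Real.quadratic_le_exp_of_nonneg (show (0 : ℝ) ≤ 3 / 2 by norm_num)]
      have h4 := mul_le_mul_of_nonneg_left h2 N0
      rw [← mul_assoc, mul_inv_cancel₀ (by linarith), one_mul] at h4
      linarith
    have h5 := Real.exp_bound_div_one_sub_of_interval (x := 3 / 10) (by norm_num) (by norm_num)
    have h6 := Real.exp_le_exp.2 h1
    linarith
  obtain ⟨π, h⟩ := exists_not_of_pr_lt_one (((pr_or_le _ _).trans_lt (add_lt_add_of_le_of_lt
    ((pr_or_le _ _).trans (add_le_add p1 p2)) p3)).trans_le (by norm_num))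
  simp only [not_or, not_exists, not_and, not_le] at h
  refine ⟨π, fun a j => ⟨(h.1.1 a j).le, (h.1.2 a j).le⟩, fun S h1 h2 => ?_⟩
  have h3 := h.2 S (mem_filter.2 ⟨mem_univ _, h1, h2⟩)
  refine le_trans ?_ (sum_le_sum fun a _ => uniq S (π a))
  simp only [sum_sub_distrib, sum_const, card_univ, Fintype.card_fin, nsmul_eq_mul,
    ← mul_sum] at h3 ⊢
  have h4 : (d : ℝ) ≤ S.card := by exact_mod_cast h1
  nlinarith [Nat.cast_nonneg (α := ℝ) D]

end Vale.Agent.P318.B
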