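import Vale.Agent.P318.B.Defs

/-!
Statements of the parts of the proof of `g(n) ≥ c sqrt (log n) / (log log n) ^ C`.
Every part is a `Prop`; a part is proved as
`theorem x_proof (h1 : AStmt) (h2 : BStmt) : XStmt`.
-/

namespace Vale.Agent.P318.B

open Finset MeasureTheory Vale.Agent.P318.M

/-! ### Isoperimetry -/

/-- Freezing one coordinate at an integer; monotonicity and increments of the window. -/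
def UpdStmt : Prop :=
  (∀ ω : ℝ, 0 < ω → ω ≤ 1 / 8 →
    (∀ y y' : ℝ, ⌊y⌋ = ⌊y'⌋ → y ≤ y' → pr ω y ≤ pr ω y') ∧
    (∀ y u : ℝ, |u| ≤ 1 / 8 → ⌊y + u⌋ ≠ ⌊y⌋ → pq ω y = 0 ∧ pq ω (y + u) = 0) ∧
    (∀ y u : ℝ, |u| ≤ 1 / 8 →
      (pq ω (y + u) - pq ω y) ^ 2 ≤ 8 * u ^ 2 / ω ^ 2 * pq ω y + 2 * u ^ 4 / ω ^ 4) ∧
    ∀ y u : ℝ, |u| ≤ 1 / 8 → pq ω (y + u) ^ 2 ≤ pq ω y + u ^ 2 / (4 * ω ^ 2)) ∧
  ∀ (ι : Type) [Fintype ι] [DecidableEq ι] (ω : ℝ) (h : (ι → ℤ) → ℝ),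
    0 < ω → ω ≤ 1 / 8 → U01 h →
    (∀ (y : ι → ℝ) l, c1 ω h l y = Ey ω h (Function.update y l ((⌊y l⌋ + 1 : ℤ) : ℝ)) -
      Ey ω h (Function.update y l ((⌊y l⌋ : ℤ) : ℝ))) ∧
    (∀ (y : ι → ℝ) l (n : ℤ), |y l - n| ≤ 1 / 4 → Ey ω h y = Ey ω h (Function.update y l (n : ℝ)) ∧
      ∀ j, j ≠ l → c1 ω h j y = c1 ω h j (Function.update y l (n : ℝ))) ∧
    (∀ (y : ι → ℝ) l j, j ≠ l →
      c1 ω h j (Function.update y l ((⌊y l⌋ + 1 : ℤ) : ℝ)) =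
          c1 ω h j y + (1 - pr ω (y l)) * c2 ω h j l y ∧
        c1 ω h j (Function.update y l ((⌊y l⌋ : ℤ) : ℝ)) =
          c1 ω h j y - pr ω (y l) * c2 ω h j l y) ∧
    (∀ y l j, c2 ω h j l y = c2 ω h l j y) ∧
    ∀ J y, W2 ω J h y ≤ 2

/-- The pointwise bound for the cross terms. -/
def PointStmt : Prop :=
  ∀ (ι κ : Type) [Fintype ι] [DecidableEq ι] [Fintype κ] (Γ : AddSubgroup (κ → ℝ))
    (J : Finset ι) (s : ι → κ → ℤ) (β μ R sp nb ω V0 l : ℝ),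
    BHyp Γ J s β μ R sp nb → 0 < ω → ω ≤ 1 / 8 → 1 ≤ V0 → 0 ≤ l →
    PointAt ω J s (pa0 (cd κ) μ R nb ω V0 l) (paV (cd κ) β R sp nb ω V0) (paU (cd κ) R sp nb ω)
      (paI (cd κ) μ R sp V0 l)

/-- Integration of the pointwise bound along the moves. -/
def FlatStmt : Prop :=
  ∀ (ι κ : Type) [Fintype ι] [DecidableEq ι] [Fintype κ] (Γ : AddSubgroup (κ → ℝ))
    (J : Finset ι) (s : ι → κ → ℤ) (ω a0 aV aU aI : ℝ),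
    (∀ n : κ → ℤ, (fun k => (n k : ℝ)) ∈ Γ) → (∀ j, j ∉ J → s j = 0) →
    (∀ l ∈ J, 0 < gram s l l) → 0 < ω → ω ≤ 1 / 8 → 0 ≤ aV → 0 ≤ aU → 0 ≤ aI →
    PointAt ω J s a0 aV aU aI → FlatAt ω Γ J s (aU + aI) (a0 + aV)

/-- Fourier coefficients: shift, linearity, mean, Bessel, derivative. -/
def FcStmt : Prop :=
  ∀ (κ : Type) [Fintype κ],
    (∀ F : (κ → ℝ) → ℝ, Per F → BM F → ∀ (ξ : κ → ℝ) (m : κ → ℤ),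
      fc (fun β => F (β + ξ)) m = ch (ip m ξ) * fc F m) ∧
    (∀ (α : Type) (T : Finset α) (a : α → ℝ) (F : α → (κ → ℝ) → ℝ), (∀ i ∈ T, BM (F i)) →
      BM (fun β => ∑ i ∈ T, a i * F i β) ∧
      tm (fun β => ∑ i ∈ T, a i * F i β) = ∑ i ∈ T, a i * tm (F i) ∧
      ∀ m, fc (fun β => ∑ i ∈ T, a i * F i β) m = ∑ i ∈ T, (a i : ℂ) * fc (F i) m) ∧
    (∀ F : (κ → ℝ) → ℝ, BM F → fc F 0 = (tm F : ℝ)) ∧
    (∀ F : (κ → ℝ) → ℝ, Per F → BM F → ∀ S : Finset (κ → ℤ),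
      ∑ m ∈ S, ‖fc F m‖ ^ 2 ≤ tm fun β => F β ^ 2) ∧
    ∀ (F D : (κ → ℝ) → ℝ) (w : κ → ℝ), Per F → BM F → Per D → BM D →
      (∀ β (h : ℝ), F (β + h • w) - F β = ∫ r in (0 : ℝ)..1, h * D (β + (r * h) • w)) →
      ∀ m, fc D m = 2 * Real.pi * Complex.I * (ip m w : ℝ) * fc F m

/-- Regularity of the functions on the torus. -/
def RegStmt : Prop :=
  ∀ (ι κ : Type) [Fintype ι] [DecidableEq ι] [Fintype κ] (Γ : AddSubgroup (κ → ℝ))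
    (s : ι → κ → ℤ) (ω : ℝ) (t : ι → ℝ) (h : (ι → ℤ) → ℝ),
    (∀ n : κ → ℤ, (fun k => (n k : ℝ)) ∈ Γ) → 0 < ω → ω ≤ 1 / 8 → U01 h → Inv Γ s h →
    (BM (mE ω h t s) ∧ Per (mE ω h t s) ∧ U01 (mE ω h t s)) ∧
    (∀ l, BM (qq ω h t s l) ∧ Per (qq ω h t s l) ∧ BM (ps ω h t s l) ∧ Per (ps ω h t s l) ∧
      BM (del ω h t s l) ∧ Per (del ω h t s l) ∧
      BM (fun η => c1 ω h l (t + lin s η)) ∧ Per (fun η => c1 ω h l (t + lin s η)) ∧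
      BM (fun η => inf1 ω h l (t + lin s η)) ∧ Per (fun η => inf1 ω h l (t + lin s η)) ∧
      BM (fun η => pq ω ((t + lin s η) l)) ∧ Per (fun η => pq ω ((t + lin s η) l)) ∧
      BM (fun η => dpr ω ((t + lin s η) l)) ∧ Per (fun η => dpr ω ((t + lin s η) l)) ∧
      BM (fun η => pr ω ((t + lin s η) l)) ∧ Per (fun η => pr ω ((t + lin s η) l)) ∧
      (∀ j, BM (fun η => c2 ω h l j (t + lin s η)) ∧ Per (fun η => c2 ω h l j (t + lin s η))) ∧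
      ∀ L, BM (cq ω h t s L l) ∧ Per (cq ω h t s L l)) ∧
    (∀ J, BM (fun η => W1 ω J h (t + lin s η)) ∧ Per (fun η => W1 ω J h (t + lin s η)) ∧
      BM (fun η => W2 ω J h (t + lin s η)) ∧ Per (fun η => W2 ω J h (t + lin s η)) ∧
      BM (fun η => Inf ω J h (t + lin s η)) ∧ Per (fun η => Inf ω J h (t + lin s η))) ∧
    (∀ k m, ∑ j, (s j k : ℂ) * fc (qq ω h t s j) m =
      2 * Real.pi * Complex.I * (m k : ℂ) * fc (mE ω h t s) m) ∧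
    ((∀ j, Dual Γ (s j)) → ∀ m, ¬ Dual Γ m → fc (mE ω h t s) m = 0)

/-- The comb averages are small. -/
def CombStmt : Prop :=
  ∀ (ι κ : Type) [Fintype ι] [DecidableEq ι] [Fintype κ] (Γ : AddSubgroup (κ → ℝ))
    (J : Finset ι) (s : ι → κ → ℤ) (ω A1 e1 : ℝ) (L : ℕ) (t : ι → ℝ) (h : (ι → ℤ) → ℝ),
    (∀ n : κ → ℤ, (fun k => (n k : ℝ)) ∈ Γ) → (∀ l ∈ J, 0 < gram s l l) → 0 < ω → ω ≤ 1 / 8 →
    1 ≤ L → FlatAt ω Γ J s A1 e1 → U01 h → Inv Γ s h →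
    ∑ l ∈ J, tm (fun η => cq ω h t s L l η ^ 2) ≤
      4 / ω ^ 2 * (A1 * tm (fun η => Inf ω J h (t + lin s η)) + e1) +
        tm (fun η => Inf ω J h (t + lin s η)) / (ω * L)

/-- The low frequencies of the fibre mean. -/
def LowStmt : Prop :=
  ∀ (ι κ : Type) [Fintype ι] [DecidableEq ι] [Fintype κ] (Γ : AddSubgroup (κ → ℝ))
    (J : Finset ι) (s : ι → κ → ℤ) (ω Bn Λ2 c2 : ℝ) (L : ℕ) (t : ι → ℝ) (h : (ι → ℤ) → ℝ),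
    (∀ n : κ → ℤ, (fun k => (n k : ℝ)) ∈ Γ) → (∀ j, Dual Γ (s j)) → (∀ j, j ∉ J → s j = 0) →
    0 ≤ Bn → Op J s Bn → 0 < c2 → 1 ≤ L → Far Γ J s Λ2 c2 L → 0 < ω → ω ≤ 1 / 8 →
    U01 h → Inv Γ s h → ∀ S : Finset (κ → ℤ), (∀ m ∈ S, m ≠ 0 ∧ msq m ≤ Λ2) →
      ∑ m ∈ S, ‖fc (mE ω h t s) m‖ ^ 2 ≤
        Bn / (Real.pi ^ 2 * c2) * ∑ l ∈ J, tm fun η => cq ω h t s L l η ^ 2

/-- Gradient bounds. -/
def HighStmt : Prop :=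
  ∀ (ι κ : Type) [Fintype ι] [DecidableEq ι] [Fintype κ] (Γ : AddSubgroup (κ → ℝ))
    (J : Finset ι) (s : ι → κ → ℤ) (ω Bn : ℝ) (t : ι → ℝ) (h : (ι → ℤ) → ℝ),
    (∀ n : κ → ℤ, (fun k => (n k : ℝ)) ∈ Γ) → (∀ j, j ∉ J → s j = 0) →
    (∀ j k, |(s j k : ℝ)| ≤ 1) → 0 < Bn → cd κ ≤ Bn → Op J s Bn → 0 < ω → ω ≤ 1 / 8 →
    U01 h → Inv Γ s h → ∀ S : Finset (κ → ℤ),
      ∑ m ∈ S, msq m * ∑ l ∈ J, ‖fc (ps ω h t s l) m‖ ^ 2 ≤ 3 * Bn / ω ^ 2 ∧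
      ∑ m ∈ S, msq m * ‖fc (mE ω h t s) m‖ ^ 2 ≤ Bn / (Real.pi ^ 2 * ω ^ 2)

/-- The block theorem. -/
def BlockBStmt : Prop :=
  ∀ (ι κ : Type) [Fintype ι] [DecidableEq ι] [Fintype κ] (Γ : AddSubgroup (κ → ℝ))
    (J : Finset ι) (s : ι → κ → ℤ) (β μ R sp nb ω A1 e1 Λ c2 Θ : ℝ) (L : ℕ),
    BHyp Γ J s β μ R sp nb → 0 < ω → ω ≤ 1 / 8 → 0 ≤ A1 → 0 ≤ e1 → FlatAt ω Γ J s A1 e1 →
    0 < Λ → 0 < c2 → 1 ≤ L → Far Γ J s (Λ ^ 2 * cd κ) (c2 * cd κ) L →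
    64 * Λ ^ 2 * β ^ 2 / c2 ≤ Θ →
    BlockB ω ((2 + 4 * Θ / ω ^ 2) * A1 + Θ / (ω * L))
      ((2 + 4 * Θ / ω ^ 2) * e1 + 28 * β * Real.sqrt β / (ω ^ 2 * Λ)) Γ J s

/-- From `Span` to `Far` and `Lat`. -/
def FarStmt : Prop :=
  ∀ (ι κ : Type) [Fintype ι] [DecidableEq ι] [Fintype κ] (Γ : AddSubgroup (κ → ℝ))
    (J : Finset ι) (s : ι → κ → ℤ),
    (∀ (sp' : ℕ) (a c2 : ℝ), 0 ≤ a → (∀ n : κ → ℤ, (fun k => (n k : ℝ)) ∈ Γ) →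
      Span Γ J s sp' a c2 → Lat Γ c2) ∧
    ∀ (β μ R sp nb Λ c2 L : ℝ) (sp' : ℕ), BHyp Γ J s β μ R sp nb → 0 < Λ → c2 ≤ Λ ^ 2 → 0 < L →
      1024 * L ^ 2 * β * Λ ^ 2 ≤ sp' → (sp' : ℝ) ≤ sp → 32 * R ≤ cd κ →
      256 * Λ ^ 2 * μ * L ≤ cd κ → Span Γ J s sp' (6 * Λ) (c2 * cd κ) →
      Far Γ J s (Λ ^ 2 * cd κ) (c2 * cd κ) L

/-- Consequences of restricted isometry. -/
def ChunkStmt : Prop :=
  ∀ (ι κ : Type) [Fintype ι] [DecidableEq ι] [Fintype κ] (J : Finset ι) (s : ι → κ → ℤ),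
    (∀ (K : ℝ) (sp sp2 : ℕ), 0 ≤ K → 1 ≤ sp → sp ≤ sp2 → RipAll J s K sp2 →
      Rip J s (K * Real.sqrt (2 * cd κ * sp)) sp) ∧
    (∀ (K : ℝ) (sp2 : ℕ), 1 ≤ sp2 → RipAll J s K sp2 →
      ∀ j ∈ J, ∀ l ∈ J, j ≠ l → |gram s j l| ≤ K * Real.sqrt (2 * cd κ)) ∧
    (∀ R sp : ℝ, 0 ≤ R → 0 < sp → (∀ j k, |(s j k : ℝ)| ≤ 1) → Rip J s R sp →
      ∀ T ⊆ J, Op T s (cd κ + 2 * R + 2 * R * T.card / sp)) ∧
    ∀ Bn : ℝ, 0 ≤ Bn → (Op J s Bn ↔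
      ∀ z : ι → ℝ, ∑ k, (∑ j ∈ J, z j * s j k) ^ 2 ≤ Bn * ∑ j ∈ J, z j ^ 2)

/-- The block theorem with all parameters expressed by `Y`. -/
def BlockNumStmt : Prop :=
  ∀ (ι κ : Type) [Fintype ι] [DecidableEq ι] [Fintype κ] (Γ : AddSubgroup (κ → ℝ))
    (J : Finset ι) (s : ι → κ → ℤ) (Y K β ω : ℝ) (sp2 : ℕ),
    10 ^ 7 ≤ Y → Y ^ 70 ≤ cd κ → (∀ n : κ → ℤ, (fun k => (n k : ℝ)) ∈ Γ) →
    (∀ j, Dual Γ (s j)) → (∀ j, j ∉ J → s j = 0) → (∀ j k, |(s j k : ℝ)| ≤ 1) →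
    (∀ j ∈ J, cd κ / 4 ≤ gram s j j) → 0 ≤ K → K ≤ Y → cd κ ≤ Y * sp2 → RipAll J s K sp2 →
    1 ≤ β → β ≤ Y → Op J s (β * cd κ) → (J.card : ℝ) ≤ Y * cd κ → (J.card : ℝ) ≤ Real.exp Y →
    1 / Y ≤ ω → ω ≤ 1 / 8 → Span Γ J s ⌊cd κ / Y ^ 48⌋₊ (6 * Y ^ 6) (cd κ / 10 ^ 6) →
    BlockB ω (Y ^ 50 / Real.sqrt (cd κ)) (1 / Y) Γ J s

/-- The block theorem with the other coordinates frozen, averaged over the whole torus. -/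
def FreezeStmt : Prop :=
  ∀ (ι K κ : Type) [Fintype ι] [DecidableEq ι] [Fintype K] [Fintype κ]
    (Γ : AddSubgroup (K → ℝ)) (Γt : AddSubgroup (κ → ℝ)) (J : Finset ι) (s : ι → K → ℤ)
    (S : ι → κ → ℤ) (emb : (K → ℝ) → (κ → ℝ)) (c : ι → ℝ) (f : (ι → ℤ) → ℝ) (ω A ε : ℝ),
    0 < ω → ω ≤ 1 / 8 → 0 ≤ A → BlockB ω A ε Γ J s →
    (∀ j, j ∉ J → s j = 0) → Measurable emb → (∀ η, lin S (emb η) = lin s η) →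
    (∀ n : κ → ℤ, (fun k => (n k : ℝ)) ∈ Γt) → U01 f → Inv Γ s f → Inv Γt S f →
    tm (fun β => Q1 ω 1 J f (c + lin S β)) ≤ A * tm (fun β => Inf ω J f (c + lin S β)) + ε

/-- Variance on the torus of the fibre mean. -/
def TVBStmt : Prop :=
  ∀ (ι B : Type) [Fintype ι] [DecidableEq ι] [Fintype B] [DecidableEq B] (M : B → ℕ)
    (blk : B → Finset ι) (s : (J : B) → ι → Fin (M J) → ℤ)
    (Γ : (J : B) → AddSubgroup (Fin (M J) → ℝ)) (F β c2 ω : ℝ) (c : ι → ℝ) (f : (ι → ℤ) → ℝ),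
    0 < ω → ω ≤ 1 / 8 → 0 < c2 → 0 ≤ β → (∀ J j, j ∉ blk J → s J j = 0) →
    (∀ i, ((univ.filter fun J => i ∈ blk J).card : ℝ) ≤ F) →
    (∀ J, Op (blk J) (s J) (β * M J)) → (∀ J, Lat (Γ J) (c2 * M J)) →
    (∀ J j, Dual (Γ J) (s J j)) → U01 f → Inv (tl Γ) (tc s) f →
    tm (fun η => Ey ω f (c + lin (tc s) η) ^ 2) - tm (fun η => Ey ω f (c + lin (tc s) η)) ^ 2 ≤
      F * β / (c2 * ω ^ 2) * tm fun η => W1 ω univ f (c + lin (tc s) η)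

/-- The isoperimetric inequality of the model. -/
def IsoStmt : Prop :=
  ∀ (ι B : Type) [Fintype ι] [DecidableEq ι] [Fintype B] [DecidableEq B] (M : B → ℕ)
    (blk : B → Finset ι) (s : (J : B) → ι → Fin (M J) → ℤ)
    (Γ : (J : B) → AddSubgroup (Fin (M J) → ℝ)) (lev : B → ℕ) (t0 D : ℕ) (A : ℕ → ℝ)
    (F β c2 ω Q ε : ℝ) (c : ι → ℝ) (f : (ι → ℤ) → ℝ),
    0 < ω → ω ≤ 1 / 8 → 0 < c2 → 0 ≤ β → 0 ≤ F → 0 ≤ ε → (∀ t, 0 ≤ A t) → 1 ≤ t0 → 1 ≤ D →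
    (∀ J j, j ∉ blk J → s J j = 0) →
    (∀ i, ((univ.filter fun J => i ∈ blk J).card : ℝ) ≤ F) →
    (∀ J, Op (blk J) (s J) (β * M J)) → (∀ J, Lat (Γ J) (c2 * M J)) →
    (∀ J j, Dual (Γ J) (s J j)) →
    (∀ t < t0, ∀ S : Finset ι, 2 ^ t ≤ S.card → S.card < 2 * 2 ^ t →
      (D : ℝ) * 2 ^ t / 2 ≤ (univ.filter fun J => lev J = t ∧ (S ∩ blk J).card = 1).card) →
    (∀ t i, (univ.filter fun J => lev J = t ∧ i ∈ blk J).card ≤ D) →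
    (∀ t, ((univ.filter fun J => lev J = t).card : ℝ) ≤ D * Q * 2 ^ t) →
    (∀ J, BlockB ω (A (lev J)) ε (Γ J) (blk J) (s J)) →
    (∀ x, f x = 0 ∨ f x = 1) → Inv (tl Γ) (tc s) f →
    tm (fun η => Ey ω f (c + lin (tc s) η)) * (1 - tm fun η => Ey ω f (c + lin (tc s) η)) ≤
      (∑ t ∈ range t0, 2 * A t / 2 ^ t + 1 / 2 ^ t0 + 2 * A 0 * (F * β / (c2 * ω ^ 2))) *
          tm (fun η => Inf ω univ f (c + lin (tc s) η)) +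
        2 * Q * ε * (t0 + F * β / (c2 * ω ^ 2))

/-! ### Geometry -/

/-- Patterns: approximation and counting. -/
def PatStmt : Prop :=
  ∀ (B : Type) [Fintype B] [DecidableEq B] (M : B → ℕ) (g : ℕ),
    (∀ π : Pat M g, pJ π ⊆ pS π) ∧
    (∀ (Δ : Kt M → ℝ) (S S' : Finset B), 1 ≤ g → (∀ x, |Δ x| ≤ 1) → S' ⊆ S →
      ∃ π : Pat M g, pS π = S ∧ pJ π = S' ∧ (∀ x, x.1 ∈ S → |pD π x - Δ x| ≤ 1 / g) ∧
        ∀ x, x.1 ∉ S → pD π x = 0) ∧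
    ∀ a : B → ℝ, ∑ π : Pat M g, (if pS π = ∅ then 0 else Real.exp (-∑ J ∈ pS π, a J)) ≤
      Real.exp (∑ J, 2 * (2 * g + 1 : ℝ) ^ M J * Real.exp (-a J)) - 1

/-- Decomposition into blocks, reduction, drift of the small blocks. -/
def BasicStmt : Prop :=
  ∀ (ι B : Type) [Fintype ι] [DecidableEq ι] [Fintype B] [DecidableEq B] (M : B → ℕ)
    (blk : B → Finset ι) (s : (J : B) → ι → Fin (M J) → ℤ)
    (Γ : (J : B) → AddSubgroup (Fin (M J) → ℝ)) (F Kb Lm Cn : ℝ), GSys blk s Γ F Kb Lm Cn →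
    (∀ (Δ : Kt M → ℝ) i, lin (tc s) Δ i = ∑ J, ip (s J i) (res Δ J)) ∧
    (∀ Δ : Kt M → ℝ, ∃ (Δ' : Kt M → ℝ) (r : ι → ℤ), (∀ J, Red (Γ J) (res Δ' J)) ∧
      ∀ i, lin (tc s) Δ i = lin (tc s) Δ' i + r i) ∧
    (∀ (Δ : Kt M → ℝ) (e : ℝ), 0 ≤ e → (∀ x, |Δ x| ≤ e) → ∀ i, |lin (tc s) Δ i| ≤ Cn * e) ∧
    (∀ S : Finset B, wsz blk S ≤ F * (zone blk S).card ∧ ((zone blk S).card : ℝ) ≤ wsz blk S) ∧
    (∀ (Δ : Kt M → ℝ) (S : Finset B) i, i ∉ zone blk S → ∑ J ∈ S, ip (s J i) (res Δ J) = 0) ∧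
    ∀ (Δ : Kt M → ℝ) (S : Finset B) (T : Finset ι) (θ2 : ℝ), 0 ≤ θ2 →
      (∀ J ∈ S, nsq (res Δ J) ≤ θ2) →
      ∑ i ∈ T, (∑ J ∈ S, ip (s J i) (res Δ J)) ^ 2 ≤
        F * Kb / Lm * ∑ J ∈ S, ((blk J).card : ℝ) * nsq (res Δ J) + F ^ 2 * Kb * θ2 * T.card

/-- Drifts are far from the integer points. -/
def GammaStmt : Prop :=
  ∀ (ι B : Type) [Fintype ι] [DecidableEq ι] [Fintype B] [DecidableEq B] (M : B → ℕ)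
    (blk : B → Finset ι) (s : (J : B) → ι → Fin (M J) → ℤ)
    (Γ : (J : B) → AddSubgroup (Fin (M J) → ℝ)) (F Kb Lm Cn Υ : ℝ) (g k0 : ℕ),
    GSys blk s Γ F Kb Lm Cn → C1 blk s Γ g Υ → F * cd ι ≤ 2 ^ k0 →
    2048000 * (k0 + 2) * F ^ 3 * Kb ≤ Υ → 2048000 * (k0 + 2) * F ^ 2 * Kb ≤ Lm →
    320 * Cn ^ 2 * 2 ^ k0 ≤ g → Gam blk s Γ (1 / (256000 * (k0 + 2) * F))

/-- The orthogonal projection. -/
def ProjStmt : Prop :=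
  (∀ (ι κ : Type) [Fintype ι] [DecidableEq ι] [Fintype κ] (S : ι → κ → ℤ),
    (∃ Sp : (ι → ℝ) →ₗ[ℝ] (κ → ℝ), IsProj S Sp) ∧
    ∀ Sp : (ι → ℝ) →ₗ[ℝ] (κ → ℝ), IsProj S Sp →
      (∀ z β, perp S Sp (z + lin S β) = perp S Sp z) ∧
      (∀ z z', perp S Sp (z - z') = perp S Sp z - perp S Sp z') ∧
      (∀ z, ∑ j, perp S Sp z j ^ 2 ≤ ∑ j, z j ^ 2) ∧
      (∀ (c : ι → ℝ) β b, vv S Sp c (pt (c + lin S β) b) = perp S Sp (zz (c + lin S β) b)) ∧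
      (∀ (c : ι → ℝ) ρ (r x : ι → ℤ), (∀ j, (r j : ℝ) = lin S ρ j) →
        vv S Sp c (x + r) = vv S Sp c x) ∧
      ∀ z i, lin S (Sp z) i = ∑ j, lin S (Sp (Pi.single j 1)) i * z j) ∧
  ∀ (ι B : Type) [Fintype ι] [DecidableEq ι] [Fintype B] [DecidableEq B] (M : B → ℕ)
    (blk : B → Finset ι) (s : (J : B) → ι → Fin (M J) → ℤ)
    (Γ : (J : B) → AddSubgroup (Fin (M J) → ℝ)) (F Kb Lm Cn γ1 : ℝ)
    (Sp : (ι → ℝ) →ₗ[ℝ] (Kt M → ℝ)), GSys blk s Γ F Kb Lm Cn → 0 < γ1 → Gam blk s Γ γ1 →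
    IsProj (tc s) Sp →
    ∀ i, ∑ j, lin (tc s) (Sp (Pi.single j 1)) i ^ 2 ≤ F / (Lm * γ1)

/-- Forced flips. -/
def ClaimAStmt : Prop :=
  ∀ (ι B : Type) [Fintype ι] [DecidableEq ι] [Fintype B] [DecidableEq B] (M : B → ℕ)
    (blk : B → Finset ι) (s : (J : B) → ι → Fin (M J) → ℤ)
    (Γ : (J : B) → AddSubgroup (Fin (M J) → ℝ)) (F Kb Lm Cn γ1 τ δ1 Υ ϑ ϑ1 ϑ2 δ3 ηa : ℝ) (g : ℕ)
    (u u' : ι → ℝ) (Δ : Kt M → ℝ) (x : ι → ℤ),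
    GSys blk s Γ F Kb Lm Cn → C1 blk s Γ g Υ → Gam blk s Γ γ1 →
    APar F Kb Lm Cn γ1 τ Υ ϑ ϑ1 ϑ2 δ3 ηa g → GoodB blk s g τ δ1 Υ ϑ1 ϑ2 δ3 u →
    (∀ i, |u' i| ≤ 1 / 2 + τ) → (∀ J, Red (Γ J) (res Δ J)) →
    (∀ i, u i - u' i = x i - lin (tc s) Δ i) →
    ηa * (zone blk (univ.filter fun J => ηa ^ 2 ≤ nsq (res Δ J))).card ≤
      102400 * ∑ i, (u i - u' i) ^ 2

/-- The near triangle inequality for good vertices. -/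
def TriBStmt : Prop :=
  ∀ (ι B : Type) [Fintype ι] [DecidableEq ι] [Fintype B] [DecidableEq B] (M : B → ℕ)
    (blk : B → Finset ι) (s : (J : B) → ι → Fin (M J) → ℤ)
    (Γ : (J : B) → AddSubgroup (Fin (M J) → ℝ)) (F Kb Lm Cn γ1 τ δ1 Υ ϑ ϑ1 ϑ2 δ3 ηa d : ℝ)
    (g : ℕ) (Sp : (ι → ℝ) →ₗ[ℝ] (Kt M → ℝ)) (c : ι → ℝ),
    GSys blk s Γ F Kb Lm Cn → C1 blk s Γ g Υ → Gam blk s Γ γ1 →
    APar F Kb Lm Cn γ1 τ Υ ϑ ϑ1 ϑ2 δ3 ηa g → TPar F Kb Lm Cn γ1 τ δ1 ηa d g →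
    IsProj (tc s) Sp → ∀ x x' x'' : ι → ℤ,
      GoodB blk s g τ δ1 Υ ϑ1 ϑ2 δ3 (vv (tc s) Sp c x) →
      GoodB blk s g τ δ1 Υ ϑ1 ϑ2 δ3 (vv (tc s) Sp c x') →
      GoodB blk s g τ δ1 Υ ϑ1 ϑ2 δ3 (vv (tc s) Sp c x'') →
      rr (tc s) Sp c x x'' ≤
        rr (tc s) Sp c x x' + rr (tc s) Sp c x' x'' + 20 * d * rr (tc s) Sp c x x'

/-- Weighted one-sided tail bound, and three means. -/
def ChernBStmt : Prop :=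
  (∀ (ι : Type) [Fintype ι] [DecidableEq ι] (ω θ E : ℝ) (a : ι → ℝ) (φ : ι → ℝ → ℝ) (t : ι → ℝ),
    0 < ω → ω ≤ 1 / 8 → 0 ≤ θ → (∀ j, θ * a j ≤ 1 / 2) → (∀ j, Measurable (φ j)) →
    (∀ j z, |z| ≤ 1 → |φ j z| ≤ a j) →
    tm (fun c => Eb (py ω (c + t)) fun b =>
        ind (E ≤ ∑ j, (φ j (zz (c + t) b j) - zmean ω (φ j)))) ≤
      Real.exp (4 * θ ^ 2 * ∑ j, a j ^ 2 - θ * E)) ∧
  ∀ ω : ℝ, 0 < ω → ω ≤ 1 / 8 →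
    (∀ w : ℝ, zmean ω (fun z => z ^ 2 - nd (z + w) ^ 2) ≤ 2 * ω) ∧
    (∀ w τ : ℝ, |w| ≤ 1 / 2 → 0 ≤ τ →
      zmean ω (fun z => -ind (1 / 2 + τ < |z + w|)) ≤ -max (|w| - τ - ω) 0) ∧
    (∀ a : ℝ, zmean ω (fun z => a * z) = 0) ∧
    ∀ (ι : Type) [Fintype ι] [DecidableEq ι] (y : ι → ℝ) (b : ι → Bool),
      wt (py ω y) b ≠ 0 → ∀ i, |zz y b i| ≤ 1 / 2 + ω

/-- There is an offset for which almost all samples are nice. -/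
def TypStmt : Prop :=
  ∀ (ι B : Type) [Fintype ι] [DecidableEq ι] [Fintype B] [DecidableEq B] (M : B → ℕ)
    (blk : B → Finset ι) (s : (J : B) → ι → Fin (M J) → ℤ) (Sp : (ι → ℝ) →ₗ[ℝ] (Kt M → ℝ))
    (ω Pm s1 δ1' Υ ϑ1 δ3 a : ℝ) (g : ℕ),
    0 < ω → ω ≤ 1 / 8 → 0 < Pm → 0 ≤ s1 → s1 ≤ 1 / 160 → 0 ≤ δ1' → δ1' ≤ 1 → 0 < Υ → 0 ≤ ϑ1 →
    0 ≤ δ3 → δ3 ≤ 1 → a ≤ δ1' ^ 2 / 16 → a ≤ δ3 ^ 2 / (16 * Υ) →
    (∀ i, ∑ j, lin (tc s) (Sp (Pi.single j 1)) i ^ 2 ≤ Pm) →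
    BM (fun y : ι → ℝ => Eb (py ω y) fun b => ind (¬ Nice (tc s) Sp
      (GoodB blk s g (ω + s1) (δ1' + 2 * ω + 3 * s1) Υ ϑ1 (2 * ω + 2 * s1 + ϑ1) δ3) (zz y b))) ∧
    ∃ c : ι → ℝ, (∀ j, |c j| ≤ 1) ∧
      tm (fun β => Eb (py ω (c + lin (tc s) β)) fun b => ind (¬ Nice (tc s) Sp
        (GoodB blk s g (ω + s1) (δ1' + 2 * ω + 3 * s1) Υ ϑ1 (2 * ω + 2 * s1 + ϑ1) δ3)
          (zz (c + lin (tc s) β) b))) ≤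
        2 * cd ι * Real.exp (1 - s1 / (2 * Real.sqrt Pm)) +
          2 * (Real.exp (∑ J, 2 * (2 * g + 1 : ℝ) ^ M J * Real.exp (-(a * (blk J).card))) - 1)

/-- Collapse of the bad vertices and snowflake. -/
def MetricBStmt : Prop :=
  ∀ (ι κ : Type) [Fintype ι] [DecidableEq ι] [Nonempty ι] [Fintype κ]
    (Γ : AddSubgroup (κ → ℝ)) (S : ι → κ → ℤ) (Sp : (ι → ℝ) →ₗ[ℝ] (κ → ℝ)) (c : ι → ℝ)
    (G : (ι → ℝ) → Prop) (ω Kp α pb : ℝ),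
    IsProj S Sp → (∀ j, ∃ k, S j k = 1 ∨ S j k = -1) → 0 < ω → ω ≤ 1 / 8 →
    (∀ u, G u → ∀ i, |u i| ≤ 1) →
    (∀ x x' x'', G (vv S Sp c x) → G (vv S Sp c x') → G (vv S Sp c x'') →
      rr S Sp c x x'' ≤ rr S Sp c x x' + rr S Sp c x' x'' + Kp * rr S Sp c x x') →
    0 ≤ Kp → 0 < α → α ≤ 1 → (2 + Kp) ^ α ≤ 2 → 0 ≤ pb → pb ≤ 1 / 20 →
    BM (fun y : ι → ℝ => Eb (py ω y) fun b => ind (¬ Nice S Sp G (zz y b))) →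
    tm (fun β => Eb (py ω (c + lin S β)) fun b => ind (¬ Nice S Sp G (zz (c + lin S β) b))) ≤ pb →
    ∃ dd, MetricAt ω (cd ι + 16 * cd ι ^ 2 * Real.sqrt pb / ω) ((cd ι / 51200) ^ α) Γ S c dd

/-- The geometry with all parameters expressed by `X`. -/
def GeoNumStmt : Prop :=
  ∀ (ι B : Type) [Fintype ι] [DecidableEq ι] [Fintype B] [DecidableEq B] (M : B → ℕ)
    (blk : B → Finset ι) (s : (J : B) → ι → Fin (M J) → ℤ)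
    (Γ : (J : B) → AddSubgroup (Fin (M J) → ℝ)) (X : ℝ),
    10 ^ 7 ≤ X → 20 * Real.log (cd ι) ≤ X → X ^ 100 ≤ cd ι →
    GSys blk s Γ (X ^ 2) X (X ^ 57) (cd ι ^ 2) → C1 blk s Γ (Fintype.card ι ^ 8) (X ^ 36) →
    cd B ≤ cd ι ^ 2 → (∀ J, X ≤ M J) → (∀ i, ∃ x, tc s i x = 1 ∨ tc s i x = -1) →
    ∃ (c : ι → ℝ) (dd : (ι → ℤ) → (ι → ℤ) → ℝ), (∀ j, |c j| ≤ 1) ∧
      MetricAt (1 / X ^ 13) (2 * cd ι) (cd ι / 200000) (tl Γ) (tc s) c dd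

/-! ### Existence -/

/-- Character sums. -/
def CharStmt : Prop :=
  ∀ (M r p : ℕ) [Fact p.Prime] (H : Fin r → Fin M → ZMod p),
    (4 : ℝ) ^ M ≤ (p : ℝ) ^ r * (code H).card ∧ (∀ m, Dual (GH H) m ↔ inK H m) ∧
    (256 ≤ M → (p : ℝ) ^ r ≤ Real.exp (M / 64) → MinD H →
      RowOK (GH H) (code H) (Real.exp (-(M / 64 : ℝ))))

/-- Integer points in balls, nets, small subsets. -/
def BallStmt : Prop :=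
  (∀ (κ : Type) [Fintype κ] (S : Finset (κ → ℤ)) (R x : ℝ), 0 < x → x < 1 →
    (∀ z ∈ S, ∑ k, |(z k : ℝ)| ≤ R) →
    (S.card : ℝ) ≤ Real.exp (-(R * Real.log x)) * ((1 + x) / (1 - x)) ^ Fintype.card κ) ∧
  (∀ (κ : Type) [Fintype κ], ∃ S : Finset (κ → ℝ),
    (S.card : ℝ) ≤ (2 ^ 18) ^ Fintype.card κ ∧ (∀ v ∈ S, nsq v ≤ 1) ∧
      ∀ v : κ → ℝ, nsq v ≤ 1 → ∃ v' ∈ S, nsq (v - v') ≤ 1 / 16) ∧
  ∀ (ι : Type) [Fintype ι] [DecidableEq ι] (sp : ℕ),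
    (univ.filter fun T : Finset ι => T.card ≤ sp).card ≤ (Fintype.card ι + 1) ^ sp

/-- Choice of the parity checks. -/
def HStmt : Prop :=
  ∀ (M r p : ℕ) [Fact p.Prime] (ι : Type) [Fintype ι] [DecidableEq ι] (sp : ℕ) (a : ℝ),
    256 ≤ M → (p : ℝ) ^ r ≤ Real.exp (M / 64) → 0 ≤ a →
    ∃ H : Fin r → Fin M → ZMod p, MinD H ∧
      av (fun x : ι → code H => ind (Bad1 H (fun i => rw (x i).1) sp a (M / 10 ^ 6))) ≤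
        2 * ((cd ι + 1) * (2000 * a * sp + 3)) ^ sp * Real.exp (M / 512) / (p : ℝ) ^ r

/-- Combinations modulo `p`. -/
def E3Stmt : Prop :=
  ∀ (M p : ℕ) [Fact p.Prime] (ι : Type) [Fintype ι] [DecidableEq ι],
    (∀ (T : Finset (Fin M → Bool × Bool)) (Dm : ℝ) (sp B : ℕ), T.Nonempty →
      (4 : ℝ) ^ M ≤ Dm * T.card →
      av (fun x : ι → T => ind (Bad3 p (fun i => rw (x i).1) sp B)) ≤
        sp * ((cd ι + 1) * p) ^ sp * Dm / 2 ^ M) ∧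
    ∀ (r : ℕ) (H : Fin r → Fin M → ZMod p) (Γ : AddSubgroup (Fin M → ℝ)) (s : ι → Fin M → ℤ)
      (sp B : ℕ) (a c2 : ℝ), (∀ m, Dual Γ m → inK H m) → (∀ j k, |(s j k : ℝ)| ≤ 1) → 0 ≤ a →
      Real.sqrt c2 + a * sp ≤ B → B * (2 * sp + 2) < p →
      ¬ Bad1 H s sp a c2 → ¬ Bad3 p s sp 0 → ¬ Bad3 p s sp B → Span Γ univ s sp a c2

/-- The lattice and the row distribution. -/
def CodeStmt : Prop :=
  ∃ M0 : ℕ, ∀ M : ℕ, M0 ≤ M → ∀ (ι : Type) [Fintype ι] [DecidableEq ι] (sp : ℕ) (a : ℝ),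
    0 ≤ a → a ≤ M → sp * (Real.log (cd ι + 1) + 5 * Real.log M) ≤ M / 512 →
    ∃ (Γ : AddSubgroup (Fin M → ℝ)) (T : Finset (Fin M → Bool × Bool)),
      RowOK Γ T (Real.exp (-(M / 64 : ℝ))) ∧
      av (fun x : ι → T => ind (¬ Span Γ univ (fun i => rw (x i).1) sp a (M / 10 ^ 6))) ≤
        Real.exp (-(M / 512 : ℝ))

/-- Restricted isometry for independent subgaussian rows. -/
def RipStmt : Prop :=
  ∃ C : ℝ, 1 ≤ C ∧ ∀ (ι : Type) [Fintype ι] [DecidableEq ι] (M : ℕ)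
    (T : Finset (Fin M → Bool × Bool)) (τ0 Lg : ℝ) (sp : ℕ),
    T.Nonempty → 0 ≤ τ0 → τ0 ≤ 1 → SG T τ0 → Real.log (cd ι) + 1 ≤ Lg → C * sp * Lg ≤ M →
    av (fun x : ι → T =>
        ind (¬ RipAll univ (fun i => rw (x i).1) (Real.sqrt (C * Lg)) sp)) ≤
      1 / cd ι + Real.exp (-(M : ℝ))

/-- The property `C1` for independent rows. -/
def C1Stmt : Prop :=
  ∀ (ι A : Type) [Fintype ι] [DecidableEq ι] [Fintype A] [DecidableEq A] (m Mf : A → ℕ)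
    (π : (a : A) → ι → Fin (m a)) (Γ : (a : A) → AddSubgroup (Fin (Mf a) → ℝ))
    (T : (a : A) → Finset (Fin (Mf a) → Bool × Bool)) (g : ℕ) (Υ : ℝ),
    0 < Υ → (∀ a, (T a).Nonempty) → (∀ a, SB (Γ a) (T a)) →
    av (fun x : (a : A) → ι → T a =>
        ind (¬ C1 (M := fun J : Bk m => Mf J.1) (bk π) (sb π fun a i => rw (x a i).1)
          (fun J => Γ J.1) g Υ)) ≤
      Real.exp (∑ J : Bk m,
        2 * (2 * g + 1 : ℝ) ^ Mf J.1 * Real.exp (-(((bk π J).card : ℝ) / (160 * Υ)))) - 1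

/-- Balanced partitions with many unique elements. -/
def HashStmt : Prop :=
  ∀ (ι : Type) [Fintype ι] [DecidableEq ι] (D m d : ℕ), 1 ≤ d → 1024 * d ≤ m →
    2 * Real.log (cd ι) + 2 ≤ D → 4 * D * m * Real.exp (-(cd ι / (8 * m))) ≤ 1 →
    ∃ π : Fin D → ι → Fin m,
      (∀ a j, cd ι / (2 * m) ≤ (univ.filter fun i => π a i = j).card ∧
        ((univ.filter fun i => π a i = j).card : ℝ) ≤ 2 * cd ι / m) ∧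
      ∀ S : Finset ι, d ≤ S.card → S.card < 2 * d → (D : ℝ) * d / 2 ≤
        ∑ a, ((univ.filter fun j => (S ∩ univ.filter fun i => π a i = j).card = 1).card : ℝ)

/-- The system exists. -/
def SysStmt : Prop :=
  ∃ C : ℝ, 1 ≤ C ∧ ∀ (N : ℕ) (X : ℝ), C ≤ X → C * Real.log N ≤ X → X ^ 13000 ≤ N →
    ∃ (B : Type) (_ : Fintype B) (_ : DecidableEq B) (M : B → ℕ) (blk : B → Finset (Fin N))
      (s : (J : B) → Fin N → Fin (M J) → ℤ) (Γ : (J : B) → AddSubgroup (Fin (M J) → ℝ))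
      (lev : B → ℕ) (t0 D : ℕ), XSys blk s Γ lev t0 D X

/-- The instances. -/
def InstBStmt : Prop :=
  ∃ (C : ℝ) (e : ℕ), 1 ≤ C ∧ ∀ (N : ℕ) (X : ℝ), C ≤ X → C * Real.log N ≤ X → X ^ e ≤ N →
    ∀ n : ℕ, Real.exp (X * N) ≤ n → Real.sqrt N / X ^ e ≤ gap n

/-- The result. -/
def FinalBStmt : Prop :=
  ∃ (C : ℕ) (c : ℝ), 0 < c ∧ ∃ n0 : ℕ, ∀ n : ℕ, n0 ≤ n →
    c * Real.sqrt (Real.log n) / Real.log (Real.log n) ^ C ≤ gap n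

end Vale.Agent.P318.B
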