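import Vale.Agent.P318.B.Stmt

/-! Existence of the system: averages, one family of rows, restriction to a block. -/

namespace Vale.Agent.P318.B.Sys

open Finset Vale.Agent.P318.M

theorem ind_nonneg (P : Prop) : 0 ≤ ind P := by
  unfold ind
  split_ifs <;> norm_num

theorem ind_of {P : Prop} (h : P) : ind P = 1 := if_pos h

theorem ind_le {P : Prop} {a : ℝ} (h0 : 0 ≤ a) (h1 : P → 1 ≤ a) : ind P ≤ a := by
  unfold ind
  split_ifs with h
  exacts [h1 h, h0]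

section av

variable {α : Type} [Fintype α]

theorem av_mono {f g : α → ℝ} (h : ∀ x, f x ≤ g x) : av f ≤ av g :=
  div_le_div_of_nonneg_right (sum_le_sum fun x _ => h x) (Nat.cast_nonneg _)

theorem av_add (f g : α → ℝ) : av (fun x => f x + g x) = av f + av g := by
  simp only [av, sum_add_distrib, add_div]

theorem av_sum {β : Type} [Fintype β] (f : β → α → ℝ) :
    av (fun x => ∑ b, f b x) = ∑ b, av (f b) := by
  simp only [av, sum_div]
  exact sum_comm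

theorem exists_lt_one [Nonempty α] {f : α → ℝ} (h : av f < 1) : ∃ x, f x < 1 := by
  by_contra h'
  have h1 := av_mono (f := fun _ => 1) fun x => not_lt.1 (not_exists.1 h' x)
  have h2 : av (fun _ : α => (1 : ℝ)) = 1 := by simp [av]
  linarith

theorem av_eval {A : Type} [Fintype A] [DecidableEq A] {β : A → Type} [∀ a, Fintype (β a)]
    [∀ a, Nonempty (β a)] (a : A) (f : β a → ℝ) : av (fun x : (a : A) → β a => f (x a)) = av f := by
  rw [av, av, Fintype.sum_equiv (Equiv.piSplitAt a β) (fun x => f (x a)) (fun y => f y.1)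
    fun _ => rfl,
    Fintype.card_congr (Equiv.piSplitAt a β), Fintype.sum_prod_type, Fintype.card_prod]
  simp only [sum_const, card_univ, nsmul_eq_mul, ← mul_sum, Nat.cast_mul]
  rw [mul_comm (Fintype.card (β a) : ℝ), mul_div_mul_left _ _ (by positivity)]

end av

variable {ι : Type} [Fintype ι] [DecidableEq ι] {M : ℕ}

/-- a good family of rows -/
structure LG (Γ : AddSubgroup (Fin M → ℝ)) (r : ι → Fin M → ℤ) (X : ℝ) : Prop where
  span : Span Γ univ r ⌊(M : ℝ) / (X ^ 90) ^ 48⌋₊ (6 * (X ^ 90) ^ 6) (M / 10 ^ 6)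
  rip : ∃ (K : ℝ) (sp : ℕ), 0 ≤ K ∧ K ≤ X ∧ 1 ≤ sp ∧ K ^ 2 * sp ≤ M ∧ 3 * M ≤ X * sp ∧
    RipAll univ r K sp
  nrm : ∀ i, (M : ℝ) / 4 ≤ msq (r i)

theorem exists_level {C0 X : ℝ} {M0 N : ℕ}
    (hCo : ∀ M : ℕ, M0 ≤ M → ∀ (ι : Type) [Fintype ι] [DecidableEq ι] (sp : ℕ) (a : ℝ),
      0 ≤ a → a ≤ M → sp * (Real.log (cd ι + 1) + 5 * Real.log M) ≤ M / 512 →
      ∃ (Γ : AddSubgroup (Fin M → ℝ)) (T : Finset (Fin M → Bool × Bool)),
        RowOK Γ T (Real.exp (-(M / 64 : ℝ))) ∧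
        av (fun x : ι → T => ind (¬ Span Γ univ (fun i => rw (x i).1) sp a (M / 10 ^ 6))) ≤
          Real.exp (-(M / 512 : ℝ)))
    (C1 : 1 ≤ C0) (hR : ∀ (ι : Type) [Fintype ι] [DecidableEq ι] (M : ℕ)
      (T : Finset (Fin M → Bool × Bool)) (τ0 Lg : ℝ) (sp : ℕ),
      T.Nonempty → 0 ≤ τ0 → τ0 ≤ 1 → SG T τ0 → Real.log (cd ι) + 1 ≤ Lg → C0 * sp * Lg ≤ M →
      av (fun x : ι → T =>
          ind (¬ RipAll univ (fun i => rw (x i).1) (Real.sqrt (C0 * Lg)) sp)) ≤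
        1 / cd ι + Real.exp (-(M : ℝ)))
    (hX : 10 ^ 4 ≤ X) (h0 : M0 ≤ X) (L1 : 1 ≤ Real.log N) (hL : 10 ^ 4 * Real.log N ≤ X)
    (hL' : 12 * C0 * Real.log N ≤ X) (hM : X ^ 6000 ≤ M) (hMN : M ≤ N) :
    ∃ (Γ : AddSubgroup (Fin M → ℝ)) (T : Finset (Fin M → Bool × Bool)) (τ : ℝ), RowOK Γ T τ ∧
      av (fun x : Fin N → T => ind (¬ LG Γ (fun i => rw (x i).1) X)) ≤ 4 / N := by
  have X1 : 1 ≤ X := by linarith
  have hp : ∀ {a b : ℕ}, a ≤ b → X ^ a ≤ X ^ b := fun h => pow_le_pow_right₀ X1 h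
  have M2 : X ^ 2 ≤ M := (hp (by norm_num)).trans hM
  have M1 : 10 ^ 4 * X ≤ M := by nlinarith
  have hMN' : (M : ℝ) ≤ N := by exact_mod_cast hMN
  have N0 : (0 : ℝ) < N := by linarith
  have hc : cd (Fin N) = N := by simp [cd]
  set L := Real.log N with hLd
  have eL : ∀ z : ℝ, L ≤ z → Real.exp (-z) ≤ 1 / N := fun z hz => by
    rw [one_div, ← Real.exp_log N0, ← Real.exp_neg]
    exact Real.exp_le_exp.2 (neg_le_neg hz)
  obtain ⟨Γ, T, hT, hS⟩ := hCo M (by exact_mod_cast (by linarith : (M0 : ℝ) ≤ M)) (Fin N)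
    ⌊(M : ℝ) / (X ^ 90) ^ 48⌋₊ (6 * (X ^ 90) ^ 6) (by positivity) (by
      refine le_trans ?_ ((hp (show 1 + 90 * 6 ≤ 6000 by norm_num)).trans hM)
      rw [← pow_mul, pow_add, pow_one]
      gcongr
      linarith) (by
      have l1 : Real.log (cd (Fin N) + 1) ≤ 2 * L := by
        rw [hc, show 2 * L = Real.log (N ^ 2) by rw [Real.log_pow, hLd]; norm_num]
        exact Real.log_le_log (by positivity) (by nlinarith)
      have l2 : Real.log M ≤ L := Real.log_le_log (by linarith) hMN'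
      have l3 : (⌊(M : ℝ) / (X ^ 90) ^ 48⌋₊ : ℝ) ≤ M / X ^ 2 := (Nat.floor_le (by positivity)).trans
        (by rw [← pow_mul]; gcongr; norm_num)
      refine (mul_le_mul l3 (show _ ≤ X by linarith) (add_nonneg (Real.log_nonneg (by
        rw [hc]; linarith)) (by positivity)) (by positivity)).trans ?_
      rw [div_mul_eq_mul_div, div_le_div_iff₀ (by positivity) (by norm_num)]
      nlinarith [mul_le_mul_of_nonneg_left (show 512 * X ≤ X ^ 2 by nlinarith) (Nat.cast_nonneg M)])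
  have := hT.ne.to_subtype
  have c0 : 0 < C0 * (L + 1) := by positivity
  have c1 : 6 * (C0 * (L + 1)) ≤ X := by nlinarith
  have s1 : (1 : ℝ) ≤ M / (C0 * (L + 1)) := by
    rw [one_le_div c0]
    linarith
  have s2 := (le_div_iff₀ c0).1 (Nat.floor_le (zero_le_one.trans s1))
  have s3 := (div_lt_iff₀ c0).1 (Nat.lt_floor_add_one (M / (C0 * (L + 1))))
  have s4 : 1 ≤ ⌊M / (C0 * (L + 1))⌋₊ := Nat.le_floor (by simpa using s1)
  generalize ⌊M / (C0 * (L + 1))⌋₊ = sp at s2 s3 s4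
  have s5 : (1 : ℝ) ≤ sp := by exact_mod_cast s4
  have h1 := hR (Fin N) M T _ (L + 1) sp hT.ne (Real.exp_pos _).le
    (Real.exp_le_one_iff.2 (neg_nonpos.2 (by positivity))) hT.sg (by rw [hc]) (by linarith)
  refine ⟨Γ, T, _, hT, (av_mono (g := fun x : Fin N → T => (ind (¬ Span Γ univ (fun i => rw (x i).1)
    ⌊(M : ℝ) / (X ^ 90) ^ 48⌋₊ (6 * (X ^ 90) ^ 6) (M / 10 ^ 6)) +
    ind (¬ RipAll univ (fun i => rw (x i).1) (Real.sqrt (C0 * (L + 1))) sp)) +
    ∑ i, ind (msq (rw (x i).1) < (M : ℝ) / 4)) fun x => ?_).trans ?_⟩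
  · have n1 := sum_nonneg fun i (_ : i ∈ univ) => ind_nonneg (msq (rw (x i).1) < (M : ℝ) / 4)
    refine ind_le (add_nonneg (add_nonneg (ind_nonneg _) (ind_nonneg _)) n1) fun h => ?_
    by_contra h'
    refine h ⟨not_not.1 fun h2 => h' ?_, ⟨Real.sqrt (C0 * (L + 1)), sp, Real.sqrt_nonneg _,
      Real.sqrt_le_iff.2
      ⟨by linarith, by nlinarith⟩, s4, by rw [Real.sq_sqrt c0.le]; linarith, by nlinarith,
      not_not.1 fun h2 => h' ?_⟩, fun i => not_lt.1 fun h2 => h' ?_⟩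
    · rw [ind_of h2]
      exact le_add_of_le_of_nonneg (le_add_of_nonneg_right (ind_nonneg _)) n1
    · rw [ind_of h2]
      exact le_add_of_le_of_nonneg (le_add_of_nonneg_left (ind_nonneg _)) n1
    · exact le_add_of_nonneg_of_le (add_nonneg (ind_nonneg _) (ind_nonneg _)) ((ind_of h2).ge.trans
        (single_le_sum (fun i _ => ind_nonneg (msq (rw (x i).1) < (M : ℝ) / 4)) (mem_univ i)))
  · rw [av_add, av_add, av_sum]
    have h2 : ∑ i : Fin N, av (fun x : Fin N → T => ind (msq (rw (x i).1) < (M : ℝ) / 4)) ≤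
        N * (1 / N * (1 / N)) := by
      refine (sum_le_card_nsmul univ _ (1 / N * (1 / N) : ℝ) fun i _ => ?_).trans (by simp)
      refine ((av_eval (β := fun _ : Fin N => T) i
        fun e => ind (msq (rw e.1) < (M : ℝ) / 4)).trans_le hT.nrm).trans ?_
      rw [show -(M / 64 : ℝ) = -(M / 128) + -(M / 128) by ring, Real.exp_add]
      exact mul_le_mul (eL _ (by linarith)) (eL _ (by linarith)) (by positivity) (by positivity)
    rw [hc] at h1
    have h3 := eL (M / 512) (by linarith)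
    have h4 := eL M (by linarith)
    have h5 : (N : ℝ) * (1 / N * (1 / N)) = 1 / N := by field_simp
    have h6 : (4 : ℝ) / N = 4 * (1 / N) := by ring
    linarith

variable {Γ : AddSubgroup (Fin M → ℝ)} {r s : ι → Fin M → ℤ} {J : Finset ι} {X : ℝ}

theorem ripAll_of {K K' : ℝ} {sp : ℕ} (h : RipAll univ r K sp) (hK : K ≤ K')
    (e : ∀ j ∈ J, s j = r j) : RipAll J s K' sp := fun T hT hc z q => by
  have e1 : offd T s z q = offd T r z q := sum_congr rfl fun j hj => sum_congr rfl fun l hl => by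
    simp only [gram, e j (hT hj), e l (hT (mem_of_mem_erase hl))]
  rw [e1]
  refine (h T (subset_univ _) hc z q).trans ?_
  have : 0 ≤ n2 T z := Real.sqrt_nonneg _
  have : 0 ≤ n2 T q := Real.sqrt_nonneg _
  gcongr

theorem LG.span' (h : LG Γ r X) (e : ∀ j ∈ J, s j = r j) :
    Span Γ J s ⌊(M : ℝ) / (X ^ 90) ^ 48⌋₊ (6 * (X ^ 90) ^ 6) (M / 10 ^ 6) :=
  fun T hT hc m hm α hα h1 => by
    obtain ⟨z, hz⟩ := h.span T (subset_univ _) hc m hm α hα (by
      refine lt_of_eq_of_lt (sum_congr rfl fun k _ => ?_) h1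
      rw [sum_congr rfl fun l hl => by rw [← e l (hT hl)]])
    exact ⟨z, fun k => (hz k).trans (sum_congr rfl fun l hl => by rw [e l (hT hl)])⟩

theorem LG.rip' (h : LG Γ r X) (e : ∀ j ∈ J, s j = r j) :
    ∃ sp2 : ℕ, (M : ℝ) ≤ X * sp2 ∧ RipAll J s X sp2 := by
  obtain ⟨K, sp, -, h2, -, -, h5, h6⟩ := h.rip
  exact ⟨sp, by linarith [Nat.cast_nonneg (α := ℝ) M], ripAll_of h6 h2 e⟩

theorem LG.nrm' (h : LG Γ r X) (e : ∀ j ∈ J, s j = r j) : ∀ j ∈ J, (M : ℝ) / 4 ≤ gram s j j :=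
  fun j hj => (h.nrm j).trans_eq (by simp only [msq, gram, e j hj, sq])

theorem LG.op (hCh : ChunkStmt) (h : LG Γ r X) (hX : 4 ≤ X) (e : ∀ j ∈ J, s j = r j)
    (ent : ∀ j k, |(s j k : ℝ)| ≤ 1) : ∀ T ⊆ J, Op T s (X * (M + T.card)) := fun T hT V => by
  obtain ⟨K, sp, h1, -, h3, h4, h5, h6⟩ := h.rip
  obtain ⟨c1, -, c3, -⟩ := hCh ι (Fin M) J s
  have s0 : (0 : ℝ) < sp := by exact_mod_cast h3
  have hc : cd (Fin M) = M := by simp [cd]
  have M0 := Nat.cast_nonneg (α := ℝ) M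
  refine (c3 _ sp (by rw [hc]; positivity) s0 ent
    (c1 K sp sp h1 h3 le_rfl (ripAll_of h6 le_rfl e)) T hT V).trans
    (mul_le_mul_of_nonneg_right ?_ (sum_nonneg fun _ _ => sq_nonneg _))
  rw [hc]
  have h7 : K * Real.sqrt (2 * M * sp) ≤ 3 / 2 * M := by
    refine abs_le_of_sq_le_sq' ?_ (by positivity) |>.2
    rw [mul_pow, Real.sq_sqrt (by positivity)]
    nlinarith [mul_le_mul_of_nonneg_left h4 M0]
  have h8 : 2 * (K * Real.sqrt (2 * M * sp)) * T.card / sp ≤ X * T.card := by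
    rw [div_le_iff₀ s0]
    nlinarith [mul_le_mul_of_nonneg_right (show 2 * (K * Real.sqrt (2 * M * sp)) ≤ X * sp by
      linarith) (Nat.cast_nonneg (α := ℝ) T.card)]
  nlinarith

theorem abs_rw_le (e : Fin M → Bool × Bool) (k : Fin M) : |(rw e k : ℝ)| ≤ 1 := by
  unfold rw
  split_ifs <;> norm_num

theorem exists_unit {v : Fin M → ℤ} (h1 : ∀ k, |(v k : ℝ)| ≤ 1) (h : 0 < msq v) :
    ∃ k, v k = 1 ∨ v k = -1 := by
  by_contra h'
  refine h.ne' (sum_eq_zero fun k _ => ?_)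
  have h2 : |v k| ≤ 1 := by exact_mod_cast h1 k
  have h3 := not_or.1 (not_exists.1 h' k)
  obtain h4 : v k = 0 := by
    rw [abs_le] at h2
    omega
  simp [h4]

end Vale.Agent.P318.B.Sys
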